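import Vale.Agent.Lib.P230.Defs

/-!
# P230, Lemma D: averaging over translates
-/

namespace Vale.Agent.P230

open MeasureTheory Set Filter
open scoped ENNReal Pointwise

lemma cube_eq_preimage (n : ℕ) (R : ℝ) :
    cube n R = (WithLp.ofLp : E n → (Fin n → ℝ)) ⁻¹' (Icc (fun _ => -R) (fun _ => R)) := by
  ext x
  simp only [cube, Set.mem_ofPred_eq, mem_preimage, mem_Icc, Pi.le_def, abs_le]
  exact ⟨fun h => ⟨fun i => (h i).1, fun i => (h i).2⟩, fun h i => ⟨h.1 i, h.2 i⟩⟩

lemma measurableSet_cube (n : ℕ) (R : ℝ) : MeasurableSet (cube n R) := by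
  rw [cube_eq_preimage]
  exact (PiLp.volume_preserving_ofLp (Fin n)).measurable measurableSet_Icc

lemma volume_cube (n : ℕ) {R : ℝ} (hR : 0 ≤ R) :
    volume (cube n R) = ENNReal.ofReal ((2 * R) ^ n) := by
  rw [cube_eq_preimage, (PiLp.volume_preserving_ofLp (Fin n)).measure_preimage
    measurableSet_Icc.nullMeasurableSet, Real.volume_Icc_pi]
  have : R - -R = 2 * R := by ring
  simp only [this]
  rw [Finset.prod_const, Finset.card_univ, Fintype.card_fin, ENNReal.ofReal_pow (by linarith)]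

lemma abs_coord_le_norm {n : ℕ} (x : E n) (i : Fin n) : |x i| ≤ ‖x‖ := by
  have := PiLp.norm_apply_le x i
  simpa using this

lemma isBounded_cube (n : ℕ) (R : ℝ) : Bornology.IsBounded (cube n R) := by
  rw [isBounded_iff_forall_norm_le]
  refine ⟨Real.sqrt (∑ _i : Fin n, R ^ 2), fun x hx => ?_⟩
  rw [EuclideanSpace.norm_eq]
  apply Real.sqrt_le_sqrt
  refine Finset.sum_le_sum fun i _ => ?_
  rw [Real.norm_eq_abs]
  have := hx i
  have h0 := abs_nonneg (x i)
  nlinarith

/-- For large `R`, the number of points in the slightly larger cube is at most `d (2R)ⁿ`. -/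
lemma exists_radius {n : ℕ} (X : Set (E n)) (d : ℝ) (hd : 0 < d)
    (hdens : upperDensity X < ENNReal.ofReal d) (r : ℝ) :
    ∃ R : ℝ, 0 < R ∧ ((X ∩ cube n (R + r)).encard : ℝ≥0∞) ≤ ENNReal.ofReal (d * (2 * R) ^ n) := by
  obtain ⟨d', hd', hdd'⟩ := exists_between hdens
  have hd'top : d' ≠ ⊤ := (hdd'.trans ENNReal.ofReal_lt_top).ne
  set e : ℝ := d'.toReal with he
  have hd'e : d' = ENNReal.ofReal e := (ENNReal.ofReal_toReal hd'top).symm
  have he0 : 0 ≤ e := ENNReal.toReal_nonneg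
  have hed : e < d := by
    rw [hd'e] at hdd'
    exact (ENNReal.ofReal_lt_ofReal_iff hd).mp hdd'
  have hev : ∀ᶠ R : ℝ in atTop, ((X ∩ cube n R).encard : ℝ≥0∞) / ENNReal.ofReal ((2 * R) ^ n) < d' :=
    eventually_lt_of_limsup_lt hd'
  have hev2 : ∀ᶠ R : ℝ in atTop, ((X ∩ cube n (R + r)).encard : ℝ≥0∞)
      / ENNReal.ofReal ((2 * (R + r)) ^ n) < d' :=
    (tendsto_atTop_add_const_right atTop r tendsto_id).eventually hev
  -- the ratio tends to one
  have hlim : Tendsto (fun R : ℝ => e * ((R + r) / R) ^ n) atTop (nhds (e * 1 ^ n)) := by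
    have h1 : Tendsto (fun R : ℝ => (R + r) / R) atTop (nhds 1) := by
      have h2 : Tendsto (fun R : ℝ => 1 + r * R⁻¹) atTop (nhds (1 + r * 0)) :=
        tendsto_const_nhds.add (tendsto_const_nhds.mul tendsto_inv_atTop_zero)
      rw [mul_zero, add_zero] at h2
      refine h2.congr' ?_
      filter_upwards [eventually_gt_atTop 0] with R hR
      field_simp
    exact tendsto_const_nhds.mul (h1.pow n)
  rw [one_pow, mul_one] at hlim
  have hev3 : ∀ᶠ R : ℝ in atTop, e * ((R + r) / R) ^ n < d := hlim.eventually_lt_const hed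
  obtain ⟨R, hR2, hR3, hR0, hRr⟩ := (hev2.and (hev3.and ((eventually_gt_atTop 0).and
    (eventually_gt_atTop (-r))))).exists
  refine ⟨R, hR0, ?_⟩
  have hpos : (0 : ℝ) < (2 * (R + r)) ^ n := by
    have : 0 < R + r := by linarith
    positivity
  have hne0 : ENNReal.ofReal ((2 * (R + r)) ^ n) ≠ 0 := by
    rw [Ne, ENNReal.ofReal_eq_zero, not_le]; exact hpos
  have h4 : ((X ∩ cube n (R + r)).encard : ℝ≥0∞) ≤ d' * ENNReal.ofReal ((2 * (R + r)) ^ n) :=
    (ENNReal.div_le_iff hne0 ENNReal.ofReal_ne_top).mp hR2.le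
  refine h4.trans ?_
  rw [hd'e, ← ENNReal.ofReal_mul he0]
  apply ENNReal.ofReal_le_ofReal
  have h5 : e * (2 * (R + r)) ^ n = (e * ((R + r) / R) ^ n) * (2 * R) ^ n := by
    rw [mul_assoc, ← mul_pow]
    congr 2
    field_simp
  rw [h5]
  exact mul_le_mul_of_nonneg_right hR3.le (by positivity)

theorem exists_translate {n : ℕ} (X : Set (E n)) (hX : LocFin X) (d : ℝ) (hd : 0 < d)
    (hdens : upperDensity X < ENNReal.ofReal d) (Φ : E n → ℝ≥0∞) (hΦ : Measurable Φ)
    (r : ℝ) (hr : ∀ x, r < ‖x‖ → Φ x = 0) :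
    ∃ y : E n, ∑' l : X, Φ ((l : E n) - y) ≤ ENNReal.ofReal d * ∫⁻ x, Φ x := by
  obtain ⟨R, hR0, hR⟩ := exists_radius X d hd hdens r
  have hfin : (X ∩ cube n (R + r)).Finite := hX _ (isBounded_cube n _)
  set S : Finset (E n) := hfin.toFinset with hS
  have hvol := volume_cube n hR0.le
  have hvolpos : volume (cube n R) ≠ 0 := by
    rw [hvol, Ne, ENNReal.ofReal_eq_zero, not_le]; positivity
  have hvoltop : volume (cube n R) ≠ ⊤ := by
    rw [hvol]; exact ENNReal.ofReal_ne_top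
  have hmeas : ∀ l : E n, Measurable fun y : E n => Φ (l - y) := fun l =>
    hΦ.comp (measurable_const.sub measurable_id)
  obtain ⟨y, hy, hle⟩ := exists_le_setLAverage (μ := volume) (s := cube n R)
    (f := fun y => ∑ l ∈ S, Φ (l - y)) hvolpos hvoltop
    (Finset.measurable_fun_sum S fun l _ => hmeas l).aemeasurable
  refine ⟨y, ?_⟩
  -- the sum over X reduces to the sum over S
  have hsum : ∑' l : X, Φ ((l : E n) - y) = ∑ l ∈ S, Φ (l - y) := by
    have h1 : ∑' l : X, Φ ((l : E n) - y) = ∑' l : E n, X.indicator (fun l => Φ (l - y)) l :=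
      tsum_subtype X fun l => Φ (l - y)
    rw [h1, tsum_eq_sum (s := S)]
    · refine Finset.sum_congr rfl fun l hl => ?_
      have : l ∈ X := ((Set.Finite.mem_toFinset hfin).mp hl).1
      rw [indicator_of_mem this]
    · intro l hl
      by_cases hlX : l ∈ X
      · rw [indicator_of_mem hlX]
        apply hr
        by_contra hcon
        push Not at hcon
        apply hl
        rw [hS, Set.Finite.mem_toFinset]
        refine ⟨hlX, fun i => ?_⟩
        have h2 := abs_coord_le_norm (l - y) i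
        have h3 : l i = (l - y) i + y i := by simp
        rw [h3]
        have h4 := hy i
        calc |(l - y) i + y i| ≤ |(l - y) i| + |y i| := abs_add_le _ _
          _ ≤ r + R := add_le_add (h2.trans hcon) h4
          _ = R + r := by ring
      · rw [indicator_of_notMem hlX]
  rw [hsum]
  refine hle.trans ?_
  rw [setLAverage_eq]
  have hint : ∫⁻ a in cube n R, ∑ l ∈ S, Φ (l - a) ≤ (S.card : ℝ≥0∞) * ∫⁻ x, Φ x := by
    rw [lintegral_finsetSum S fun l _ => hmeas l]
    calc ∑ l ∈ S, ∫⁻ a in cube n R, Φ (l - a) ≤ ∑ _l ∈ S, ∫⁻ x, Φ x := by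
          refine Finset.sum_le_sum fun l _ => ?_
          calc ∫⁻ a in cube n R, Φ (l - a) ≤ ∫⁻ a, Φ (l - a) := setLIntegral_le_lintegral _ _
            _ = ∫⁻ x, Φ x := lintegral_sub_left_eq_self Φ l
      _ = (S.card : ℝ≥0∞) * ∫⁻ x, Φ x := by rw [Finset.sum_const, nsmul_eq_mul]
  have hcard : (S.card : ℝ≥0∞) ≤ ENNReal.ofReal (d * (2 * R) ^ n) := by
    refine le_trans (le_of_eq ?_) hR
    rw [hfin.encard_eq_coe_toFinset_card]
    rfl
  rw [ENNReal.div_le_iff hvolpos hvoltop]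
  refine hint.trans ?_
  rw [hvol]
  calc (S.card : ℝ≥0∞) * ∫⁻ x, Φ x ≤ ENNReal.ofReal (d * (2 * R) ^ n) * ∫⁻ x, Φ x := by gcongr
    _ = ENNReal.ofReal d * (∫⁻ x, Φ x) * ENNReal.ofReal ((2 * R) ^ n) := by
        rw [ENNReal.ofReal_mul hd.le]; ring

end Vale.Agent.P230
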