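import Vale.Agent.Lib.P230.Defs

/-!
# Volume of spherical caps
-/

namespace Vale.Agent.P230

open MeasureTheory Set Filter
open scoped ENNReal Pointwise

theorem integral_t_mul (m : ℕ) (q : ℝ) :
    ∫ t in q..1, t * (1 - t ^ 2) ^ ((m : ℝ) / 2) =
      (1 - q ^ 2) ^ (((m : ℝ) + 2) / 2) / ((m : ℝ) + 2) := by
  have hm : (0 : ℝ) ≤ m := Nat.cast_nonneg m
  have key : ∀ t ∈ Set.uIcc q 1, HasDerivAt
      (fun t : ℝ => - ((1 - t ^ 2) ^ (((m : ℝ) + 2) / 2) / ((m : ℝ) + 2)))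
      (t * (1 - t ^ 2) ^ ((m : ℝ) / 2)) t := by
    intro t _
    have h1 : HasDerivAt (fun t : ℝ => 1 - t ^ 2) (-(2 * t)) t := by
      simpa using ((hasDerivAt_pow 2 t).const_sub 1)
    have h2 := h1.rpow_const (p := ((m : ℝ) + 2) / 2) (Or.inr (by linarith))
    have h3 := (h2.div_const ((m : ℝ) + 2)).neg
    have h4 : (m:ℝ) + 2 ≠ 0 := by positivity
    have e : ((m : ℝ) + 2) / 2 - 1 = (m : ℝ) / 2 := by ring
    rw [e] at h3
    have h5 : -(-(2 * t) * (((m : ℝ) + 2) / 2) * (1 - t ^ 2) ^ ((m : ℝ) / 2) / ((m : ℝ) + 2)) =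
        t * (1 - t ^ 2) ^ ((m : ℝ) / 2) := by
      field_simp
    rw [h5] at h3
    exact h3
  have hc : Continuous (fun t : ℝ => t * (1 - t ^ 2) ^ ((m : ℝ) / 2)) := by
    refine continuous_id.mul (Continuous.rpow_const (by fun_prop) ?_)
    intro x; right; positivity
  rw [intervalIntegral.integral_eq_sub_of_hasDerivAt key (hc.intervalIntegrable _ _)]
  have h4 : ((m:ℝ) + 2) / 2 ≠ 0 := by positivity
  have h5 : (1 - (1:ℝ) ^ 2) ^ (((m : ℝ) + 2) / 2) = 0 := by
    norm_num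
    exact Real.zero_rpow h4
  rw [h5]; simp

theorem integral_cap_bounds (m : ℕ) (q : ℝ) (hq0 : 0 < q) (hq1 : q < 1) :
    (1 - q ^ 2) ^ (((m : ℝ) + 2) / 2) / ((m : ℝ) + 2) ≤
      ∫ t in q..1, (1 - t ^ 2) ^ ((m : ℝ) / 2) ∧
    ∫ t in q..1, (1 - t ^ 2) ^ ((m : ℝ) / 2) ≤
      (1 - q ^ 2) ^ (((m : ℝ) + 2) / 2) / ((m : ℝ) + 2) / q := by
  have hm : (0 : ℝ) ≤ m := Nat.cast_nonneg m
  have hc0 : Continuous (fun t : ℝ => (1 - t ^ 2) ^ ((m : ℝ) / 2)) := by
    refine (Continuous.rpow_const (by fun_prop) ?_)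
    intro x; right; positivity
  have hc : Continuous (fun t : ℝ => t * (1 - t ^ 2) ^ ((m : ℝ) / 2)) :=
    continuous_id.mul hc0
  have hnn : ∀ t ∈ Set.Icc q 1, 0 ≤ (1 - t ^ 2) ^ ((m : ℝ) / 2) := by
    intro t ht
    apply Real.rpow_nonneg
    nlinarith [ht.1, ht.2]
  rw [← integral_t_mul m q]
  constructor
  · apply intervalIntegral.integral_mono_on hq1.le (hc.intervalIntegrable _ _)
      (hc0.intervalIntegrable _ _)
    intro t ht
    have := hnn t ht
    nlinarith [ht.1, ht.2]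
  · rw [div_eq_mul_inv _ q, ← intervalIntegral.integral_mul_const]
    apply intervalIntegral.integral_mono_on hq1.le (hc0.intervalIntegrable _ _)
      ((hc.mul continuous_const).intervalIntegrable _ _)
    intro t ht
    have h1 := hnn t ht
    have h2 : 1 ≤ t * q⁻¹ := by
      rw [← div_eq_mul_inv, one_le_div hq0]; exact ht.1
    calc (1 - t ^ 2) ^ ((m : ℝ) / 2) = 1 * (1 - t ^ 2) ^ ((m : ℝ) / 2) := by ring
      _ ≤ (t * q⁻¹) * (1 - t ^ 2) ^ ((m : ℝ) / 2) := by gcongr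
      _ = t * (1 - t ^ 2) ^ ((m : ℝ) / 2) * q⁻¹ := by ring

/-- The volume of the slices of the unit ball. -/
theorem volume_slice (m : ℕ) (r : ℝ) (hr : 0 ≤ r) :
    volume {y : Fin m → ℝ | ∑ i, y i ^ 2 ≤ r} =
      ENNReal.ofReal (r ^ ((m : ℝ) / 2)) * volume (Metric.ball (0 : E m) 1) := by
  have hms : MeasurableSet {y : Fin m → ℝ | ∑ i, y i ^ 2 ≤ r} := by
    apply measurableSet_le (by fun_prop) (by fun_prop)
  have h1 : volume {y : Fin m → ℝ | ∑ i, y i ^ 2 ≤ r} =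
      volume (Metric.closedBall (0 : E m) (Real.sqrt r)) := by
    rw [← (PiLp.volume_preserving_ofLp (Fin m)).measure_preimage hms.nullMeasurableSet]
    congr 1
    ext y
    simp only [mem_ofPred_eq, mem_preimage, Metric.mem_closedBall, dist_zero_right]
    rw [EuclideanSpace.norm_eq, Real.sqrt_le_sqrt_iff hr]
    simp
  rw [h1, Measure.addHaar_closedBall _ _ (Real.sqrt_nonneg r)]
  congr 2
  rw [finrank_euclideanSpace_fin, Real.sqrt_eq_rpow, ← Real.rpow_natCast, ← Real.rpow_mul hr]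
  congr 1
  ring

theorem volume_cap_e0 (m : ℕ) (q : ℝ) (hq0 : 0 < q) (hq1 : q < 1) :
    volume {u : E (m + 1) | ‖u‖ ≤ 1 ∧ q < u 0} =
      ENNReal.ofReal (∫ t in q..1, (1 - t ^ 2) ^ ((m : ℝ) / 2)) *
        volume (Metric.ball (0 : E m) 1) := by
  set S : Set (ℝ × (Fin m → ℝ)) := {p | p.1 ^ 2 + ∑ i, p.2 i ^ 2 ≤ 1 ∧ q < p.1} with hS
  have hSm : MeasurableSet S := by
    have h1 : MeasurableSet {p : ℝ × (Fin m → ℝ) | p.1 ^ 2 + ∑ i, p.2 i ^ 2 ≤ 1} :=
      measurableSet_le (by fun_prop) (by fun_prop)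
    have h2 : MeasurableSet {p : ℝ × (Fin m → ℝ) | q < p.1} :=
      measurableSet_lt (by fun_prop) (by fun_prop)
    exact h1.inter h2
  have hmp := (volume_preserving_piFinSuccAbove (fun _ : Fin (m + 1) => ℝ) 0).comp
    (PiLp.volume_preserving_ofLp (Fin (m + 1)))
  have h1 : volume {u : E (m + 1) | ‖u‖ ≤ 1 ∧ q < u 0} = volume S := by
    rw [← hmp.measure_preimage hSm.nullMeasurableSet]
    congr 1
    ext u
    simp only [hS, mem_ofPred_eq, mem_preimage]
    rw [EuclideanSpace.norm_eq, Real.sqrt_le_one]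
    rw [Fin.sum_univ_succ]
    simp [MeasurableEquiv.piFinSuccAbove, Fin.insertNthEquiv, Fin.tail]
  rw [h1, Measure.volume_eq_prod, Measure.prod_apply hSm]
  have h2 : ∀ t : ℝ, volume (Prod.mk t ⁻¹' S) =
      (Ioc q 1).indicator (fun t => ENNReal.ofReal ((1 - t ^ 2) ^ ((m : ℝ) / 2)) *
        volume (Metric.ball (0 : E m) 1)) t := by
    intro t
    by_cases ht : t ∈ Ioc q 1
    · rw [indicator_of_mem ht, ← volume_slice m (1 - t ^ 2) (by nlinarith [ht.1, ht.2])]
      congr 1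
      ext y
      simp only [hS, mem_ofPred_eq, mem_preimage]
      constructor
      · rintro ⟨h, -⟩; linarith
      · intro h; exact ⟨by linarith, ht.1⟩
    · rw [indicator_of_notMem ht]
      have : Prod.mk t ⁻¹' S = ∅ := by
        ext y
        simp only [hS, mem_ofPred_eq, mem_preimage, mem_empty_iff_false, iff_false, not_and,
          not_lt]
        intro h
        by_contra hc
        push Not at hc
        apply ht
        refine ⟨hc, ?_⟩
        have hs : 0 ≤ ∑ i, y i ^ 2 := Finset.sum_nonneg (fun i _ => sq_nonneg _)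
        nlinarith
      rw [this, measure_empty]
  simp_rw [h2]
  rw [lintegral_indicator measurableSet_Ioc, lintegral_mul_const']
  · congr 1
    rw [intervalIntegral.integral_of_le hq1.le, ofReal_integral_eq_lintegral_ofReal]
    · apply Continuous.integrableOn_Ioc
      refine (Continuous.rpow_const (by fun_prop) ?_)
      intro x; right; positivity
    · filter_upwards [ae_restrict_mem measurableSet_Ioc] with t ht
      apply Real.rpow_nonneg
      nlinarith [ht.1, ht.2]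
  · exact Metric.isBounded_ball.measure_lt_top.ne

theorem cap_bounds (n : ℕ) (hn : 1 ≤ n) : ∃ A : ℝ, 0 < A ∧ ∀ (w : E n) (s : ℝ), 0 < s → s < ‖w‖ →
    A * (1 - (s / ‖w‖) ^ 2) ^ (((n : ℝ) + 1) / 2)
        ≤ volume.real {u : E n | ‖u‖ ≤ 1 ∧ s < inner ℝ u w} ∧
      volume.real {u : E n | ‖u‖ ≤ 1 ∧ s < inner ℝ u w}
        ≤ A * (1 - (s / ‖w‖) ^ 2) ^ (((n : ℝ) + 1) / 2) / (s / ‖w‖) := by
  obtain ⟨m, rfl⟩ : ∃ m, n = m + 1 := ⟨n - 1, by omega⟩
  have hκ : 0 < volume.real (Metric.ball (0 : E m) 1) :=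
    ENNReal.toReal_pos (Metric.measure_ball_pos _ _ one_pos).ne'
      Metric.isBounded_ball.measure_lt_top.ne
  refine ⟨volume.real (Metric.ball (0 : E m) 1) / ((m : ℝ) + 2), by positivity, ?_⟩
  intro w s hs hsw
  have hw : 0 < ‖w‖ := hs.trans hsw
  set q : ℝ := s / ‖w‖ with hq
  have hq0 : 0 < q := by positivity
  have hq1 : q < 1 := (div_lt_one hw).2 hsw
  -- rotate
  have hcap : volume {u : E (m + 1) | ‖u‖ ≤ 1 ∧ s < inner ℝ u w} =
      volume {u : E (m + 1) | ‖u‖ ≤ 1 ∧ q < u 0} := by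
    set e : E (m + 1) := EuclideanSpace.single 0 (1 : ℝ) with he
    have hee : ‖‖w‖⁻¹ • w‖ = ‖e‖ := by
      rw [norm_smul, norm_inv, norm_norm, inv_mul_cancel₀ hw.ne', he]
      simp
    set ρ := (ℝ ∙ (‖w‖⁻¹ • w - e))ᗮ.reflection with hρ
    have hρe : ρ (‖w‖⁻¹ • w) = e := Submodule.reflection_sub hee
    have hmS : MeasurableSet {u : E (m + 1) | ‖u‖ ≤ 1 ∧ q < u 0} := by
      have h1 : MeasurableSet {u : E (m + 1) | ‖u‖ ≤ 1} :=
        measurableSet_le (by fun_prop) (by fun_prop)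
      have h2 : MeasurableSet {u : E (m + 1) | q < u 0} :=
        measurableSet_lt (by fun_prop) (by fun_prop)
      exact h1.inter h2
    rw [← ρ.measurePreserving.measure_preimage hmS.nullMeasurableSet]
    congr 1
    ext u
    simp only [mem_ofPred_eq, mem_preimage, LinearIsometryEquiv.norm_map]
    have h1 : (ρ u) 0 = inner ℝ u w / ‖w‖ := by
      have h3 : (ρ u) 0 = inner ℝ (ρ u) e := by
        rw [he, real_inner_comm, EuclideanSpace.inner_single_left]
        simp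
      rw [h3, ← hρe, LinearIsometryEquiv.inner_map_map, inner_smul_right]
      field_simp
    rw [h1, hq, div_lt_div_iff_of_pos_right hw]
  have hreal : volume.real {u : E (m + 1) | ‖u‖ ≤ 1 ∧ s < inner ℝ u w} =
      (∫ t in q..1, (1 - t ^ 2) ^ ((m : ℝ) / 2)) * volume.real (Metric.ball (0 : E m) 1) := by
    rw [measureReal_def, hcap, volume_cap_e0 m q hq0 hq1, ENNReal.toReal_mul, measureReal_def,
      ENNReal.toReal_ofReal]
    apply intervalIntegral.integral_nonneg hq1.le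
    intro t ht
    apply Real.rpow_nonneg
    nlinarith [ht.1, ht.2]
  obtain ⟨h1, h2⟩ := integral_cap_bounds m q hq0 hq1
  rw [hreal]
  have hexp : (((m + 1 : ℕ) : ℝ) + 1) / 2 = ((m : ℝ) + 2) / 2 := by push_cast; ring
  rw [hexp]
  constructor
  · calc volume.real (Metric.ball (0 : E m) 1) / ((m : ℝ) + 2) *
          (1 - q ^ 2) ^ (((m : ℝ) + 2) / 2)
        = ((1 - q ^ 2) ^ (((m : ℝ) + 2) / 2) / ((m : ℝ) + 2)) *
          volume.real (Metric.ball (0 : E m) 1) := by ring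
      _ ≤ _ := by gcongr
  · calc _ ≤ ((1 - q ^ 2) ^ (((m : ℝ) + 2) / 2) / ((m : ℝ) + 2) / q) *
          volume.real (Metric.ball (0 : E m) 1) := by gcongr
      _ = _ := by ring

end Vale.Agent.P230
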