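import Vale.Agent.Lib.P230.Defs2
import Vale.Agent.Lib.P230.Cap

/-!
# The estimates on caps used in the proof
-/

namespace Vale.Agent.P230

open MeasureTheory Set Filter
open scoped ENNReal Pointwise

theorem capv_eq_zero {n : ℕ} (w : E n) (s : ℝ) (hs : ‖w‖ ≤ s) : capv w s = 0 := by
  unfold capv
  have : {u : E n | ‖u‖ ≤ 1 ∧ s < inner ℝ u w} = ∅ := by
    ext u
    simp only [mem_ofPred_eq, mem_empty_iff_false, iff_false, not_and, not_lt]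
    intro hu
    calc inner ℝ u w ≤ ‖u‖ * ‖w‖ := real_inner_le_norm u w
      _ ≤ 1 * ‖w‖ := by gcongr
      _ ≤ s := by linarith
  rw [this]; simp

theorem cap_core (n : ℕ) (hn : 1 ≤ n) (β : ℝ) (hβ : 0 < β) : ∃ A : ℝ, 0 < A ∧
    (∀ (w : E n) (s x0 : ℝ), 0 < s → ‖w‖ ≤ 2 * s →
      (s < ‖w‖ → β + x0 ≤ (1 + β) * (s ^ 2 / ‖w‖ ^ 2)) →
      A⁻¹ * capv w s ≤ 2 * Real.exp (-(((n : ℝ) + 1) / 2 * x0))) ∧
    (∀ (w : E n) (s x0 : ℝ), 0 < s → s < ‖w‖ → 0 ≤ x0 → x0 ≤ 1 / 2 →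
      (1 + β) * (s ^ 2 / ‖w‖ ^ 2) ≤ β + x0 →
      Real.exp (-(((n : ℝ) + 1) * x0)) ≤ A⁻¹ * capv w s) := by
  obtain ⟨A0, hA0, hcap⟩ := cap_bounds n hn
  set p : ℝ := ((n : ℝ) + 1) / 2 with hp
  have hp0 : 0 < p := by positivity
  have h1β : 0 < 1 + β := by positivity
  have hb0 : 0 < ((1 + β)⁻¹) ^ p := Real.rpow_pos_of_pos (by positivity) _
  have hAinv : (A0 * ((1 + β)⁻¹) ^ p)⁻¹ = A0⁻¹ * (1 + β) ^ p := by
    rw [mul_inv, Real.inv_rpow h1β.le, inv_inv]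
  refine ⟨A0 * ((1 + β)⁻¹) ^ p, by positivity, ?_, ?_⟩
  · intro w s x0 hs hw hx
    rcases lt_or_ge s ‖w‖ with hsw | hsw
    · have hw0 : 0 < ‖w‖ := hs.trans hsw
      obtain ⟨-, h2⟩ := hcap w s hs hsw
      rw [hAinv]
      have hq : (s / ‖w‖) ^ 2 = s ^ 2 / ‖w‖ ^ 2 := div_pow _ _ _
      have hx' := hx hsw
      have hq1 : 0 ≤ 1 - (s / ‖w‖) ^ 2 := by
        have : s / ‖w‖ ≤ 1 := ((div_lt_one hw0).2 hsw).le
        have h3 : 0 ≤ s / ‖w‖ := by positivity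
        nlinarith
      have hq2 : (1 + β) * (1 - (s / ‖w‖) ^ 2) ≤ Real.exp (-x0) := by
        have h3 : (1 + β) * (1 - (s / ‖w‖) ^ 2) ≤ 1 - x0 := by rw [hq]; nlinarith
        exact h3.trans (Real.one_sub_le_exp_neg x0)
      have hq3 : 1 / (s / ‖w‖) ≤ 2 := by
        rw [one_div_div, div_le_iff₀ hs]; exact hw
      have hpow : (1 + β) ^ p * (1 - (s / ‖w‖) ^ 2) ^ p ≤ Real.exp (-(p * x0)) := by
        rw [← Real.mul_rpow h1β.le hq1]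
        calc ((1 + β) * (1 - (s / ‖w‖) ^ 2)) ^ p ≤ (Real.exp (-x0)) ^ p :=
              Real.rpow_le_rpow (mul_nonneg h1β.le hq1) hq2 hp0.le
          _ = Real.exp (-(p * x0)) := by
              rw [← Real.exp_mul]; congr 1; ring
      calc A0⁻¹ * (1 + β) ^ p * capv w s
          ≤ A0⁻¹ * (1 + β) ^ p * (A0 * (1 - (s / ‖w‖) ^ 2) ^ p / (s / ‖w‖)) := by
            gcongr; exact h2
        _ = (1 / (s / ‖w‖)) * ((1 + β) ^ p * (1 - (s / ‖w‖) ^ 2) ^ p) := by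
            field_simp
        _ ≤ 2 * Real.exp (-(p * x0)) := by
            gcongr
    · rw [capv_eq_zero w s hsw, mul_zero]; positivity
  · intro w s x0 hs hsw hx0 hx1 hx
    have hw0 : 0 < ‖w‖ := hs.trans hsw
    obtain ⟨h1, -⟩ := hcap w s hs hsw
    rw [hAinv]
    have hq : (s / ‖w‖) ^ 2 = s ^ 2 / ‖w‖ ^ 2 := div_pow _ _ _
    have hq1 : 0 ≤ 1 - (s / ‖w‖) ^ 2 := by
      have : s / ‖w‖ ≤ 1 := ((div_lt_one hw0).2 hsw).le
      have h3 : 0 ≤ s / ‖w‖ := by positivity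
      nlinarith
    have hq2 : Real.exp (-(2 * x0)) ≤ (1 + β) * (1 - (s / ‖w‖) ^ 2) := by
      have h3 : 1 - x0 ≤ (1 + β) * (1 - (s / ‖w‖) ^ 2) := by rw [hq]; nlinarith
      refine le_trans ?_ h3
      rw [Real.exp_neg]
      have h4 : 1 + 2 * x0 ≤ Real.exp (2 * x0) := by
        have := Real.add_one_le_exp (2 * x0); linarith
      rw [inv_le_comm₀ (Real.exp_pos _) (by linarith)]
      refine le_trans ?_ h4
      rw [inv_le_iff_one_le_mul₀ (by linarith)]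
      nlinarith
    have hpow : Real.exp (-(((n : ℝ) + 1) * x0)) ≤ (1 + β) ^ p * (1 - (s / ‖w‖) ^ 2) ^ p := by
      rw [← Real.mul_rpow h1β.le hq1]
      calc Real.exp (-(((n : ℝ) + 1) * x0)) = (Real.exp (-(2 * x0))) ^ p := by
            rw [← Real.exp_mul]; congr 1; rw [hp]; ring
        _ ≤ _ := Real.rpow_le_rpow (Real.exp_pos _).le hq2 hp0.le
    calc Real.exp (-(((n : ℝ) + 1) * x0)) ≤ (1 + β) ^ p * (1 - (s / ‖w‖) ^ 2) ^ p := hpow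
      _ = A0⁻¹ * (1 + β) ^ p * (A0 * (1 - (s / ‖w‖) ^ 2) ^ p) := by field_simp
      _ ≤ A0⁻¹ * (1 + β) ^ p * capv w s := by gcongr; exact h1

theorem midpoint_norm_sq {n : ℕ} (w w' : E n) :
    ‖(1 / 2 : ℝ) • (w + w')‖ ^ 2 = (‖w‖ ^ 2 + ‖w'‖ ^ 2) / 2 - ‖w - w'‖ ^ 2 / 4 := by
  have h1 := parallelogram_law_with_norm ℝ w w'
  rw [norm_smul, mul_pow, Real.norm_eq_abs, abs_of_pos (by norm_num : (0 : ℝ) < 1 / 2)]
  nlinarith

/-! ### Real inequalities -/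

namespace CU

theorem h_lt_one {β h : ℝ} (hβ : 1 ≤ β) (hh0 : 0 < h) (hβh : (1 + β) * h ^ 2 = β) : h < 1 := by
  by_contra hcon
  push Not at hcon
  have h1 : 1 ≤ h ^ 2 := one_le_pow₀ hcon
  have h2 : (1 + β) * 1 ≤ (1 + β) * h ^ 2 := mul_le_mul_of_nonneg_left h1 (by linarith)
  linarith

theorem h_ge {β h : ℝ} (hβ : 1 ≤ β) (hh0 : 0 < h) (hβh : (1 + β) * h ^ 2 = β) : 7 / 10 ≤ h := by
  by_contra hcon
  push Not at hcon
  have h1 : h ^ 2 ≤ (7 / 10) ^ 2 := pow_le_pow_left₀ hh0.le hcon.le 2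
  have h2 : (1 + β) * h ^ 2 ≤ (1 + β) * (7 / 10) ^ 2 :=
    mul_le_mul_of_nonneg_left h1 (by linarith)
  norm_num at h2
  linarith

theorem r1 {β δ : ℝ} (hβ : 1 ≤ β) (hδ0 : 0 ≤ δ) (hδ1 : δ ≤ 1 / 10) :
    β ≤ (β + 5 / 2 * β * δ) * (1 - δ) ^ 2 := by
  have h3 : 1 ≤ (1 + 5 / 2 * δ) * (1 - δ) ^ 2 := by
    have h1 : (1 + 5 / 2 * δ) * (1 - δ) ^ 2 = 1 + δ * (1 / 2 - 4 * δ) + 5 / 2 * δ ^ 3 := by ring
    rw [h1]
    have h2 : 0 ≤ δ * (1 / 2 - 4 * δ) := mul_nonneg hδ0 (by linarith)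
    have h4 : 0 ≤ 5 / 2 * δ ^ 3 := by positivity
    linarith
  have h5 : β * 1 ≤ β * ((1 + 5 / 2 * δ) * (1 - δ) ^ 2) :=
    mul_le_mul_of_nonneg_left h3 (by linarith)
  linarith

theorem r2 {β r W h : ℝ} (hβ : 1 ≤ β) (hr0 : 0 ≤ r) (hr1 : r ≤ 1 / 24)
    (hh1 : h < 1) (hβh : (1 + β) * h ^ 2 = β) (hW : 1 - r ≤ W) :
    (1 + β) * (h + r) ^ 2 ≤ (β + 7 * β * r) * W ^ 2 := by
  have h1 : (1 + β) * (h + r) ^ 2 ≤ β * (1 + 4 * r + 2 * r ^ 2) := by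
    have h0 : (1 + β) * (h + r) ^ 2 = (1 + β) * h ^ 2 + (1 + β) * (2 * h * r + r ^ 2) := by ring
    rw [h0, hβh]
    have h2 : 2 * h * r + r ^ 2 ≤ 2 * r + r ^ 2 := by nlinarith
    have h3 : 0 ≤ 2 * r + r ^ 2 := by positivity
    have h4 : (1 + β) * (2 * h * r + r ^ 2) ≤ (1 + β) * (2 * r + r ^ 2) :=
      mul_le_mul_of_nonneg_left h2 (by linarith)
    have h5 : (1 + β) * (2 * r + r ^ 2) ≤ (2 * β) * (2 * r + r ^ 2) :=
      mul_le_mul_of_nonneg_right (by linarith) h3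
    linarith
  have h4 : (1 - r) ^ 2 ≤ W ^ 2 := pow_le_pow_left₀ (by linarith) hW 2
  have h6 : 1 + 4 * r + 2 * r ^ 2 ≤ (1 + 7 * r) * (1 - r) ^ 2 := by
    have h7 : (1 + 7 * r) * (1 - r) ^ 2 - (1 + 4 * r + 2 * r ^ 2) = r * (1 - 15 * r) + 7 * r ^ 3 := by
      ring
    have h8 : 0 ≤ r * (1 - 15 * r) := mul_nonneg hr0 (by linarith)
    have h9 : 0 ≤ 7 * r ^ 3 := by positivity
    linarith
  have hb : 0 ≤ β := by linarith
  calc (1 + β) * (h + r) ^ 2 ≤ β * (1 + 4 * r + 2 * r ^ 2) := h1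
    _ ≤ β * ((1 + 7 * r) * (1 - r) ^ 2) := by gcongr
    _ = (β + 7 * β * r) * (1 - r) ^ 2 := by ring
    _ ≤ (β + 7 * β * r) * W ^ 2 := by gcongr

theorem r4 {β ρ y h Z : ℝ} (hβ : 1 ≤ β) (hρ0 : 0 < ρ) (hρ1 : ρ ≤ 1 / 10) (hh0 : 0 < h)
    (hh1 : h < 1) (hβh : (1 + β) * h ^ 2 = β) (hy0 : 0 < y) (hy1 : y ≤ 1)
    (hcond : 2 * (1 + β) * ρ ≤ β * y) (hZ0 : 0 ≤ Z) (hZ : Z ≤ 1 - y) :
    (β + (β * y - 2 * (1 + β) * ρ)) * Z ≤ (1 + β) * (h - ρ / 2) ^ 2 := by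
  have h5 : β - (1 + β) * ρ ≤ (1 + β) * (h - ρ / 2) ^ 2 := by
    have h0 : (1 + β) * (h - ρ / 2) ^ 2 = (1 + β) * h ^ 2 - (1 + β) * (h * ρ - ρ ^ 2 / 4) := by
      ring
    rw [h0, hβh]
    have h6 : h * ρ - ρ ^ 2 / 4 ≤ ρ := by nlinarith
    have h7 : (1 + β) * (h * ρ - ρ ^ 2 / 4) ≤ (1 + β) * ρ :=
      mul_le_mul_of_nonneg_left h6 (by linarith)
    linarith
  have h6 : (1 + β) * ρ * y ≤ (1 + β) * ρ * 1 :=
    mul_le_mul_of_nonneg_left hy1 (by positivity)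
  have h7 : β + (β * y - 2 * (1 + β) * ρ) ≤ (β - (1 + β) * ρ) * (1 + y) := by
    have h0 : (β - (1 + β) * ρ) * (1 + y) = β + β * y - (1 + β) * ρ - (1 + β) * ρ * y := by ring
    rw [h0]; linarith
  have h9 : β * y ≤ β * 1 := mul_le_mul_of_nonneg_left hy1 (by linarith)
  have h8 : 0 ≤ β - (1 + β) * ρ := by linarith
  have h10 : 0 ≤ 1 + y := by linarith
  calc (β + (β * y - 2 * (1 + β) * ρ)) * Z
      ≤ ((β - (1 + β) * ρ) * (1 + y)) * Z := by gcongr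
    _ = (β - (1 + β) * ρ) * ((1 + y) * Z) := by ring
    _ ≤ (β - (1 + β) * ρ) * ((1 + y) * (1 - y)) := by gcongr
    _ ≤ (β - (1 + β) * ρ) * 1 := by
        apply mul_le_mul_of_nonneg_left _ h8
        have : (1 + y) * (1 - y) = 1 - y ^ 2 := by ring
        rw [this]; linarith [sq_nonneg y]
    _ ≤ _ := by linarith

theorem r5 {β τ h Z : ℝ} (hβ : 1 ≤ β) (hτ0 : 0 ≤ τ)
    (hh1 : h < 1) (hβh : (1 + β) * h ^ 2 = β) (hZ0 : 0 ≤ Z) (hZ : Z ≤ 1) :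
    (β + -(4 * (1 + β) * τ)) * Z ≤ (1 + β) * (h - 2 * τ) ^ 2 := by
  have h5 : β - 4 * (1 + β) * τ ≤ (1 + β) * (h - 2 * τ) ^ 2 := by
    have h0 : (1 + β) * (h - 2 * τ) ^ 2 =
        (1 + β) * h ^ 2 - (1 + β) * (4 * (h * τ) - 4 * τ ^ 2) := by
      ring
    rw [h0, hβh]
    have h6 : 4 * (h * τ) - 4 * τ ^ 2 ≤ 4 * τ := by nlinarith
    have h7 : (1 + β) * (4 * (h * τ) - 4 * τ ^ 2) ≤ (1 + β) * (4 * τ) :=
      mul_le_mul_of_nonneg_left h6 (by linarith)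
    linarith
  have h6 : 0 ≤ (1 + β) * (h - 2 * τ) ^ 2 := by positivity
  rcases le_or_gt 0 (β + -(4 * (1 + β) * τ)) with h8 | h8
  · have := mul_le_mul_of_nonneg_left hZ h8
    linarith
  · have : (β + -(4 * (1 + β) * τ)) * Z ≤ 0 := mul_nonpos_of_nonpos_of_nonneg h8.le hZ0
    linarith

theorem sq_mid {a b c y t : ℝ} (ht0 : 0 ≤ t) (ht1 : t ≤ 1) (ha0 : 0 ≤ a) (hb0 : 0 ≤ b)
    (ha : a ≤ 1 + t) (hb : b ≤ 1 + t) (hc : y ≤ c / 4 - 3 * t) :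
    (a ^ 2 + b ^ 2) / 2 - c / 4 ≤ 1 - y := by
  have h1 : a ^ 2 ≤ (1 + t) ^ 2 := pow_le_pow_left₀ ha0 ha 2
  have h2 : b ^ 2 ≤ (1 + t) ^ 2 := pow_le_pow_left₀ hb0 hb 2
  have h3 : (1 + t) ^ 2 ≤ 1 + 3 * t := by nlinarith
  linarith

end CU

theorem cap_use (n : ℕ) (hn : 1 ≤ n) (β : ℝ) (hβ : 1 ≤ β) (h : ℝ) (hh0 : 0 < h)
    (hh : h ^ 2 = β / (1 + β)) : ∃ A : ℝ, 0 < A ∧
    -- (1) a single cap, threshold `h`
    (∀ (d : ℝ) (w : E n), 0 ≤ d → d ≤ 1 / 10 → 5 * β * d ≤ 1 → h < 1 - d → 1 - d < ‖w‖ →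
      Real.exp (-(5 * β * wgt w)) ≤ A⁻¹ * capv w h) ∧
    -- (2) a single cap, threshold `h + r`
    (∀ (d r : ℝ) (w : E n), 0 ≤ d → d ≤ 1 / 10 → d ≤ r → 24 * β * r ≤ 1 → h + r < 1 - d →
      1 - d < ‖w‖ → Real.exp (-(24 * β * (n * r))) ≤ A⁻¹ * capv w (h + r)) ∧
    -- (3) the midpoint cap of two caps, threshold `h`
    (∀ (τ η : ℝ) (w w' : E n), 0 ≤ τ → τ ≤ 1 / 10 → 0 ≤ η → 3 * τ ≤ η ^ 2 / 4 →
      ‖w‖ ≤ 1 + τ → ‖w'‖ ≤ 1 + τ → η ≤ ‖w - w'‖ → A⁻¹ * capv ((1 / 2 : ℝ) • (w + w')) h ≤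
        2 * Real.exp (-(n / 2 * β * (η ^ 2 / 4 - 3 * τ)))) ∧
    -- (4) the midpoint cap, threshold `h - ρ / 2`
    (∀ (τ η ρ : ℝ) (w w' : E n), 0 ≤ τ → 0 < ρ → τ + ρ ≤ 1 / 10 → 0 ≤ η → ‖w‖ ≤ 1 + τ →
      ‖w'‖ ≤ 1 + τ + ρ → η - ρ ≤ ‖w - w'‖ → ρ ≤ η → η ≤ 1 →
      2 * (1 + β) * ρ ≤ β * ((η - ρ) ^ 2 / 4 - 3 * (τ + ρ)) →
      A⁻¹ * capv ((1 / 2 : ℝ) • (w + w')) (h - ρ / 2) ≤
        2 * Real.exp (-(n / 2 * (β * ((η - ρ) ^ 2 / 4 - 3 * (τ + ρ)) - 2 * (1 + β) * ρ)))) ∧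
    -- (5) a point of the unit ball, threshold `h - 2 τ`
    (∀ (τ : ℝ) (w : E n), 0 ≤ τ → τ ≤ 1 / 20 → ‖w‖ ≤ 1 →
      A⁻¹ * capv w (h - 2 * τ) ≤ 2 * Real.exp (4 * n * (1 + β) * τ)) := by
  obtain ⟨A, hA, hup, hlo⟩ := cap_core n hn β (by linarith)
  have hn1 : (1 : ℝ) ≤ n := by exact_mod_cast hn
  have h1β : 0 < 1 + β := by linarith
  have hβ0 : 0 < β := by linarith
  have hβh : (1 + β) * h ^ 2 = β := by rw [hh]; field_simp
  have hhlt : h < 1 := CU.h_lt_one hβ hh0 hβh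
  have hhge : 7 / 10 ≤ h := CU.h_ge hβ hh0 hβh
  refine ⟨A, hA, ?_, ?_, ?_, ?_, ?_⟩
  · clear hup
    intro d w hd0 hd1 hd2 hhd hw
    have hw0 : 9 / 10 ≤ ‖w‖ := by linarith
    have hwg1 : 1 ≤ wgt w := le_max_left _ _
    have hwg2 : n * (1 - ‖w‖) ≤ wgt w := le_max_right _ _
    rcases le_or_gt 1 ‖w‖ with h1 | h1
    · have key := hlo w h 0 hh0 (by linarith) le_rfl (by norm_num) (by
        rw [add_zero, ← mul_div_assoc, hβh, div_le_iff₀ (by positivity)]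
        have : 1 ≤ ‖w‖ ^ 2 := one_le_pow₀ h1
        nlinarith)
      refine le_trans ?_ key
      apply Real.exp_le_exp.2
      have : 0 ≤ 5 * β * wgt w := by positivity
      linarith
    · set δ : ℝ := 1 - ‖w‖ with hδ
      have hδ0 : 0 < δ := by linarith
      have hδd : δ < d := by linarith
      have hβδ : β * δ ≤ 1 / 5 := by
        have : β * δ ≤ β * d := by gcongr
        linarith
      have key := hlo w h (5 / 2 * β * δ) hh0 (by linarith) (by positivity) (by linarith) (by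
        rw [← mul_div_assoc, hβh, div_le_iff₀ (by positivity)]
        have h2 : ‖w‖ = 1 - δ := by rw [hδ]; ring
        rw [h2]
        exact CU.r1 hβ hδ0.le (by linarith))
      refine le_trans ?_ key
      apply Real.exp_le_exp.2
      have h4 : ((n : ℝ) + 1) * δ ≤ 2 * wgt w := by
        have : ((n : ℝ) + 1) * δ = n * δ + δ := by ring
        linarith
      have h5 : β * (((n : ℝ) + 1) * δ) ≤ β * (2 * wgt w) := by gcongr
      linarith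
  · clear hup
    intro d r w hd0 hd1 hdr hr hhr hw
    have hw0 : 9 / 10 ≤ ‖w‖ := by linarith
    have hr0 : 0 ≤ r := hd0.trans hdr
    have hr1 : r ≤ 1 / 24 := by
      have : 1 * r ≤ β * r := by gcongr
      linarith
    have key := hlo w (h + r) (7 * β * r) (by linarith) (by linarith) (by positivity)
      (by linarith) (by
        rw [← mul_div_assoc, div_le_iff₀ (by positivity)]
        exact CU.r2 hβ hr0 hr1 hhlt hβh (by linarith))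
    refine le_trans ?_ key
    apply Real.exp_le_exp.2
    have h7 : ((n : ℝ) + 1) * (7 * β * r) ≤ (2 * n) * (7 * β * r) := by
      gcongr; linarith
    have h8 : 0 ≤ n * (β * r) := by positivity
    have h9 : (2 * n) * (7 * β * r) = 14 * (n * (β * r)) := by ring
    have h10 : 24 * β * (n * r) = 24 * (n * (β * r)) := by ring
    rw [h10]; linarith
  · clear hlo
    intro τ η w w' hτ0 hτ1 hη hτη hw hw' hww
    set y : ℝ := η ^ 2 / 4 - 3 * τ with hy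
    have hy0 : 0 ≤ y := by linarith
    have hmid := midpoint_norm_sq w w'
    set z : E n := (1 / 2 : ℝ) • (w + w') with hz
    have hz2 : ‖z‖ ^ 2 ≤ 1 - y := by
      rw [hmid]
      apply CU.sq_mid hτ0 (by linarith) (norm_nonneg _) (norm_nonneg _) hw hw'
      have h3 : η ^ 2 ≤ ‖w - w'‖ ^ 2 := by gcongr
      linarith
    have hz1 : ‖z‖ ≤ 1 := by
      rw [← sq_le_one_iff₀ (norm_nonneg z)]; linarith
    have key := hup z h (β * y) hh0 (by linarith) (by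
      intro hlt
      have hz0 : 0 < ‖z‖ := hh0.trans hlt
      rw [← mul_div_assoc, hβh, le_div_iff₀ (by positivity)]
      have h4 : (1 + y) * ‖z‖ ^ 2 ≤ 1 := by
        calc (1 + y) * ‖z‖ ^ 2 ≤ (1 + y) * (1 - y) := by gcongr
          _ = 1 - y ^ 2 := by ring
          _ ≤ 1 := by linarith [sq_nonneg y]
      calc (β + β * y) * ‖z‖ ^ 2 = β * ((1 + y) * ‖z‖ ^ 2) := by ring
        _ ≤ β * 1 := by gcongr
        _ = β := mul_one _)
    refine key.trans (mul_le_mul_of_nonneg_left (Real.exp_le_exp.2 ?_) (by norm_num))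
    have h11 : 0 ≤ β * y := by positivity
    have h12 : ((n : ℝ) + 1) / 2 * (β * y) = n / 2 * β * y + β * y / 2 := by ring
    rw [h12]; linarith
  · clear hlo
    intro τ η ρ w w' hτ0 hρ hτρ hη hw hw' hww hρη hη1 hcond
    set y : ℝ := (η - ρ) ^ 2 / 4 - 3 * (τ + ρ) with hy
    have hy0 : 0 < y := by
      by_contra hcon
      push Not at hcon
      have h1 : β * y ≤ 0 := mul_nonpos_of_nonneg_of_nonpos hβ0.le hcon
      have h2 : 0 < 2 * (1 + β) * ρ := by positivity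
      linarith
    have hy1 : y ≤ 1 := by
      have h1 : (η - ρ) ^ 2 ≤ 1 := by
        apply pow_le_one₀ (by linarith) (by linarith)
      rw [hy]; linarith
    have hmid := midpoint_norm_sq w w'
    set z : E n := (1 / 2 : ℝ) • (w + w') with hz
    have hz2 : ‖z‖ ^ 2 ≤ 1 - y := by
      rw [hmid]
      apply CU.sq_mid (t := τ + ρ) (by linarith) (by linarith) (norm_nonneg _) (norm_nonneg _)
        (by linarith) (by linarith)
      have h3 : (η - ρ) ^ 2 ≤ ‖w - w'‖ ^ 2 := by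
        have : 0 ≤ η - ρ := by linarith
        gcongr
      linarith
    have hz1 : ‖z‖ ≤ 1 := by
      rw [← sq_le_one_iff₀ (norm_nonneg z)]; linarith
    have hρ1 : ρ ≤ 1 / 10 := by linarith
    have key := hup z (h - ρ / 2) (β * y - 2 * (1 + β) * ρ) (by linarith) (by linarith) (by
      intro hlt
      have hz0 : 0 < ‖z‖ := lt_trans (by linarith) hlt
      rw [← mul_div_assoc, le_div_iff₀ (by positivity)]
      exact CU.r4 hβ hρ hρ1 hh0 hhlt hβh hy0 hy1 hcond (by positivity) hz2)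
    refine key.trans (mul_le_mul_of_nonneg_left (Real.exp_le_exp.2 ?_) (by norm_num))
    have h11 : 0 ≤ β * y - 2 * (1 + β) * ρ := by linarith
    have h12 : ((n : ℝ) + 1) / 2 * (β * y - 2 * (1 + β) * ρ) =
        n / 2 * (β * y - 2 * (1 + β) * ρ) + (β * y - 2 * (1 + β) * ρ) / 2 := by ring
    rw [h12]; linarith
  · clear hlo
    intro τ w hτ0 hτ1 hw
    have key := hup w (h - 2 * τ) (-(4 * (1 + β) * τ)) (by linarith) (by linarith) (by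
      intro hlt
      have hw0 : 0 < ‖w‖ := lt_trans (by linarith) hlt
      rw [← mul_div_assoc, le_div_iff₀ (by positivity)]
      exact CU.r5 hβ hτ0 hhlt hβh (by positivity) (pow_le_one₀ (norm_nonneg _) hw))
    refine key.trans (mul_le_mul_of_nonneg_left (Real.exp_le_exp.2 ?_) (by norm_num))
    have h11 : 0 ≤ (1 + β) * τ := by positivity
    have h12 : -(((n : ℝ) + 1) / 2 * -(4 * (1 + β) * τ)) =
        2 * (n + 1) * ((1 + β) * τ) := by ring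
    have h13 : 4 * (n : ℝ) * (1 + β) * τ = 4 * n * ((1 + β) * τ) := by ring
    rw [h12, h13]
    exact mul_le_mul_of_nonneg_right (by linarith) h11

end Vale.Agent.P230
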