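import Mathlib

/-!
# Definitions for P230 (worst-case covering density of convex bodies)
-/

namespace Vale.Agent.P230

open MeasureTheory Set Filter
open scoped ENNReal Pointwise

/-- The Euclidean space `ℝⁿ`. -/
abbrev E (n : ℕ) : Type := EuclideanSpace ℝ (Fin n)

/-- A convex body: a compact convex set with nonempty interior. -/
def IsConvexBody {n : ℕ} (K : Set (E n)) : Prop :=
  Convex ℝ K ∧ IsCompact K ∧ (interior K).Nonempty

/-- The cube `Q_R = [-R, R]ⁿ`. -/
def cube (n : ℕ) (R : ℝ) : Set (E n) := {x | ∀ i, |x i| ≤ R}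

/-- Locally finite: every bounded set contains finitely many points of `X`. -/
def LocFin {n : ℕ} (X : Set (E n)) : Prop :=
  ∀ S : Set (E n), Bornology.IsBounded S → (X ∩ S).Finite

/-- The upper density `limsup_{R → ∞} #(X ∩ Q_R) / (2R)ⁿ`. -/
noncomputable def upperDensity {n : ℕ} (X : Set (E n)) : ℝ≥0∞ :=
  limsup (fun R : ℝ => ((X ∩ cube n R).encard : ℝ≥0∞) / ENNReal.ofReal ((2 * R) ^ n)) atTop

/-- The translative covering density `θ_T(K)`. -/
noncomputable def thetaT {n : ℕ} (K : Set (E n)) : ℝ≥0∞ :=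
  ⨅ (X : Set (E n)) (_ : LocFin X) (_ : K + X = univ), volume K * upperDensity X

/-- The lattice covering density `θ_L(K)`: the infimum of `vol(K) / det Λ` over the full-rank
lattices `Λ` with `K + Λ = ℝⁿ`. -/
noncomputable def thetaL {n : ℕ} (K : Set (E n)) : ℝ≥0∞ :=
  ⨅ (L : Submodule ℤ (E n)) (_ : DiscreteTopology L) (_ : IsZLattice ℝ L)
    (_ : K + (L : Set (E n)) = univ), volume K / ENNReal.ofReal (ZLattice.covolume L)

/-- `Θ_T(n) = sup_K θ_T(K)` over all convex bodies `K ⊂ ℝⁿ`. -/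
noncomputable def ThetaT (n : ℕ) : ℝ≥0∞ :=
  ⨆ (K : Set (E n)) (_ : IsConvexBody K), thetaT K

/-- `Θ_L(n) = sup_K θ_L(K)` over all convex bodies `K ⊂ ℝⁿ`. -/
noncomputable def ThetaL (n : ℕ) : ℝ≥0∞ :=
  ⨆ (K : Set (E n)) (_ : IsConvexBody K), thetaL K

end Vale.Agent.P230
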