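import Vale.Agent.Lib.P230.Defs

/-! Auxiliary definitions for P230: caps, weights, test families and the numerical parameters. -/

namespace Vale.Agent.P230

open MeasureTheory Set Filter
open scoped ENNReal Pointwise

/-- volume of a cap. -/
noncomputable def capv {n : ℕ} (w : E n) (s : ℝ) : ℝ :=
  volume.real {u : E n | ‖u‖ ≤ 1 ∧ s < inner ℝ u w}

/-- The weight of a vector. -/
noncomputable def wgt {n : ℕ} (z : E n) : ℝ := max 1 (n * (1 - ‖z‖))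

/-- the centres relevant for the point `z`. -/
noncomputable def near {n : ℕ} (X : Finset (E n)) (τ : ℝ) (z : E n) : Finset (E n) := by
  classical exact X.filter (fun l => ‖z - l‖ ≤ 1 + τ)

lemma mem_near {n : ℕ} {X : Finset (E n)} {τ : ℝ} {z l : E n} :
    l ∈ near X τ z ↔ l ∈ X ∧ ‖z - l‖ ≤ 1 + τ := by
  classical
  simp [near]

/-- The weight function used for selection. -/
noncomputable def W (n : ℕ) (τ d L : ℝ) (z : E n) : ℝ≥0∞ :=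
  (∑ t ∈ Finset.range (n + 1),
    (Metric.closedBall (0 : E n) (1 + 2 * τ - t / n)).indicator (fun _ => (1 : ℝ≥0∞)) z) +
    (Metric.closedBall (0 : E n) (1 - d + τ)).indicator (fun _ => ENNReal.ofReal L) z

/-- A good family of test points for the finite set `X` of centres. -/
def GoodFam {n : ℕ} (X : Finset (E n)) (k T : ℕ) (τ ρ d η₂ η₃ B : ℝ) (y : Fin k → E n)
    (x : Fin k → Fin T → E n) : Prop :=
  (∀ i a, ‖x i a - y i‖ ≤ ρ) ∧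
  (∀ i j, i ≠ j → ∀ l ∈ X, ∀ l' ∈ X, η₂ ≤ ‖(y i - l) - (y j - l')‖) ∧
  (∀ i a b, a ≠ b → ∀ l ∈ X, ∀ l' ∈ X, η₃ ≤ ‖(x i a - l) - (x i b - l')‖) ∧
  (∀ i a, ∑ l ∈ near X τ (x i a), wgt (x i a - l) ≤ B) ∧
  (∀ i a, ∀ l ∈ near X τ (x i a), 1 - d < ‖x i a - l‖)

namespace Par

noncomputable def β : ℝ := 4000000
noncomputable def h : ℝ := Real.sqrt (β / (1 + β))
noncomputable def ρ : ℝ := 1 / 4000000
noncomputable def η₂ : ℝ := 1 / 200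
noncomputable def a₁ : ℝ := 5 * β
noncomputable def a₂ : ℝ := 24 * β
noncomputable def c₀ : ℝ := 1 / 10 ^ 11
noncomputable def m (n : ℕ) : ℝ := (n : ℝ) ^ (1 / 32 : ℝ)
noncomputable def r (n : ℕ) : ℝ := 1 / m n ^ 12
noncomputable def d (n : ℕ) : ℝ := 1 / m n ^ 28
noncomputable def η₃ (n : ℕ) : ℝ := 1 / m n
noncomputable def τ (n : ℕ) : ℝ := 1 / (n : ℝ) ^ 2
noncomputable def S (n : ℕ) : ℕ := ⌈m n ^ 24⌉₊
noncomputable def D (n : ℕ) : ℝ := c₀ * n * Real.log n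
noncomputable def B (n : ℕ) : ℝ := 24 * D n
noncomputable def L (n : ℕ) : ℝ := B n + 1
noncomputable def T (n : ℕ) : ℕ := ⌊(ρ / (16 * η₃ n)) ^ n / 2⌋₊
noncomputable def ε (n : ℕ) : ℝ := Real.exp (-(5 * n))
noncomputable def e₃ (n : ℕ) : ℝ :=
  2 * Real.exp (-(n / 2 * β * (r n ^ 2 / 4 - 3 * τ n))) + ε n
noncomputable def e₄ (n : ℕ) : ℝ :=
  2 * Real.exp (-(n / 2 * (β * ((η₂ - ρ) ^ 2 / 4 - 3 * (τ n + ρ)) - 2 * (1 + β) * ρ))) + ε n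
noncomputable def e₅ (n : ℕ) : ℝ :=
  2 * Real.exp (-(n / 2 * β * (η₃ n ^ 2 / 4 - 3 * τ n))) + ε n

/-- All numerical inequalities. -/
structure NumOK (n : ℕ) : Prop where
  hn : 2 ≤ n
  hm : 0 < m n
  hS : 0 < S n
  hT : 0 < T n
  hD : 0 < D n
  hτ : τ n ≤ 1 / 10 ^ 7
  hη₃ : η₃ n ≤ 1
  d_le : d n ≤ 1 / 10
  d_le' : 5 * β * d n ≤ 1
  d_lt : h < 1 - d n
  dr : d n ≤ r n
  r_le : 24 * β * r n ≤ 1
  r_lt : h + r n < 1 - d n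
  τr : 3 * τ n ≤ r n ^ 2 / 4
  τη : 3 * τ n ≤ η₃ n ^ 2 / 4
  n1 : B n * e₃ n + (5 : ℝ) ^ n * 4 ^ n * e₄ n + ε n ≤ Real.exp (-(a₁ * (1 + n * d n))) / 2
  n2 : (5 : ℝ) ^ n * 4 ^ n * e₄ n + ε n ≤ Real.exp (-(a₂ * (n * r n))) / 2
  n3 : 1 / (T n : ℝ) ≤ Real.exp (-((a₁ + 2) * B n + (a₂ * (n * r n) + 2) * (B n / S n)))
  n4 : B n ^ 2 * e₅ n *
    (Real.exp ((a₁ + 2) * (1 + n * d n) * S n + (a₂ * (n * r n) + 2) * (B n / S n))) ^ 2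
      ≤ Real.log 2
  s1 : 2 * (5 : ℝ) ^ n * (4 ^ n) ^ 2 * η₂ ^ n ≤ 1
  s2 : 2 * (T n : ℝ) * (4 ^ n) ^ 2 * η₃ n ^ n ≤ ρ ^ n
  s3 : 2 * D n * 3 ^ n ≤ 4 ^ n
  w1 : Real.exp (2 * τ n * n) ≤ 11 / 10
  w2 : L n * (1 - d n + τ n) ^ n ≤ 1
  u1 : ((6 * n / τ n + 4) ^ n + 1 : ℝ) ^ (4 ^ n) * (2 / 3 : ℝ) ^ (5 ^ n) ≤ Real.exp (-13)
  q1 : 4 * n * (1 + β) * τ n ≤ 1 / 10

end Par

end Vale.Agent.P230
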