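import Vale.Agent.Lib.P230.LatticeCov

/-!
# P230: transfer between `EuclideanSpace ℝ (Fin n)` and `Fin n → ℝ`, and lattices as `A ℤⁿ`
-/

namespace Vale.Agent.P230.Expl

open MeasureTheory Set Filter
open scoped ENNReal Pointwise

variable {n : ℕ}

/-- the coordinate isomorphism -/
noncomputable def ce (n : ℕ) : E n ≃L[ℝ] (Fin n → ℝ) :=
  PiLp.continuousLinearEquiv 2 ℝ (fun _ : Fin n => ℝ)

theorem ce_apply (x : E n) : ce n x = WithLp.ofLp x := rfl

theorem ce_mp : MeasurePreserving (ce n) := PiLp.volume_preserving_ofLp (Fin n)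

theorem ce_symm_mp : MeasurePreserving (ce n).symm := PiLp.volume_preserving_toLp (Fin n)

theorem body_pre {K : Set (Fin n → ℝ)} (h1 : Convex ℝ K) (h2 : IsCompact K)
    (h3 : (interior K).Nonempty) : IsConvexBody (ce n ⁻¹' K) := by
  refine ⟨h1.linear_preimage (ce n : E n →ₗ[ℝ] (Fin n → ℝ)), ?_, ?_⟩
  · exact (ce n).toHomeomorph.isCompact_preimage.2 h2
  · have : interior (ce n ⁻¹' K) = ce n ⁻¹' interior K :=
      ((ce n).toHomeomorph.preimage_interior K).symm
    rw [this]
    exact h3.preimage (ce n).surjective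

theorem body_pre_symm {K : Set (E n)} (h : IsConvexBody K) :
    Convex ℝ ((ce n).symm ⁻¹' K) ∧ IsCompact ((ce n).symm ⁻¹' K) ∧
      (interior ((ce n).symm ⁻¹' K)).Nonempty := by
  refine ⟨h.1.linear_preimage ((ce n).symm : (Fin n → ℝ) →ₗ[ℝ] E n), ?_, ?_⟩
  · exact (ce n).symm.toHomeomorph.isCompact_preimage.2 h.2.1
  · have : interior ((ce n).symm ⁻¹' K) = (ce n).symm ⁻¹' interior K :=
      ((ce n).symm.toHomeomorph.preimage_interior K).symm
    rw [this]
    exact h.2.2.preimage (ce n).symm.surjective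

theorem vol_pre_symm {K : Set (E n)} (h : IsConvexBody K) :
    volume ((ce n).symm ⁻¹' K) = volume K :=
  ce_symm_mp.measure_preimage h.2.1.measurableSet.nullMeasurableSet

theorem vol_pre {K : Set (Fin n → ℝ)} (h : IsCompact K) : volume (ce n ⁻¹' K) = volume K :=
  ce_mp.measure_preimage h.measurableSet.nullMeasurableSet

theorem add_pre (K X : Set (Fin n → ℝ)) :
    ce n ⁻¹' K + ce n ⁻¹' X = univ ↔ K + X = univ := by
  constructor
  · intro h
    refine eq_univ_of_forall fun y => ?_
    have hy : (ce n).symm y ∈ ce n ⁻¹' K + ce n ⁻¹' X := by rw [h]; trivial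
    obtain ⟨k, hk, x, hx, hkx⟩ := mem_add.1 hy
    refine mem_add.2 ⟨ce n k, hk, ce n x, hx, ?_⟩
    rw [← map_add, hkx, ContinuousLinearEquiv.apply_symm_apply]
  · intro h
    refine eq_univ_of_forall fun y => ?_
    have hy : ce n y ∈ K + X := by rw [h]; trivial
    obtain ⟨k, hk, x, hx, hkx⟩ := mem_add.1 hy
    refine mem_add.2 ⟨(ce n).symm k, ?_, (ce n).symm x, ?_, ?_⟩
    · rwa [mem_preimage, ContinuousLinearEquiv.apply_symm_apply]
    · rwa [mem_preimage, ContinuousLinearEquiv.apply_symm_apply]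
    · rw [← map_add, hkx, ContinuousLinearEquiv.symm_apply_apply]

theorem symm_pre (K : Set (E n)) : ce n ⁻¹' ((ce n).symm ⁻¹' K) = K := by
  ext x
  simp

theorem cube_pre (R : ℝ) : cube n R = ce n ⁻¹' Icc (fun _ => -R) (fun _ => R) := by
  ext x
  simp only [cube, mem_ofPred_eq, mem_preimage, mem_Icc, Pi.le_def, abs_le, ce_apply]
  exact forall_and

theorem encard_pre (X : Set (Fin n → ℝ)) : (ce n ⁻¹' X).encard = X.encard := by
  exact encard_preimage_of_bijective (ce n).bijective X

theorem upper_pre (X : Set (Fin n → ℝ)) : upperDensity (ce n ⁻¹' X) =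
    limsup (fun R : ℝ => ((X ∩ Icc (fun _ => -R) (fun _ => R)).encard : ℝ≥0∞) /
      ENNReal.ofReal ((2 * R) ^ n)) atTop := by
  unfold upperDensity
  simp only [cube_pre, ← preimage_inter, encard_pre]

theorem locFin_pre {X : Set (Fin n → ℝ)} :
    LocFin (ce n ⁻¹' X) ↔ ∀ S : Set (Fin n → ℝ), Bornology.IsBounded S → (X ∩ S).Finite := by
  constructor
  · intro h S hS
    have h1 := h (ce n ⁻¹' S) ((ce n).antilipschitz.isBounded_preimage hS)
    rw [← preimage_inter] at h1
    exact h1.of_preimage (ce n).surjective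
  · intro h S hS
    have h1 := h (ce n '' S) ((ce n).lipschitz.isBounded_image hS)
    have h2 : (ce n ⁻¹' (X ∩ ce n '' S)).Finite := h1.preimage (ce n).injective.injOn
    refine h2.subset fun x hx => ⟨hx.1, mem_image_of_mem _ hx.2⟩

end Vale.Agent.P230.Expl
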