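import Vale.Agent.Lib.P230.Explicit

/-!
# P230: full-rank lattices as sets `A ℤⁿ`
-/

namespace Vale.Agent.P230.Expl

open MeasureTheory Set Filter Module
open scoped ENNReal Pointwise

variable {n : ℕ}

/-- `A ℤⁿ` -/
def AZ (A : Matrix (Fin n) (Fin n) ℝ) : Set (Fin n → ℝ) :=
  range fun z : Fin n → ℤ => A.mulVec fun i => (z i : ℝ)

theorem mulVec_sum (A : Matrix (Fin n) (Fin n) ℝ) (z : Fin n → ℤ) :
    A.mulVec (fun i => (z i : ℝ)) = ∑ i, z i • A.transpose i := by
  ext j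
  rw [Finset.sum_apply, Matrix.mulVec, dotProduct]
  refine Finset.sum_congr rfl fun i _ => ?_
  rw [Pi.smul_apply, Matrix.transpose_apply, zsmul_eq_mul, mul_comm]

theorem lat_to_matrix (L : Submodule ℤ (E n)) [DiscreteTopology L] [IsZLattice ℝ L] :
    ∃ A : Matrix (Fin n) (Fin n) ℝ, A.det ≠ 0 ∧ (L : Set (E n)) = ce n ⁻¹' AZ A ∧
      ZLattice.covolume L = |A.det| := by
  obtain ⟨L₀, hL₀⟩ : ∃ L₀ : Submodule ℤ (Fin n → ℝ),
      L₀ = ZLattice.comap ℝ L ((ce n).symm.toLinearEquiv : (Fin n → ℝ) →ₗ[ℝ] E n) := ⟨_, rfl⟩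
  have i1 : DiscreteTopology L₀ := by
    rw [hL₀]
    exact ZLattice.comap_discreteTopology ℝ L (ce n).symm.continuous (ce n).symm.injective
  have i2 : IsZLattice ℝ L₀ := by
    subst hL₀
    exact instIsZLatticeComap ℝ L (ce n).symm
  have hcov : ZLattice.covolume L₀ = ZLattice.covolume L := by
    rw [hL₀]
    exact ZLattice.covolume_comap L volume volume (e := (ce n).symm) ce_symm_mp
  obtain ⟨b⟩ : Nonempty (Basis (Fin n) ℤ L₀) := ⟨IsZLattice.basis L₀⟩
  have hdet : ZLattice.covolume L₀ = |(Matrix.of (fun i => ((b i : Fin n → ℝ)))).det| :=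
    ZLattice.covolume_eq_det L₀ b
  have hne : ZLattice.covolume L₀ ≠ 0 := ZLattice.covolume_ne_zero L₀ volume
  refine ⟨(Matrix.of (fun i => ((b i : Fin n → ℝ)))).transpose, ?_, ?_, ?_⟩
  · rw [Matrix.det_transpose]
    intro h
    rw [hdet, h, abs_zero] at hne
    exact hne rfl
  · have h1 : (L₀ : Set (Fin n → ℝ)) =
        AZ (Matrix.of (fun i => ((b i : Fin n → ℝ)))).transpose := by
      ext x
      constructor
      · intro hx
        refine ⟨fun i => b.repr ⟨x, hx⟩ i, ?_⟩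
        dsimp only
        rw [mulVec_sum, Matrix.transpose_transpose]
        have h2 := congrArg (fun y : L₀ => (y : Fin n → ℝ)) (b.sum_repr ⟨x, hx⟩)
        simp only [Submodule.coe_sum, Submodule.coe_smul] at h2
        exact h2
      · rintro ⟨z, rfl⟩
        simp only [SetLike.mem_coe]
        rw [mulVec_sum, Matrix.transpose_transpose]
        exact sum_mem fun i _ => L₀.smul_mem _ (b i).2
    rw [← h1, hL₀]
    ext x
    simp
  · rw [Matrix.det_transpose, ← hdet, hcov]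

theorem matrix_to_lat {A : Matrix (Fin n) (Fin n) ℝ} (hA : A.det ≠ 0) :
    ∃ (L : Submodule ℤ (E n)) (_ : DiscreteTopology L), IsZLattice ℝ L ∧
      (L : Set (E n)) = ce n ⁻¹' AZ A ∧ ZLattice.covolume L = |A.det| := by
  have hinv : Invertible A := A.invertibleOfIsUnitDet (isUnit_iff_ne_zero.2 hA)
  obtain ⟨b, hb⟩ : ∃ b : Basis (Fin n) ℝ (Fin n → ℝ), ∀ i, b i = A.transpose i := by
    refine ⟨(Pi.basisFun ℝ (Fin n)).map (A.toLinearEquiv' hinv), fun i => ?_⟩
    ext j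
    simp [Matrix.toLinearEquiv']
  obtain ⟨L₀, hL₀⟩ : ∃ L₀ : Submodule ℤ (Fin n → ℝ), L₀ = Submodule.span ℤ (range b) :=
    ⟨_, rfl⟩
  have i1 : DiscreteTopology L₀ := by rw [hL₀]; infer_instance
  have i2 : IsZLattice ℝ L₀ := by subst hL₀; infer_instance
  have hcov0 : ZLattice.covolume L₀ = |A.det| := by
    subst hL₀
    rw [ZLattice.covolume_eq_det _ (b.restrictScalars ℤ), ← Matrix.det_transpose A]
    congr 2
    ext i j
    simp [hb]
  have h1 : (L₀ : Set (Fin n → ℝ)) = AZ A := by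
    ext x
    rw [hL₀, SetLike.mem_coe, Submodule.mem_span_range_iff_exists_fun]
    unfold AZ
    simp only [mem_range, mulVec_sum, hb]
  refine ⟨ZLattice.comap ℝ L₀ ((ce n).toLinearEquiv : E n →ₗ[ℝ] (Fin n → ℝ)), ?_, ?_, ?_, ?_⟩
  · exact ZLattice.comap_discreteTopology ℝ L₀ (ce n).continuous (ce n).injective
  · exact instIsZLatticeComap ℝ L₀ (ce n)
  · rw [ZLattice.coe_comap, h1]
    rfl
  · rw [← hcov0]
    exact ZLattice.covolume_comap L₀ volume volume (e := ce n) ce_mp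

end Vale.Agent.P230.Expl
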