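import Vale.Agent.Lib.P230.Defs

/-! Greedy selection and clustering for P230. -/

namespace Vale.Agent.P230

open MeasureTheory Set Filter
open scoped ENNReal Pointwise

/-- One greedy step. -/
theorem greedy_step {n : ℕ} (A : Set (E n)) (hA : MeasurableSet A) (hA0 : volume A ≠ 0)
    (hA1 : volume A ≠ ∞) (f : E n → ℝ≥0∞) (hf : Measurable f) (C : ℝ≥0∞)
    (hC : ∫⁻ x in A, f x ≤ C * volume A) (F : Set (E n)) (hF : MeasurableSet F)
    (hFv : 2 * volume F ≤ volume A) :
    ∃ x ∈ A \ F, f x ≤ 2 * C := by
  have hle : volume A ≤ volume (A \ F) + volume F := by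
    calc volume A ≤ volume ((A \ F) ∪ F) := measure_mono (by
            intro x hx; by_cases h : x ∈ F
            · exact Or.inr h
            · exact Or.inl ⟨hx, h⟩)
      _ ≤ _ := measure_union_le _ _
  have hFfin : volume F ≠ ∞ := by
    intro h
    rw [h] at hFv
    apply hA1
    have : (2 : ℝ≥0∞) * ∞ = ∞ := by simp
    rw [this] at hFv
    exact top_le_iff.mp hFv
  have hge : volume A ≤ 2 * volume (A \ F) := by
    have h2 : volume A + volume A ≤ volume A + 2 * volume (A \ F) := by
      calc volume A + volume A = 2 * volume A := by ring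
        _ ≤ 2 * (volume (A \ F) + volume F) := by gcongr
        _ = 2 * volume F + 2 * volume (A \ F) := by ring
        _ ≤ volume A + 2 * volume (A \ F) := by gcongr
    exact (ENNReal.add_le_add_iff_left hA1).mp h2
  have hpos : volume (A \ F) ≠ 0 := by
    intro h
    rw [h, mul_zero] at hge
    exact hA0 (le_antisymm hge bot_le)
  have hfin : volume (A \ F) ≠ ∞ := ne_top_of_le_ne_top hA1 (measure_mono diff_subset)
  obtain ⟨x, hx, hfx⟩ := exists_le_setLAverage (μ := volume) (f := f) hpos hfin
    hf.aemeasurable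
  refine ⟨x, hx, hfx.trans ?_⟩
  rw [setLAverage_eq]
  have h1 : ∫⁻ x in A \ F, f x ≤ C * volume A :=
    (lintegral_mono_set diff_subset).trans hC
  rw [ENNReal.div_le_iff hpos hfin]
  calc ∫⁻ x in A \ F, f x ≤ C * volume A := h1
    _ ≤ C * (2 * volume (A \ F)) := by gcongr
    _ = 2 * C * volume (A \ F) := by ring

/-- LEMMA E. -/
theorem greedy {n : ℕ} (A : Set (E n)) (hA : MeasurableSet A) (hA0 : volume A ≠ 0)
    (hA1 : volume A ≠ ∞) (f : E n → ℝ≥0∞) (hf : Measurable f) (C : ℝ≥0∞)
    (hC : ∫⁻ x in A, f x ≤ C * volume A) (D : Set (E n)) (hD : MeasurableSet D)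
    (hsymm : ∀ x ∈ D, -x ∈ D) (N : ℕ) (hN : 2 * N * volume D ≤ volume A) :
    ∃ x : Fin N → E n, (∀ a, x a ∈ A ∧ f (x a) ≤ 2 * C) ∧ ∀ a b, a ≠ b → x a - x b ∉ D := by
  suffices h : ∀ m : ℕ, m ≤ N → ∃ x : Fin m → E n,
      (∀ a, x a ∈ A ∧ f (x a) ≤ 2 * C) ∧ ∀ a b, a ≠ b → x a - x b ∉ D from h N le_rfl
  intro m
  induction m with
  | zero => intro _; exact ⟨Fin.elim0, fun a => a.elim0, fun a => a.elim0⟩
  | succ m ih =>
    intro hm
    obtain ⟨x, hx1, hx2⟩ := ih (by omega)
    set F : Set (E n) := ⋃ a : Fin m, (fun z => z + x a) '' D with hFdef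
    have hFm : MeasurableSet F := by
      refine MeasurableSet.iUnion fun a => ?_
      exact (Homeomorph.addRight (x a)).toMeasurableEquiv.measurableSet_image.mpr hD
    have hFv : volume F ≤ m * volume D := by
      calc volume F ≤ ∑ a : Fin m, volume ((fun z => z + x a) '' D) :=
            measure_iUnion_fintype_le _ _
        _ = ∑ a : Fin m, volume D := by
            refine Finset.sum_congr rfl fun a _ => ?_
            rw [show (fun z => z + x a) '' D = (Homeomorph.addRight (x a)) '' D from rfl]
            simp [Set.image_add_right]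
        _ = m * volume D := by simp
    have h2 : 2 * volume F ≤ volume A := by
      calc 2 * volume F ≤ 2 * (m * volume D) := by gcongr
        _ ≤ 2 * (N * volume D) := by gcongr; omega
        _ = 2 * N * volume D := by ring
        _ ≤ volume A := hN
    obtain ⟨z, ⟨hzA, hzF⟩, hfz⟩ := greedy_step A hA hA0 hA1 f hf C hC F hFm h2
    have hzD : ∀ a, z - x a ∉ D := by
      intro a h
      exact hzF (mem_iUnion.mpr ⟨a, ⟨z - x a, h, by simp⟩⟩)
    refine ⟨Fin.snoc x z, ?_, ?_⟩
    · intro a
      refine Fin.lastCases ?_ (fun i => ?_) a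
      · simpa using ⟨hzA, hfz⟩
      · simpa using hx1 i
    · intro a b
      refine Fin.lastCases ?_ (fun i => ?_) a
      · refine Fin.lastCases ?_ (fun j => ?_) b
        · intro h; exact absurd rfl h
        · intro _
          simpa using hzD j
      · refine Fin.lastCases ?_ (fun j => ?_) b
        · intro _
          simp only [Fin.snoc_castSucc, Fin.snoc_last]
          intro h
          have := hsymm _ h
          rw [neg_sub] at this
          exact hzD i this
        · intro h
          simp only [Fin.snoc_castSucc]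
          exact hx2 i j (fun e => h (by rw [e]))

/-- Clustering lemma: `U` are the isolated points, `Y` the representatives of big clusters. -/
theorem cluster {α : Type*} [DecidableEq α] (near : α → α → Prop) [∀ a b, Decidable (near a b)]
    (hnear : ∀ a, near a a) (S : ℕ) (hS : 0 < S) (Z : Finset α) :
    ∃ Y U : Finset α, Y ⊆ Z ∧ U ⊆ Z ∧ (∀ z ∈ Z, z ∈ U ∨ ∃ y ∈ Y, near y z) ∧
      Y.card * S ≤ Z.card ∧ ∀ z ∈ U, (U.filter (near z)).card < S := by
  induction Z using Finset.strongInduction with
  | _ Z ih =>
    by_cases h : ∀ z ∈ Z, (Z.filter (near z)).card < S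
    · exact ⟨∅, Z, by simp, subset_rfl, fun z hz => Or.inl hz, by simp, h⟩
    · push Not at h
      obtain ⟨y, hy, hyS⟩ := h
      have hsub : Z.filter (fun z => ¬ near y z) ⊂ Z := by
        refine Finset.filter_ssubset.mpr ⟨y, hy, ?_⟩
        simpa using hnear y
      obtain ⟨Y, U, hY, hU, hcov, hcard, hiso⟩ := ih _ hsub
      refine ⟨insert y Y, U, ?_, ?_, ?_, ?_, hiso⟩
      · intro a ha
        rcases Finset.mem_insert.mp ha with rfl | ha
        · exact hy
        · exact (Finset.filter_subset _ _) (hY ha)
      · exact hU.trans (Finset.filter_subset _ _)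
      · intro z hz
        by_cases hyz : near y z
        · exact Or.inr ⟨y, by simp, hyz⟩
        · rcases hcov z (Finset.mem_filter.mpr ⟨hz, hyz⟩) with h | ⟨y', hy', h'⟩
          · exact Or.inl h
          · exact Or.inr ⟨y', by simp [hy'], h'⟩
      · have h1 : (insert y Y).card ≤ Y.card + 1 := Finset.card_insert_le _ _
        have h2 : (Z.filter (near y)).card + (Z.filter (fun z => ¬ near y z)).card = Z.card :=
          Finset.card_filter_add_card_filter_not _
        calc (insert y Y).card * S ≤ (Y.card + 1) * S := by gcongr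
          _ = Y.card * S + S := by ring
          _ ≤ (Z.filter (fun z => ¬ near y z)).card + (Z.filter (near y)).card := by gcongr
          _ = Z.card := by omega

end Vale.Agent.P230
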