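import Vale.Agent.Lib.P230.Defs

/-!
# Approximating the volumes of finitely many caps by a fine grid
-/

namespace Vale.Agent.P230

open MeasureTheory Set Filter
open scoped ENNReal Pointwise Topology

/-- The cap of the unit ball, in coordinates. -/
def capC (n : ℕ) (w : E n) (s : ℝ) : Set (Fin n → ℝ) :=
  {x | ‖(WithLp.toLp 2 x : E n)‖ ≤ 1 ∧ s < inner ℝ (WithLp.toLp 2 x : E n) w}

theorem capC_subset (n : ℕ) (w : E n) (s : ℝ) : capC n w s ⊆ Metric.closedBall 0 1 := by
  intro x hx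
  rw [mem_closedBall_zero_iff, pi_norm_le_iff_of_nonneg zero_le_one]
  intro i
  exact (PiLp.norm_apply_le (WithLp.toLp 2 x : E n) i).trans hx.1

theorem measurableSet_cap (n : ℕ) (w : E n) (s : ℝ) :
    MeasurableSet {u : E n | ‖u‖ ≤ 1 ∧ s < inner ℝ u w} := by
  have h1 : MeasurableSet {u : E n | ‖u‖ ≤ 1} :=
    measurableSet_le (by fun_prop) (by fun_prop)
  have h2 : MeasurableSet {u : E n | s < inner ℝ u w} :=
    measurableSet_lt (by fun_prop) (by fun_prop)
  exact h1.inter h2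

theorem convex_cap (n : ℕ) (w : E n) (s : ℝ) :
    Convex ℝ {u : E n | ‖u‖ ≤ 1 ∧ s < inner ℝ u w} := by
  have h1 : Convex ℝ {u : E n | ‖u‖ ≤ 1} := by
    have := convex_closedBall (0 : E n) 1
    simpa [Metric.closedBall, dist_zero_right] using this
  have h2 : Convex ℝ {u : E n | s < inner ℝ u w} := by
    apply convex_halfSpace_gt
    constructor
    · intro x y; exact inner_add_left _ _ _
    · intro c x; exact real_inner_smul_left _ _ _
  exact h1.inter h2

theorem measurableSet_capC (n : ℕ) (w : E n) (s : ℝ) : MeasurableSet (capC n w s) :=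
  (PiLp.volume_preserving_toLp (Fin n)).measurable (measurableSet_cap n w s)

theorem convex_capC (n : ℕ) (w : E n) (s : ℝ) : Convex ℝ (capC n w s) :=
  (convex_cap n w s).linear_preimage
    ((WithLp.linearEquiv 2 ℝ (Fin n → ℝ)).symm : (Fin n → ℝ) →ₗ[ℝ] E n)

theorem volume_capC (n : ℕ) (w : E n) (s : ℝ) :
    volume.real (capC n w s) = volume.real {u : E n | ‖u‖ ≤ 1 ∧ s < inner ℝ u w} := by
  rw [measureReal_def, measureReal_def,
    ← (PiLp.volume_preserving_toLp (Fin n)).measure_preimage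
      (measurableSet_cap n w s).nullMeasurableSet]
  rfl

/-- The grid `N⁻¹ ℤⁿ`. -/
def gridL (n N : ℕ) : Set (Fin n → ℝ) :=
  (N : ℝ)⁻¹ • (Submodule.span ℤ (Set.range (Pi.basisFun ℝ (Fin n))) : Set (Fin n → ℝ))

theorem finite_grid_inter (n N : ℕ) (hN : 0 < N) (s : Set (Fin n → ℝ))
    (hs : Bornology.IsBounded s) : (s ∩ gridL n N).Finite := by
  have hN' : NeZero N := ⟨hN.ne'⟩
  unfold gridL
  rw [← Submodule.coe_pointwise_smul, ZSpan.smul _ (inv_ne_zero (NeZero.ne (N : ℝ)))]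
  exact ZSpan.setFinite_inter _ hs

theorem tendsto_capC (n : ℕ) (w : E n) (s : ℝ) :
    Tendsto (fun N : ℕ ↦ (Nat.card ↑(capC n w s ∩ gridL n N) : ℝ) / N ^ n)
      atTop (𝓝 (volume.real {u : E n | ‖u‖ ≤ 1 ∧ s < inner ℝ u w})) := by
  have := tendsto_card_div_pow_atTop_volume (capC n w s)
    (Metric.isBounded_closedBall.subset (capC_subset n w s)) (measurableSet_capC n w s)
    ((convex_capC n w s).addHaar_frontier volume)
  rw [volume_capC, Fintype.card_fin] at this
  exact this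

theorem exists_grid (n : ℕ) (hn : 1 ≤ n) (F : Finset (E n × ℝ)) (A ε : ℝ) (hA : 0 < A)
    (hε : 0 < ε) :
    ∃ (V : Finset (E n)) (p : ℝ), 0 < p ∧ p ≤ ε ∧ (∀ v ∈ V, ‖v‖ ≤ 1) ∧
      ∀ q ∈ F, |p * ((V.filter (fun v => q.2 < inner ℝ v q.1)).card : ℝ) -
        A⁻¹ * volume.real {u : E n | ‖u‖ ≤ 1 ∧ q.2 < inner ℝ u q.1}| ≤ ε := by
  classical
  have h1 : ∀ᶠ N : ℕ in atTop, ∀ q ∈ F,
      |(Nat.card ↑(capC n q.1 q.2 ∩ gridL n N) : ℝ) / N ^ n -
        volume.real {u : E n | ‖u‖ ≤ 1 ∧ q.2 < inner ℝ u q.1}| < A * ε := by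
    rw [Filter.eventually_all_finset]
    intro q _
    have := tendsto_capC n q.1 q.2
    rw [Metric.tendsto_atTop'] at this
    obtain ⟨N0, hN0⟩ := this (A * ε) (by positivity)
    filter_upwards [eventually_gt_atTop N0] with N hN
    simpa [Real.dist_eq] using hN0 N hN
  have h2 : ∀ᶠ N : ℕ in atTop, (1 : ℝ) / (A * N ^ n) ≤ ε := by
    have h3 : Tendsto (fun N : ℕ => A * (N : ℝ) ^ n) atTop atTop := by
      apply Tendsto.const_mul_atTop hA
      exact (tendsto_pow_atTop (by omega)).comp tendsto_natCast_atTop_atTop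
    have h4 : Tendsto (fun N : ℕ => (1 : ℝ) / (A * (N : ℝ) ^ n)) atTop (𝓝 0) := by
      have h5 := h3.inv_tendsto_atTop
      refine h5.congr (fun N => ?_)
      simp only [Pi.inv_apply, one_div]
    exact (h4.eventually (ge_mem_nhds hε)).mono (fun N h => h)
  obtain ⟨N, hN1, hN2, hN3⟩ := (h1.and (h2.and (eventually_gt_atTop 0))).exists
  have hball : Bornology.IsBounded {x : Fin n → ℝ | ‖(WithLp.toLp 2 x : E n)‖ ≤ 1} := by
    apply (Metric.isBounded_closedBall (x := (0 : Fin n → ℝ)) (r := 1)).subset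
    intro x hx
    rw [mem_closedBall_zero_iff, pi_norm_le_iff_of_nonneg zero_le_one]
    intro i
    exact (PiLp.norm_apply_le (WithLp.toLp 2 x : E n) i).trans hx
  have hfin := finite_grid_inter n N hN3 _ hball
  refine ⟨hfin.toFinset.image (fun x => (WithLp.toLp 2 x : E n)), 1 / (A * N ^ n), by positivity,
    hN2, ?_, ?_⟩
  · intro v hv
    rw [Finset.mem_image] at hv
    obtain ⟨x, hx, rfl⟩ := hv
    rw [Set.Finite.mem_toFinset] at hx
    exact hx.1
  · intro q hq
    have hcard : ((hfin.toFinset.image (fun x => (WithLp.toLp 2 x : E n))).filter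
        (fun v => q.2 < inner ℝ v q.1)).card = Nat.card ↑(capC n q.1 q.2 ∩ gridL n N) := by
      rw [Finset.filter_image, Finset.card_image_of_injective _ (WithLp.toLp_injective 2)]
      rw [Nat.card_coe_set_eq, Set.ncard_eq_toFinset_card _
        (finite_grid_inter n N hN3 _
          (Metric.isBounded_closedBall.subset (capC_subset n q.1 q.2)))]
      congr 1
      ext x
      simp only [Finset.mem_filter, Set.Finite.mem_toFinset, capC, mem_inter_iff, mem_ofPred_eq]
      tauto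
    rw [hcard]
    have h5 := hN1 q hq
    have h6 : 1 / (A * (N : ℝ) ^ n) * (Nat.card ↑(capC n q.1 q.2 ∩ gridL n N) : ℝ) -
        A⁻¹ * volume.real {u : E n | ‖u‖ ≤ 1 ∧ q.2 < inner ℝ u q.1} =
        A⁻¹ * ((Nat.card ↑(capC n q.1 q.2 ∩ gridL n N) : ℝ) / N ^ n -
        volume.real {u : E n | ‖u‖ ≤ 1 ∧ q.2 < inner ℝ u q.1}) := by
      field_simp
    rw [h6, abs_mul, abs_of_pos (inv_pos.2 hA)]
    calc A⁻¹ * _ ≤ A⁻¹ * (A * ε) := by gcongr
      _ = ε := by field_simp

end Vale.Agent.P230
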