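import Vale.Agent.Lib.P230.Defs

/-!
# Lattice coverings are translative coverings
-/

namespace Vale.Agent.P230

open MeasureTheory Set Filter
open scoped ENNReal Pointwise Topology

theorem locFin_lattice {n : ℕ} (L : Submodule ℤ (E n)) [DiscreteTopology L] :
    LocFin (L : Set (E n)) := by
  intro S hS
  rw [inter_comm]
  refine Metric.finite_isBounded_inter_isClosed DiscreteTopology.isDiscrete hS ?_
  change IsClosed (L.toAddSubgroup : Set (E n))
  exact AddSubgroup.isClosed_of_discrete

namespace LC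

theorem cube_eq (n : ℕ) (R : ℝ) (hR : 0 ≤ R) :
    cube n R = WithLp.ofLp ⁻¹' (Metric.closedBall (0 : Fin n → ℝ) R) := by
  ext x
  rw [mem_preimage, mem_closedBall_zero_iff, pi_norm_le_iff_of_nonneg hR]
  rfl

theorem volume_cube (n : ℕ) (R : ℝ) (hR : 0 ≤ R) :
    volume (cube n R) = ENNReal.ofReal ((2 * R) ^ n) := by
  rw [cube_eq n R hR, (PiLp.volume_preserving_ofLp (Fin n)).measure_preimage
    Metric.isClosed_closedBall.measurableSet.nullMeasurableSet, Real.volume_pi_closedBall _ hR,
    Fintype.card_fin]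

theorem isBounded_cube (n : ℕ) (R : ℝ) (hR : 0 ≤ R) : Bornology.IsBounded (cube n R) := by
  rw [cube_eq n R hR]
  exact (PiLp.continuousLinearEquiv 2 ℝ (fun _ : Fin n => ℝ)).antilipschitz.isBounded_preimage
    Metric.isBounded_closedBall

theorem convex_cube (n : ℕ) (R : ℝ) (hR : 0 ≤ R) : Convex ℝ (cube n R) := by
  rw [cube_eq n R hR]
  exact (convex_closedBall (0 : Fin n → ℝ) R).linear_preimage
    ((WithLp.linearEquiv 2 ℝ (Fin n → ℝ)) : E n →ₗ[ℝ] (Fin n → ℝ))

theorem measurableSet_cube (n : ℕ) (R : ℝ) (hR : 0 ≤ R) : MeasurableSet (cube n R) := by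
  rw [cube_eq n R hR]
  exact (PiLp.volume_preserving_ofLp (Fin n)).measurable Metric.isClosed_closedBall.measurableSet

end LC

open LC

theorem tendsto_lattice_count {n : ℕ} (hn : 1 ≤ n) (L : Submodule ℤ (E n)) [DiscreteTopology L]
    [IsZLattice ℝ L] :
    Tendsto (fun R : ℝ => (Nat.card ↑(cube n R ∩ (L : Set (E n))) : ℝ) / R ^ n) atTop
      (𝓝 (2 ^ n / ZLattice.covolume L)) := by
  have hnt : Nontrivial (E n) := by
    have : Nonempty (Fin n) := ⟨⟨0, hn⟩⟩
    infer_instance
  have hF : ∀ x : E n, ∀ R : ℝ, 0 ≤ R → (‖WithLp.ofLp x‖ ^ n ≤ R ^ n ↔ x ∈ cube n R) := by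
    intro x R hR
    rw [pow_le_pow_iff_left₀ (norm_nonneg _) hR (by omega), cube_eq n R hR, mem_preimage,
      mem_closedBall_zero_iff]
  have hset : ∀ R : ℝ, 0 ≤ R →
      {x : E n | x ∈ (univ : Set (E n)) ∧ ‖WithLp.ofLp x‖ ^ n ≤ R ^ n} = cube n R := by
    intro R hR
    ext x
    simp only [mem_ofPred_eq, mem_univ, true_and]
    exact hF x R hR
  have hset1 : {x : E n | x ∈ (univ : Set (E n)) ∧ ‖WithLp.ofLp x‖ ^ n ≤ 1} = cube n 1 := by
    have := hset 1 zero_le_one
    rwa [one_pow] at this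
  have key := ZLattice.covolume.tendsto_card_le_div' L (X := (univ : Set (E n)))
    (F := fun x => ‖WithLp.ofLp x‖ ^ n) (fun _ _ _ _ => mem_univ _)
    (by
      intro x r hr
      rw [finrank_euclideanSpace_fin]
      change ‖WithLp.ofLp (r • x)‖ ^ n = _
      rw [WithLp.ofLp_smul, norm_smul, mul_pow, Real.norm_of_nonneg hr])
    (by rw [hset1]; exact isBounded_cube n 1 zero_le_one)
    (by rw [hset1]; exact measurableSet_cube n 1 zero_le_one)
    (by rw [hset1]; exact (convex_cube n 1 zero_le_one).addHaar_frontier volume)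
  rw [hset1, measureReal_def, volume_cube n 1 zero_le_one, ENNReal.toReal_ofReal (by positivity),
    mul_one] at key
  have hpow : Tendsto (fun R : ℝ => R ^ n) atTop atTop := tendsto_pow_atTop (by omega)
  refine (key.comp hpow).congr' ?_
  filter_upwards [eventually_ge_atTop 0] with R hR
  simp only [Function.comp_apply]
  rw [hset R hR]

theorem upperDensity_lattice {n : ℕ} (hn : 1 ≤ n) (L : Submodule ℤ (E n)) [DiscreteTopology L]
    [IsZLattice ℝ L] :
    upperDensity (L : Set (E n)) = (ENNReal.ofReal (ZLattice.covolume L))⁻¹ := by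
  have hcov : 0 < ZLattice.covolume L := ZLattice.covolume_pos L volume
  unfold upperDensity
  apply Tendsto.limsup_eq
  have h1 := tendsto_lattice_count hn L
  have h2 : Tendsto (fun R : ℝ => (Nat.card ↑(cube n R ∩ (L : Set (E n))) : ℝ) / (2 * R) ^ n)
      atTop (𝓝 (1 / ZLattice.covolume L)) := by
    have h3 := h1.div_const (2 ^ n)
    have h4 : (2 : ℝ) ^ n / ZLattice.covolume L / 2 ^ n = 1 / ZLattice.covolume L := by
      field_simp
    rw [h4] at h3
    refine h3.congr (fun R => ?_)
    rw [mul_pow, div_div]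
    ring
  have h3 := ENNReal.tendsto_ofReal h2
  rw [one_div, ENNReal.ofReal_inv_of_pos hcov] at h3
  refine h3.congr' ?_
  filter_upwards [eventually_gt_atTop 0] with R hR
  have hfin : ((L : Set (E n)) ∩ cube n R).Finite :=
    locFin_lattice L _ (isBounded_cube n R hR.le)
  rw [ENNReal.ofReal_div_of_pos (by positivity), ENNReal.ofReal_natCast, inter_comm,
    Nat.card_coe_set_eq, ← hfin.cast_ncard_eq]
  simp

/-- **Lemma H.** Every lattice covering is a translative covering, of the same density. -/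
theorem thetaT_le_thetaL {n : ℕ} (hn : 1 ≤ n) (K : Set (E n)) : thetaT K ≤ thetaL K := by
  unfold thetaL
  refine le_iInf fun L => le_iInf fun hL1 => le_iInf fun hL2 => le_iInf fun hcov => ?_
  unfold thetaT
  refine (iInf_le_of_le (L : Set (E n)) (iInf_le_of_le (locFin_lattice L) (iInf_le_of_le hcov ?_)))
  rw [upperDensity_lattice hn L, ENNReal.div_eq_inv_mul, mul_comm]

theorem ThetaT_le_ThetaL {n : ℕ} (hn : 1 ≤ n) : ThetaT n ≤ ThetaL n := by
  unfold ThetaT ThetaL
  exact iSup_mono fun K => iSup_mono fun _ => thetaT_le_thetaL hn K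

end Vale.Agent.P230
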