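import Vale.Agent.Lib.P230.Defs2

/-! Finite nets of Euclidean balls (module Net of P230). -/

namespace Vale.Agent.P230

open MeasureTheory Set Filter
open scoped ENNReal Pointwise

theorem exists_net (n : ℕ) (hn : 1 ≤ n) (τ : ℝ) (hτ : 0 < τ) :
    ∃ Gr : Finset (E n), (Gr.card : ℝ) ≤ (6 * n / τ + 4) ^ n ∧
      ∀ z : E n, ‖z‖ ≤ 3 → ∃ g ∈ Gr, ‖z - g‖ ≤ τ := by
  classical
  have hn' : (1 : ℝ) ≤ n := by exact_mod_cast hn
  have hn0 : (0 : ℝ) < n := by linarith
  obtain ⟨h, hh⟩ : ∃ h : ℝ, h = τ / n := ⟨_, rfl⟩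
  have hpos : 0 < h := by rw [hh]; positivity
  obtain ⟨N, hN⟩ : ∃ N : ℕ, N = ⌈3 * n / τ⌉₊ := ⟨_, rfl⟩
  have hN1 : 3 * n / τ ≤ N := hN ▸ Nat.le_ceil _
  have hN2 : (N : ℝ) < 3 * n / τ + 1 := hN ▸ Nat.ceil_lt_add_one (by positivity)
  have h3 : 3 / h = 3 * n / τ := by
    rw [hh]
    field_simp
  let f : (Fin n → Fin (2 * N + 1)) → E n := fun m =>
    WithLp.toLp 2 (fun i => h * (((m i : ℕ) : ℝ) - N))
  refine ⟨Finset.univ.image f, ?_, ?_⟩
  · have h1 : (Finset.univ.image f).card ≤ (2 * N + 1) ^ n := by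
      refine Finset.card_image_le.trans ?_
      rw [Finset.card_univ, Fintype.card_fun, Fintype.card_fin, Fintype.card_fin]
    have h2 : ((Finset.univ.image f).card : ℝ) ≤ (2 * N + 1) ^ n := by exact_mod_cast h1
    refine h2.trans (pow_le_pow_left₀ (by positivity) ?_ n)
    have h4 : 6 * (n : ℝ) / τ = 2 * (3 * n / τ) := by ring
    rw [h4]
    linarith
  · intro z hz
    have hzi : ∀ i, |z i| ≤ 3 := fun i => by
      have := PiLp.norm_apply_le z i
      rw [Real.norm_eq_abs] at this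
      linarith
    have hlow : ∀ i, -(N : ℤ) ≤ ⌊z i / h⌋ := fun i => by
      rw [Int.le_floor]
      push_cast
      have h1 : -3 ≤ z i := by linarith [(abs_le.mp (hzi i)).1]
      have h2 : -3 / h ≤ z i / h := div_le_div_of_nonneg_right h1 hpos.le
      rw [neg_div, h3] at h2
      linarith
    have hupp : ∀ i, ⌊z i / h⌋ ≤ (N : ℤ) := fun i => by
      have h1 : z i ≤ 3 := (abs_le.mp (hzi i)).2
      have h2 : z i / h ≤ 3 / h := div_le_div_of_nonneg_right h1 hpos.le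
      rw [h3] at h2
      have h4 : (⌊z i / h⌋ : ℝ) ≤ z i / h := Int.floor_le _
      have h5 : (⌊z i / h⌋ : ℝ) ≤ (N : ℝ) := by linarith
      exact_mod_cast h5
    have hm : ∀ i, (⌊z i / h⌋ + N).toNat < 2 * N + 1 := fun i => by
      have h1 := hlow i
      have h2 := hupp i
      omega
    let m : Fin n → Fin (2 * N + 1) := fun i => ⟨(⌊z i / h⌋ + N).toNat, hm i⟩
    refine ⟨f m, Finset.mem_image_of_mem f (Finset.mem_univ m), ?_⟩
    have hfm : ∀ i, f m i = h * (⌊z i / h⌋ : ℝ) := fun i => by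
      change h * ((((⌊z i / h⌋ + N).toNat : ℕ) : ℝ) - N) = _
      have h1 : (((⌊z i / h⌋ + N).toNat : ℕ) : ℤ) = ⌊z i / h⌋ + N :=
        Int.toNat_of_nonneg (by linarith [hlow i])
      have h2 : (((⌊z i / h⌋ + N).toNat : ℕ) : ℝ) = (⌊z i / h⌋ : ℝ) + N := by
        exact_mod_cast h1
      rw [h2]
      ring
    have hd : ∀ i, |(z - f m) i| ≤ h := fun i => by
      rw [PiLp.sub_apply, hfm]
      have h1 : (⌊z i / h⌋ : ℝ) ≤ z i / h := Int.floor_le _
      have h2 : z i / h < ⌊z i / h⌋ + 1 := Int.lt_floor_add_one _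
      have h4 : z i = h * (z i / h) := by field_simp
      rw [abs_le]
      constructor
      · have : h * (⌊z i / h⌋ : ℝ) ≤ h * (z i / h) := mul_le_mul_of_nonneg_left h1 hpos.le
        linarith
      · have : h * (z i / h) ≤ h * (⌊z i / h⌋ + 1) := mul_le_mul_of_nonneg_left h2.le hpos.le
        linarith
    have hsq : ‖z - f m‖ ^ 2 ≤ τ ^ 2 := by
      rw [EuclideanSpace.norm_sq_eq]
      have h1 : ∀ i ∈ Finset.univ, ‖(z - f m) i‖ ^ 2 ≤ h ^ 2 := fun i _ => by
        rw [Real.norm_eq_abs]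
        exact pow_le_pow_left₀ (abs_nonneg _) (hd i) 2
      have h2 := Finset.sum_le_card_nsmul _ _ _ h1
      rw [Finset.card_univ, Fintype.card_fin, nsmul_eq_mul] at h2
      refine h2.trans ?_
      have h5 : τ = n * h := by
        rw [hh]
        field_simp
      rw [h5, mul_pow]
      nlinarith [sq_nonneg h, mul_nonneg (sub_nonneg.mpr hn') (sq_nonneg h)]
    exact abs_le_of_sq_le_sq' hsq hτ.le |>.2

end Vale.Agent.P230
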