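import Vale.Agent.Lib.P230.Defs2

/-! The weight function used for selection: integral, support and lower bounds. -/

namespace Vale.Agent.P230

open MeasureTheory Set Filter
open scoped ENNReal Pointwise

theorem W_meas (n : ℕ) (τ d L : ℝ) : Measurable (W n τ d L) := by
  unfold W
  refine Measurable.add ?_ ?_
  · refine Finset.measurable_fun_sum _ fun t _ => ?_
    exact measurable_const.indicator Metric.isClosed_closedBall.measurableSet
  · exact measurable_const.indicator Metric.isClosed_closedBall.measurableSet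

/-- volume of a centred closed ball -/
theorem vol_ball_scale (n : ℕ) (R : ℝ) (hR : 0 ≤ R) :
    volume (Metric.closedBall (0 : E n) R) =
      ENNReal.ofReal (R ^ n) * volume (Metric.closedBall (0 : E n) 1) := by
  have h := Measure.addHaar_closedBall' (volume : Measure (E n)) 0 hR
  rwa [finrank_euclideanSpace_fin] at h

theorem W_int (n : ℕ) (hn : 1 ≤ n) (τ d L : ℝ) (hτ : 0 ≤ τ) (hd : 0 ≤ d) (hd1 : d ≤ 1)
    (hL : 0 ≤ L) (h1 : Real.exp (2 * τ * n) ≤ 11 / 10) (h2 : L * (1 - d + τ) ^ n ≤ 1) :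
    ∫⁻ z, W n τ d L z ≤ 3 * volume (Metric.closedBall (0 : E n) 1) := by
  have hn0 : (0 : ℝ) < n := by exact_mod_cast hn
  have hbase : ∀ t ∈ Finset.range (n + 1), 0 ≤ 1 + 2 * τ - (t : ℝ) / n := by
    intro t ht
    have ht' : (t : ℝ) ≤ n := by
      have : t ≤ n := by
        have := Finset.mem_range.mp ht
        omega
      exact_mod_cast this
    have : (t : ℝ) / n ≤ 1 := by
      rw [div_le_one hn0]; exact ht'
    linarith
  have hmeas : ∀ R : ℝ, ∀ c : ℝ≥0∞,
      Measurable ((Metric.closedBall (0 : E n) R).indicator (fun _ => c)) := fun R c =>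
    measurable_const.indicator Metric.isClosed_closedBall.measurableSet
  have hint : ∫⁻ z, W n τ d L z =
      (∑ t ∈ Finset.range (n + 1), volume (Metric.closedBall (0 : E n) (1 + 2 * τ - t / n))) +
        ENNReal.ofReal L * volume (Metric.closedBall (0 : E n) (1 - d + τ)) := by
    unfold W
    rw [lintegral_add_right _ (hmeas _ _), lintegral_finsetSum _ (fun t _ => hmeas _ _)]
    congr 1
    · refine Finset.sum_congr rfl fun t _ => ?_
      rw [lintegral_indicator_const Metric.isClosed_closedBall.measurableSet, one_mul]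
    · rw [lintegral_indicator_const Metric.isClosed_closedBall.measurableSet]
  have hterm : ∀ t ∈ Finset.range (n + 1),
      (1 + 2 * τ - (t : ℝ) / n) ^ n ≤ Real.exp (2 * τ * n) * Real.exp (-1) ^ t := by
    intro t ht
    have h3 : 1 + 2 * τ - (t : ℝ) / n ≤ Real.exp (2 * τ - (t : ℝ) / n) := by
      have := Real.add_one_le_exp (2 * τ - (t : ℝ) / n)
      linarith
    calc (1 + 2 * τ - (t : ℝ) / n) ^ n ≤ Real.exp (2 * τ - (t : ℝ) / n) ^ n :=
          pow_le_pow_left₀ (hbase t ht) h3 n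
      _ = Real.exp (2 * τ * n) * Real.exp (-1) ^ t := by
          rw [← Real.exp_nat_mul, ← Real.exp_nat_mul, ← Real.exp_add]
          congr 1
          field_simp
          ring
  have hgeom : ∑ t ∈ Finset.range (n + 1), Real.exp (-1) ^ t ≤ 8 / 5 := by
    have he : Real.exp (-1) ≤ 3 / 8 := by
      rw [Real.exp_neg]
      have h4 : (8 : ℝ) / 3 ≤ Real.exp 1 := by
        have := Real.exp_one_gt_d9
        linarith
      calc (Real.exp 1)⁻¹ ≤ (8 / 3 : ℝ)⁻¹ := inv_anti₀ (by norm_num) h4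
        _ = 3 / 8 := by norm_num
    calc ∑ t ∈ Finset.range (n + 1), Real.exp (-1) ^ t
        ≤ ∑ t ∈ Finset.range (n + 1), (3 / 8 : ℝ) ^ t :=
          Finset.sum_le_sum fun t _ => pow_le_pow_left₀ (Real.exp_pos _).le he t
      _ ≤ 8 / 5 := by
          rw [geom_sum_eq (by norm_num)]
          have : (0 : ℝ) ≤ (3 / 8 : ℝ) ^ (n + 1) := by positivity
          rw [div_le_iff_of_neg (by norm_num)]
          linarith
  have hsum : ∑ t ∈ Finset.range (n + 1), (1 + 2 * τ - (t : ℝ) / n) ^ n ≤ 11 / 10 * (8 / 5) := by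
    calc ∑ t ∈ Finset.range (n + 1), (1 + 2 * τ - (t : ℝ) / n) ^ n
        ≤ ∑ t ∈ Finset.range (n + 1), Real.exp (2 * τ * n) * Real.exp (-1) ^ t :=
          Finset.sum_le_sum hterm
      _ = Real.exp (2 * τ * n) * ∑ t ∈ Finset.range (n + 1), Real.exp (-1) ^ t := by
          rw [Finset.mul_sum]
      _ ≤ 11 / 10 * (8 / 5) := by
          refine mul_le_mul h1 hgeom ?_ (by norm_num)
          exact Finset.sum_nonneg fun t _ => by positivity
  rw [hint]
  have e1 : ∑ t ∈ Finset.range (n + 1),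
      volume (Metric.closedBall (0 : E n) (1 + 2 * τ - t / n)) =
      ENNReal.ofReal (∑ t ∈ Finset.range (n + 1), (1 + 2 * τ - (t : ℝ) / n) ^ n) *
        volume (Metric.closedBall (0 : E n) 1) := by
    rw [ENNReal.ofReal_sum_of_nonneg (fun t ht => pow_nonneg (hbase t ht) n), Finset.sum_mul]
    refine Finset.sum_congr rfl fun t ht => ?_
    exact vol_ball_scale n _ (hbase t ht)
  have e2 : ENNReal.ofReal L * volume (Metric.closedBall (0 : E n) (1 - d + τ)) =
      ENNReal.ofReal (L * (1 - d + τ) ^ n) * volume (Metric.closedBall (0 : E n) 1) := by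
    rw [vol_ball_scale n _ (by linarith), ← mul_assoc, ENNReal.ofReal_mul hL]
  rw [e1, e2, ← add_mul]
  refine mul_le_mul_left ?_ _
  rw [← ENNReal.ofReal_add (Finset.sum_nonneg fun t ht => pow_nonneg (hbase t ht) n)
    (mul_nonneg hL (pow_nonneg (by linarith) n))]
  have : (3 : ℝ≥0∞) = ENNReal.ofReal 3 := by norm_num
  rw [this]
  refine ENNReal.ofReal_le_ofReal ?_
  linarith

theorem W_supp (n : ℕ) (hn : 1 ≤ n) (τ d L : ℝ) (hτ : 0 ≤ τ) (hd : 0 ≤ d) (z : E n)
    (hz : 1 + 2 * τ < ‖z‖) : W n τ d L z = 0 := by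
  have hn0 : (0 : ℝ) < n := by exact_mod_cast hn
  unfold W
  rw [add_eq_zero]
  constructor
  · refine Finset.sum_eq_zero fun t _ => ?_
    refine Set.indicator_of_notMem ?_ _
    rw [mem_closedBall_zero_iff, not_le]
    have : (0 : ℝ) ≤ (t : ℝ) / n := by positivity
    linarith
  · refine Set.indicator_of_notMem ?_ _
    rw [mem_closedBall_zero_iff, not_le]
    linarith

theorem wgt_le_W (n : ℕ) (hn : 1 ≤ n) (τ d L : ℝ) (hτ : 0 ≤ τ) (z z' : E n)
    (hz : ‖z‖ ≤ 1 + τ) (hzz : ‖z - z'‖ ≤ τ) : ENNReal.ofReal (wgt z) ≤ W n τ d L z' := by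
  have hn0 : (0 : ℝ) < n := by exact_mod_cast hn
  have hz' : ‖z'‖ ≤ ‖z‖ + τ := by
    calc ‖z'‖ = ‖z - (z - z')‖ := by congr 1; abel
      _ ≤ ‖z‖ + ‖z - z'‖ := norm_sub_le _ _
      _ ≤ ‖z‖ + τ := by linarith
  set x : ℝ := n * (1 + τ - ‖z‖) with hx
  have hx0 : 0 ≤ x := mul_nonneg hn0.le (by linarith)
  set j : ℕ := min ⌊x⌋₊ n with hj
  have hjn : j ≤ n := min_le_right _ _
  have hjx : (j : ℝ) ≤ x := by
    have : (j : ℝ) ≤ (⌊x⌋₊ : ℝ) := by exact_mod_cast min_le_left _ _
    exact this.trans (Nat.floor_le hx0)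
  have hsub : Finset.range (j + 1) ⊆ Finset.range (n + 1) :=
    Finset.range_subset_range.mpr (by omega)
  have hone : ∀ t ∈ Finset.range (j + 1),
      (Metric.closedBall (0 : E n) (1 + 2 * τ - t / n)).indicator
        (fun _ => (1 : ℝ≥0∞)) z' = 1 := by
    intro t ht
    have ht' : (t : ℝ) ≤ j := by
      have : t ≤ j := by
        have := Finset.mem_range.mp ht
        omega
      exact_mod_cast this
    refine Set.indicator_of_mem ?_ _
    rw [mem_closedBall_zero_iff]
    have h1 : (t : ℝ) / n ≤ 1 + τ - ‖z‖ := by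
      rw [div_le_iff₀ hn0]
      calc (t : ℝ) ≤ x := ht'.trans hjx
        _ = (1 + τ - ‖z‖) * n := by rw [hx]; ring
    linarith
  have hcard : ENNReal.ofReal (wgt z) ≤ ((j + 1 : ℕ) : ℝ≥0∞) := by
    rw [← ENNReal.ofReal_natCast]
    refine ENNReal.ofReal_le_ofReal ?_
    unfold wgt
    refine max_le ?_ ?_
    · push_cast
      have : (0 : ℝ) ≤ j := Nat.cast_nonneg j
      linarith
    · have hnorm : 0 ≤ ‖z‖ := norm_nonneg z
      rcases le_total ⌊x⌋₊ n with hle | hle
      · have hjeq : j = ⌊x⌋₊ := min_eq_left hle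
        rw [hjeq]
        push_cast
        have h1 : x < ⌊x⌋₊ + 1 := Nat.lt_floor_add_one x
        have h2 : (n : ℝ) * (1 - ‖z‖) ≤ x := by
          rw [hx]
          refine mul_le_mul_of_nonneg_left ?_ hn0.le
          linarith
        linarith
      · have hjeq : j = n := min_eq_right hle
        rw [hjeq]
        push_cast
        have h2 : (n : ℝ) * (1 - ‖z‖) ≤ n * 1 :=
          mul_le_mul_of_nonneg_left (by linarith) hn0.le
        linarith
  refine hcard.trans ?_
  unfold W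
  refine le_trans ?_ le_self_add
  calc ((j + 1 : ℕ) : ℝ≥0∞) = ∑ t ∈ Finset.range (j + 1),
        (Metric.closedBall (0 : E n) (1 + 2 * τ - t / n)).indicator
          (fun _ => (1 : ℝ≥0∞)) z' := by
        rw [Finset.sum_congr rfl hone]
        simp
    _ ≤ _ := Finset.sum_le_sum_of_subset hsub

theorem L_le_W (n : ℕ) (τ d L : ℝ) (z z' : E n)
    (hz : ‖z‖ ≤ 1 - d) (hzz : ‖z - z'‖ ≤ τ) : ENNReal.ofReal L ≤ W n τ d L z' := by
  have hz' : ‖z'‖ ≤ 1 - d + τ := by
    calc ‖z'‖ = ‖z - (z - z')‖ := by congr 1; abel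
      _ ≤ ‖z‖ + ‖z - z'‖ := norm_sub_le _ _
      _ ≤ 1 - d + τ := by linarith
  unfold W
  have : (Metric.closedBall (0 : E n) (1 - d + τ)).indicator
      (fun _ => ENNReal.ofReal L) z' = ENNReal.ofReal L := by
    refine Set.indicator_of_mem ?_ _
    rwa [mem_closedBall_zero_iff]
  rw [this]
  exact le_add_self

end Vale.Agent.P230
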