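import Vale.Agent.Lib.P230.Avg
import Vale.Agent.Lib.P230.Greedy
import Vale.Agent.Lib.P230.WInt

/-!
# P230: selection of the test points
-/

namespace Vale.Agent.P230

open MeasureTheory Set Filter
open scoped ENNReal Pointwise

/-- volume of a closed ball. -/
lemma vol_cball {n : ℕ} (c : E n) {r : ℝ} (hr : 0 ≤ r) :
    volume (Metric.closedBall c r)
      = ENNReal.ofReal (r ^ n) * volume (Metric.closedBall (0 : E n) 1) := by
  rw [Measure.addHaar_closedBall volume c hr, Measure.addHaar_closedBall volume (0 : E n) zero_le_one]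
  simp

lemma vol_ball {n : ℕ} (c : E n) {r : ℝ} (hr : 0 < r) :
    volume (Metric.ball c r)
      = ENNReal.ofReal (r ^ n) * volume (Metric.closedBall (0 : E n) 1) := by
  rw [Measure.addHaar_ball_of_pos volume c hr, Measure.addHaar_closedBall volume (0 : E n) zero_le_one]
  simp

lemma ofReal_two_mul_nat (k : ℕ) {c : ℝ} (hc : 0 ≤ c) :
    ENNReal.ofReal (2 * (k : ℝ) * c) = 2 * (k : ℝ≥0∞) * ENNReal.ofReal c := by
  rw [ENNReal.ofReal_mul' hc, ENNReal.ofReal_mul (by norm_num : (0:ℝ) ≤ 2), ENNReal.ofReal_ofNat,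
    ENNReal.ofReal_natCast]

/-- The differences that are forbidden. -/
def forb {n : ℕ} (X : Finset (E n)) (η : ℝ) : Set (E n) :=
  ⋃ q ∈ X ×ˢ X, Metric.ball (q.1 - q.2) η

lemma forb_meas {n : ℕ} (X : Finset (E n)) (η : ℝ) : MeasurableSet (forb X η) :=
  Finset.measurableSet_biUnion _ fun _ _ => measurableSet_ball

lemma forb_symm {n : ℕ} (X : Finset (E n)) (η : ℝ) : ∀ x ∈ forb X η, -x ∈ forb X η := by
  intro x hx
  simp only [forb, mem_iUnion, Finset.mem_product] at hx ⊢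
  obtain ⟨q, ⟨h1, h2⟩, h3⟩ := hx
  refine ⟨(q.2, q.1), ⟨h2, h1⟩, ?_⟩
  rw [Metric.mem_ball, dist_eq_norm] at h3 ⊢
  have : -x - (q.2 - q.1) = -(x - (q.1 - q.2)) := by abel
  rw [this, norm_neg]
  exact h3

lemma forb_vol {n : ℕ} (X : Finset (E n)) {η : ℝ} (hη : 0 < η) (M : ℕ)
    (hM : X.card ≤ M) :
    volume (forb X η) ≤ ENNReal.ofReal ((M : ℝ) ^ 2 * η ^ n) *
      volume (Metric.closedBall (0 : E n) 1) := by
  calc volume (forb X η) ≤ ∑ q ∈ X ×ˢ X, volume (Metric.ball (q.1 - q.2) η) :=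
        measure_biUnion_finset_le _ _
    _ = ∑ _q ∈ X ×ˢ X, ENNReal.ofReal (η ^ n) * volume (Metric.closedBall (0 : E n) 1) :=
        Finset.sum_congr rfl fun q _ => vol_ball _ hη
    _ = ((X.card : ℝ≥0∞) * X.card) *
          (ENNReal.ofReal (η ^ n) * volume (Metric.closedBall (0 : E n) 1)) := by
        rw [Finset.sum_const, Finset.card_product, nsmul_eq_mul]
        push_cast
        rfl
    _ ≤ ((M : ℝ≥0∞) * M) *
          (ENNReal.ofReal (η ^ n) * volume (Metric.closedBall (0 : E n) 1)) := by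
        gcongr
    _ = ENNReal.ofReal ((M : ℝ) ^ 2 * η ^ n) * volume (Metric.closedBall (0 : E n) 1) := by
        have h1 : ENNReal.ofReal ((M : ℝ) ^ 2) = (M : ℝ≥0∞) * M := by
          rw [ENNReal.ofReal_pow (by positivity), ENNReal.ofReal_natCast, sq]
        rw [ENNReal.ofReal_mul (by positivity), h1]
        simp only [mul_assoc]

lemma forb_sep {n : ℕ} (X : Finset (E n)) {η : ℝ} {u v : E n} (h : u - v ∉ forb X η) :
    ∀ l ∈ X, ∀ l' ∈ X, η ≤ ‖(u - l) - (v - l')‖ := by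
  intro l hl l' hl'
  by_contra hcon
  push Not at hcon
  apply h
  simp only [forb, mem_iUnion, Finset.mem_product]
  refine ⟨(l, l'), ⟨hl, hl'⟩, ?_⟩
  rw [Metric.mem_ball, dist_eq_norm]
  have : u - v - (l - l') = (u - l) - (v - l') := by abel
  rw [this]
  exact hcon

/-- The averaged weight. -/
noncomputable def Phi1 (n : ℕ) (τ ρ d L : ℝ) (w : E n) : ℝ≥0∞ :=
  ∫⁻ y in Metric.closedBall (0 : E n) 1, ∫⁻ x in Metric.closedBall y ρ, W n τ d L (x - w)

lemma Phi1_eq (n : ℕ) (τ ρ d L : ℝ) (w : E n) :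
    Phi1 n τ ρ d L w = ∫⁻ y in Metric.closedBall (0 : E n) 1,
      ∫⁻ x in Metric.closedBall (0 : E n) ρ, W n τ d L (x + y - w) := by
  unfold Phi1
  refine lintegral_congr fun y => ?_
  have h1 : ∫⁻ x in Metric.closedBall y ρ, W n τ d L (x - w)
      = ∫⁻ x, (Metric.closedBall y ρ).indicator (fun x => W n τ d L (x - w)) x :=
    (lintegral_indicator Metric.isClosed_closedBall.measurableSet _).symm
  have h2 : ∫⁻ x in Metric.closedBall (0 : E n) ρ, W n τ d L (x + y - w)
      = ∫⁻ x, (Metric.closedBall (0 : E n) ρ).indicator (fun x => W n τ d L (x + y - w)) x :=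
    (lintegral_indicator Metric.isClosed_closedBall.measurableSet _).symm
  rw [h1, h2, ← lintegral_add_right_eq_self (fun x =>
    (Metric.closedBall y ρ).indicator (fun x => W n τ d L (x - w)) x) y]
  refine lintegral_congr fun x => ?_
  by_cases hx : x ∈ Metric.closedBall (0 : E n) ρ
  · have hxy : x + y ∈ Metric.closedBall y ρ := by
      rw [Metric.mem_closedBall, dist_eq_norm] at hx ⊢
      simpa using hx
    rw [indicator_of_mem hx, indicator_of_mem hxy]
  · have hxy : x + y ∉ Metric.closedBall y ρ := by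
      rw [Metric.mem_closedBall, dist_eq_norm] at hx ⊢
      simpa using hx
    rw [indicator_of_notMem hx, indicator_of_notMem hxy]

lemma W_uncurry_meas (n : ℕ) (τ d L : ℝ) :
    Measurable fun q : (E n × E n) × E n => W n τ d L (q.2 + q.1.2 - q.1.1) :=
  (W_meas n τ d L).comp ((measurable_snd.add (measurable_snd.comp measurable_fst)).sub
    (measurable_fst.comp measurable_fst))

lemma Phi1_meas (n : ℕ) (τ ρ d L : ℝ) : Measurable (Phi1 n τ ρ d L) := by
  have h : Phi1 n τ ρ d L = fun w => ∫⁻ y in Metric.closedBall (0 : E n) 1,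
      ∫⁻ x in Metric.closedBall (0 : E n) ρ, W n τ d L (x + y - w) := by
    funext w; exact Phi1_eq n τ ρ d L w
  rw [h]
  have h1 : Measurable fun q : E n × E n =>
      ∫⁻ x in Metric.closedBall (0 : E n) ρ, W n τ d L (x + q.2 - q.1) :=
    (W_uncurry_meas n τ d L).lintegral_prod_right'
  exact h1.lintegral_prod_right'

lemma Phi1_int (n : ℕ) (τ ρ d L : ℝ) :
    ∫⁻ w, Phi1 n τ ρ d L w = volume (Metric.closedBall (0 : E n) 1) *
      (volume (Metric.closedBall (0 : E n) ρ) * ∫⁻ z, W n τ d L z) := by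
  simp_rw [Phi1_eq]
  have h1 : Measurable fun q : E n × E n =>
      ∫⁻ x in Metric.closedBall (0 : E n) ρ, W n τ d L (x + q.2 - q.1) :=
    (W_uncurry_meas n τ d L).lintegral_prod_right'
  rw [lintegral_lintegral_swap h1.aemeasurable]
  have h2 : ∀ y : E n, ∫⁻ w : E n, ∫⁻ x in Metric.closedBall (0 : E n) ρ, W n τ d L (x + y - w)
      = volume (Metric.closedBall (0 : E n) ρ) * ∫⁻ z, W n τ d L z := by
    intro y
    have h3 : Measurable fun q : E n × E n => W n τ d L (q.2 + y - q.1) :=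
      (W_meas n τ d L).comp ((measurable_snd.add measurable_const).sub measurable_fst)
    rw [lintegral_lintegral_swap h3.aemeasurable]
    have h4 : ∀ x : E n, ∫⁻ w : E n, W n τ d L (x + y - w) = ∫⁻ z, W n τ d L z := fun x =>
      lintegral_sub_left_eq_self _ _
    simp_rw [h4]
    rw [setLIntegral_const, mul_comm]
  simp_rw [h2]
  rw [setLIntegral_const, mul_comm]

lemma Phi1_supp_aux {n : ℕ} (hn : 1 ≤ n) (τ ρ d L : ℝ) (hτ : 0 ≤ τ) (hsum : ρ + 2 * τ ≤ 1)
    (hd : 0 ≤ d) (w : E n) (hw : 3 < ‖w‖) (y : E n) (hy : y ∈ Metric.closedBall (0 : E n) 1)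
    (x : E n) (hx : x ∈ Metric.closedBall y ρ) : W n τ d L (x - w) = 0 := by
  apply W_supp n hn τ d L hτ hd
  rw [Metric.mem_closedBall, dist_eq_norm] at hy hx
  have h1 : w = (x - y) + (y - 0) - (x - w) := by abel
  have h2 : ‖w‖ ≤ ‖x - y‖ + ‖y - 0‖ + ‖x - w‖ := by
    nth_rewrite 1 [h1]
    exact (norm_sub_le _ _).trans (by gcongr; exact norm_add_le _ _)
  linarith

lemma Phi1_supp {n : ℕ} (hn : 1 ≤ n) (τ ρ d L : ℝ) (hτ : 0 ≤ τ) (hsum : ρ + 2 * τ ≤ 1)
    (hd : 0 ≤ d) (w : E n) (hw : 3 < ‖w‖) : Phi1 n τ ρ d L w = 0 := by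
  have key : ∀ y ∈ Metric.closedBall (0 : E n) 1, ∀ x ∈ Metric.closedBall y ρ,
      W n τ d L (x - w) = 0 := by
    intro y hy x hx
    exact Phi1_supp_aux hn τ ρ d L hτ hsum hd w hw y hy x hx
  unfold Phi1
  rw [setLIntegral_congr_fun Metric.isClosed_closedBall.measurableSet
    (g := fun _ => 0) fun y hy => ?_, lintegral_zero]
  simp only
  rw [setLIntegral_congr_fun Metric.isClosed_closedBall.measurableSet
    (g := fun _ => 0) fun x hx => key y hy x hx, lintegral_zero]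
 
theorem select {n : ℕ} (hn : 1 ≤ n) (k T M : ℕ) (τ ρ d L η₂ η₃ B D : ℝ)
    (hτ : 0 < τ) (hρ : 0 < ρ) (hsum : ρ + 2 * τ ≤ 1) (hd : 0 ≤ d) (hη₂ : 0 < η₂) (hη₃ : 0 < η₃)
    (hD : 0 < D)
    (Gr : Finset (E n)) (hGr : ∀ z : E n, ‖z‖ ≤ 3 → ∃ g ∈ Gr, ‖z - g‖ ≤ τ)
    (s1 : 2 * (k : ℝ) * (M : ℝ) ^ 2 * η₂ ^ n ≤ 1) (s2 : 2 * (T : ℝ) * (M : ℝ) ^ 2 * η₃ ^ n ≤ ρ ^ n)
    (s3 : 2 * D * 3 ^ n ≤ M)
    (s4 : ∫⁻ z, W n τ d L z ≤ 3 * volume (Metric.closedBall (0 : E n) 1))
    (s5 : 24 * D ≤ B) (s6 : B < L)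
    (X : Set (E n)) (hX : LocFin X)
    (hdens : upperDensity X * volume (Metric.closedBall (0 : E n) 1) < ENNReal.ofReal D)
    (K : Set (E n)) (hK : ∀ z ∈ K, ‖z‖ ≤ 1) (hcov : K + X = univ) :
    ∃ Xh ⊆ Gr, Xh.card ≤ M ∧
      (∃ (y : Fin k → E n) (x : Fin k → Fin T → E n), (∀ i, ‖y i‖ ≤ 1) ∧
        GoodFam Xh k T τ ρ d η₂ η₃ B y x) ∧
      ∀ x : E n, ‖x‖ ≤ 1 + ρ → ∃ l ∈ Xh, ∃ z ∈ K, ‖(x - l) - z‖ ≤ τ := by
  classical
  set κ : ℝ≥0∞ := volume (Metric.closedBall (0 : E n) 1) with hκ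
  have hκ0 : κ ≠ 0 := (Metric.measure_closedBall_pos volume (0 : E n) zero_lt_one).ne'
  have hκt : κ ≠ ⊤ := measure_closedBall_lt_top.ne
  have hκr : 0 < κ.toReal := ENNReal.toReal_pos hκ0 hκt
  have hκof : ENNReal.ofReal κ.toReal = κ := ENNReal.ofReal_toReal hκt
  have hρn : 0 < ρ ^ n := by positivity
  have h3n : (0 : ℝ) < 3 ^ n := by positivity
  -- the density
  have hdens' : upperDensity X < ENNReal.ofReal (D / κ.toReal) := by
    rw [ENNReal.ofReal_div_of_pos hκr, hκof]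
    exact (ENNReal.lt_div_iff_mul_lt (Or.inl hκ0) (Or.inl hκt)).mpr hdens
  -- the function
  set c1 : ℝ≥0∞ := (ENNReal.ofReal (3 ^ n) * κ)⁻¹ with hc1
  set c2 : ℝ≥0∞ := (κ * (ENNReal.ofReal (ρ ^ n) * κ * (3 * κ)))⁻¹ with hc2
  have hA0 : ENNReal.ofReal (3 ^ n) * κ ≠ 0 := by
    refine mul_ne_zero ?_ hκ0
    rw [Ne, ENNReal.ofReal_eq_zero, not_le]; exact h3n
  have hAt : ENNReal.ofReal (3 ^ n) * κ ≠ ⊤ := ENNReal.mul_ne_top ENNReal.ofReal_ne_top hκt
  have hρ0 : ENNReal.ofReal (ρ ^ n) ≠ 0 := by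
    rw [Ne, ENNReal.ofReal_eq_zero, not_le]; exact hρn
  have hB0 : κ * (ENNReal.ofReal (ρ ^ n) * κ * (3 * κ)) ≠ 0 :=
    mul_ne_zero hκ0 (mul_ne_zero (mul_ne_zero hρ0 hκ0) (mul_ne_zero (by norm_num) hκ0))
  have hBt : κ * (ENNReal.ofReal (ρ ^ n) * κ * (3 * κ)) ≠ ⊤ :=
    ENNReal.mul_ne_top hκt (ENNReal.mul_ne_top (ENNReal.mul_ne_top ENNReal.ofReal_ne_top hκt)
      (ENNReal.mul_ne_top (by norm_num) hκt))
  set Φ : E n → ℝ≥0∞ := fun w => c1 * (Metric.closedBall (0 : E n) 3).indicator (fun _ => 1) w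
    + c2 * Phi1 n τ ρ d L w with hΦ
  have hΦm : Measurable Φ := by
    refine Measurable.add ?_ ?_
    · exact (measurable_const.indicator Metric.isClosed_closedBall.measurableSet).const_mul _
    · exact (Phi1_meas n τ ρ d L).const_mul _
  have hΦsupp : ∀ w, 3 < ‖w‖ → Φ w = 0 := by
    intro w hw
    simp only [hΦ]
    rw [Phi1_supp hn τ ρ d L hτ.le hsum hd w hw, indicator_of_notMem]
    · simp
    · rw [Metric.mem_closedBall, dist_zero_right, not_le]; exact hw
  have hΦint : ∫⁻ w, Φ w ≤ 2 := by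
    simp only [hΦ]
    rw [lintegral_add_left ((measurable_const.indicator
      Metric.isClosed_closedBall.measurableSet).const_mul _),
      lintegral_const_mul _ (measurable_const.indicator Metric.isClosed_closedBall.measurableSet),
      lintegral_const_mul _ (Phi1_meas n τ ρ d L), Phi1_int]
    have h1 : ∫⁻ w, (Metric.closedBall (0 : E n) 3).indicator (fun _ => (1 : ℝ≥0∞)) w
        = ENNReal.ofReal (3 ^ n) * κ := by
      rw [lintegral_indicator Metric.isClosed_closedBall.measurableSet, setLIntegral_const, one_mul,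
        vol_cball _ (by norm_num)]
    rw [h1, ENNReal.inv_mul_cancel hA0 hAt]
    have h2 : c2 * (volume (Metric.closedBall (0 : E n) 1) *
        (volume (Metric.closedBall (0 : E n) ρ) * ∫⁻ z, W n τ d L z)) ≤ 1 := by
      calc c2 * (volume (Metric.closedBall (0 : E n) 1) *
          (volume (Metric.closedBall (0 : E n) ρ) * ∫⁻ z, W n τ d L z))
          ≤ c2 * (κ * (ENNReal.ofReal (ρ ^ n) * κ * (3 * κ))) := by
            rw [vol_cball (0 : E n) hρ.le]
            gcongr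
        _ = 1 := ENNReal.inv_mul_cancel hB0 hBt
    calc 1 + c2 * _ ≤ (1 : ℝ≥0∞) + 1 := by gcongr
      _ = 2 := by norm_num
  obtain ⟨y₀, hy₀⟩ := exists_translate X hX (D / κ.toReal) (by positivity) hdens' Φ hΦm 3 hΦsupp
  have hsumΦ : ∑' l : X, Φ ((l : E n) - y₀) ≤ ENNReal.ofReal (D / κ.toReal) * 2 :=
    hy₀.trans (by gcongr)
  -- the finite set Z
  have hZfin : (X ∩ Metric.closedBall y₀ 3).Finite := hX _ Metric.isBounded_closedBall
  set Z : Finset (E n) := (hZfin.toFinset).image (fun l => l - y₀) with hZ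
  have hZmem : ∀ z, z ∈ Z ↔ z + y₀ ∈ X ∧ ‖z‖ ≤ 3 := by
    intro z
    rw [hZ, Finset.mem_image]
    constructor
    · rintro ⟨l, hl, rfl⟩
      rw [Set.Finite.mem_toFinset] at hl
      obtain ⟨h1, h2⟩ := hl
      rw [Metric.mem_closedBall, dist_eq_norm] at h2
      refine ⟨by simpa using h1, h2⟩
    · rintro ⟨h1, h2⟩
      refine ⟨z + y₀, ?_, by abel⟩
      rw [Set.Finite.mem_toFinset]
      refine ⟨h1, ?_⟩
      rw [Metric.mem_closedBall, dist_eq_norm]
      simpa using h2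
  have hsumZ : ∑ z ∈ Z, Φ z ≤ ENNReal.ofReal (D / κ.toReal) * 2 := by
    refine le_trans ?_ hsumΦ
    have h1 : ∑ z ∈ Z, Φ z = ∑ l ∈ hZfin.toFinset, Φ (l - y₀) := by
      rw [hZ, Finset.sum_image]
      intro a _ b _ hab
      simpa using hab
    rw [h1]
    have h2 : ∑' l : X, Φ ((l : E n) - y₀)
        = ∑' l : E n, X.indicator (fun l => Φ (l - y₀)) l :=
      tsum_subtype X fun l => Φ (l - y₀)
    rw [h2]
    refine le_trans (le_of_eq ?_) (ENNReal.sum_le_tsum hZfin.toFinset)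
    refine Finset.sum_congr rfl fun l hl => ?_
    rw [indicator_of_mem ((Set.Finite.mem_toFinset hZfin).mp hl).1]
  have hbound : ENNReal.ofReal (D / κ.toReal) * 2 = ENNReal.ofReal (2 * D) * κ⁻¹ := by
    rw [ENNReal.ofReal_div_of_pos hκr, hκof, div_eq_mul_inv, ENNReal.ofReal_mul (by norm_num)]
    rw [ENNReal.ofReal_ofNat]
    ring
  rw [hbound] at hsumZ
  -- cardinality of Z
  have hZcard : Z.card ≤ M := by
    have h1 : (Z.card : ℝ≥0∞) * c1 ≤ ENNReal.ofReal (2 * D) * κ⁻¹ := by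
      refine le_trans ?_ hsumZ
      calc (Z.card : ℝ≥0∞) * c1 = ∑ _z ∈ Z, c1 := by rw [Finset.sum_const, nsmul_eq_mul]
        _ ≤ ∑ z ∈ Z, Φ z := by
            refine Finset.sum_le_sum fun z hz => ?_
            simp only [hΦ]
            rw [indicator_of_mem, mul_one]
            · exact le_self_add
            · rw [Metric.mem_closedBall, dist_zero_right]
              exact ((hZmem z).mp hz).2
    have h2 : (Z.card : ℝ≥0∞) ≤ ENNReal.ofReal (2 * D * 3 ^ n) := by
      calc (Z.card : ℝ≥0∞) = (Z.card : ℝ≥0∞) * c1 * (ENNReal.ofReal (3 ^ n) * κ) := by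
            rw [mul_assoc, hc1, ENNReal.inv_mul_cancel hA0 hAt, mul_one]
        _ ≤ (ENNReal.ofReal (2 * D) * κ⁻¹) * (ENNReal.ofReal (3 ^ n) * κ) := by gcongr
        _ = ENNReal.ofReal (2 * D) * ENNReal.ofReal (3 ^ n) * (κ⁻¹ * κ) := by ring
        _ = ENNReal.ofReal (2 * D * 3 ^ n) := by
            rw [ENNReal.inv_mul_cancel hκ0 hκt, mul_one, ← ENNReal.ofReal_mul (by positivity)]
    have h3 : (Z.card : ℝ≥0∞) ≤ (M : ℝ≥0∞) := by
      refine h2.trans ?_
      rw [← ENNReal.ofReal_natCast]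
      exact ENNReal.ofReal_le_ofReal s3
    exact_mod_cast h3
  -- the function f
  set f : E n → ℝ≥0∞ := fun x => ∑ l ∈ Z, W n τ d L (x - l) with hf
  have hfm : Measurable f :=
    Finset.measurable_fun_sum Z fun l _ => (W_meas n τ d L).comp (measurable_id.sub measurable_const)
  have hsumPhi : ∑ l ∈ Z, Phi1 n τ ρ d L l
      ≤ ENNReal.ofReal (6 * D * ρ ^ n) * κ * κ := by
    have h1 : c2 * ∑ l ∈ Z, Phi1 n τ ρ d L l ≤ ENNReal.ofReal (2 * D) * κ⁻¹ := by
      refine le_trans ?_ hsumZ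
      rw [Finset.mul_sum]
      refine Finset.sum_le_sum fun z _ => ?_
      simp only [hΦ]
      exact le_add_self
    calc ∑ l ∈ Z, Phi1 n τ ρ d L l
        = (κ * (ENNReal.ofReal (ρ ^ n) * κ * (3 * κ))) * (c2 * ∑ l ∈ Z, Phi1 n τ ρ d L l) := by
          rw [← mul_assoc, hc2, ENNReal.mul_inv_cancel hB0 hBt, one_mul]
      _ ≤ (κ * (ENNReal.ofReal (ρ ^ n) * κ * (3 * κ))) * (ENNReal.ofReal (2 * D) * κ⁻¹) := by
          gcongr
      _ = (3 * ENNReal.ofReal (2 * D) * ENNReal.ofReal (ρ ^ n)) * κ * κ * (κ * κ⁻¹) := by ring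
      _ = ENNReal.ofReal (6 * D * ρ ^ n) * κ * κ := by
          rw [ENNReal.mul_inv_cancel hκ0 hκt, mul_one]
          congr 2
          have h3 : (3 : ℝ≥0∞) = ENNReal.ofReal 3 := (ENNReal.ofReal_ofNat 3).symm
          rw [h3, ← ENNReal.ofReal_mul (by norm_num), ← ENNReal.ofReal_mul (by positivity)]
          congr 1; ring
  set H : E n → ℝ≥0∞ := fun y => ∫⁻ x in Metric.closedBall y ρ, f x with hH
  have hHeq : H = fun y => ∑ l ∈ Z, ∫⁻ x in Metric.closedBall y ρ, W n τ d L (x - l) := by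
    funext y
    simp only [hH, hf]
    exact lintegral_finsetSum Z fun l _ =>
      (W_meas n τ d L).comp (measurable_id.sub measurable_const)
  have hmeasl : ∀ l : E n, Measurable fun y : E n =>
      ∫⁻ x in Metric.closedBall y ρ, W n τ d L (x - l) := by
    intro l
    have h1 : (fun y : E n => ∫⁻ x in Metric.closedBall y ρ, W n τ d L (x - l))
        = fun y => ∫⁻ x, (if dist x y ≤ ρ then W n τ d L (x - l) else 0) := by
      funext y
      rw [← lintegral_indicator Metric.isClosed_closedBall.measurableSet]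
      refine lintegral_congr fun x => ?_
      by_cases hx : x ∈ Metric.closedBall y ρ
      · rw [indicator_of_mem hx, if_pos (Metric.mem_closedBall.mp hx)]
      · rw [indicator_of_notMem hx, if_neg (fun h => hx (Metric.mem_closedBall.mpr h))]
    rw [h1]
    apply Measurable.lintegral_prod_right'
      (f := fun q : E n × E n => if dist q.2 q.1 ≤ ρ then W n τ d L (q.2 - l) else 0)
    refine Measurable.ite ?_ ?_ measurable_const
    · exact measurableSet_le (measurable_snd.dist measurable_fst) measurable_const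
    · exact (W_meas n τ d L).comp (measurable_snd.sub measurable_const)
  have hHm : Measurable H := by
    rw [hHeq]
    exact Finset.measurable_fun_sum Z fun l _ => hmeasl l
  have hHint : ∫⁻ y in Metric.closedBall (0 : E n) 1, H y
      ≤ (ENNReal.ofReal (6 * D * ρ ^ n) * κ) * volume (Metric.closedBall (0 : E n) 1) := by
    rw [hHeq, lintegral_finsetSum Z fun l _ => hmeasl l]
    exact hsumPhi
  -- the discretised set
  choose! φ hφG hφn using hGr
  set Xh : Finset (E n) := Z.image φ with hXh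
  have hXhcard : Xh.card ≤ M := Finset.card_image_le.trans hZcard
  have hround : ∀ z ∈ Z, ‖z - φ z‖ ≤ τ := fun z hz => hφn z ((hZmem z).mp hz).2
  refine ⟨Xh, ?_, hXhcard, ?_, ?_⟩
  · intro g hg
    rw [hXh, Finset.mem_image] at hg
    obtain ⟨z, hz, rfl⟩ := hg
    exact hφG z ((hZmem z).mp hz).2
  swap
  · intro x hx
    have h1 : x + y₀ ∈ K + X := by rw [hcov]; exact mem_univ _
    obtain ⟨z, hz, l₀, hl₀, hzl⟩ := Set.mem_add.mp h1
    have h2 : x = z + (l₀ - y₀) := by
      rw [← add_sub_assoc, hzl]; abel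
    have h3 : l₀ - y₀ ∈ Z := by
      rw [hZmem]
      refine ⟨by simpa using hl₀, ?_⟩
      have h4 : l₀ - y₀ = x - z := by rw [h2]; abel
      rw [h4]
      refine (norm_sub_le _ _).trans ?_
      have := hK z hz
      linarith
    refine ⟨φ (l₀ - y₀), Finset.mem_image_of_mem φ h3, z, hz, ?_⟩
    have h5 : x - φ (l₀ - y₀) - z = (l₀ - y₀) - φ (l₀ - y₀) := by rw [h2]; abel
    rw [h5]
    exact hround _ h3
  -- greedy selection of the regions
  obtain ⟨y, hy1, hy2⟩ := greedy (Metric.closedBall (0 : E n) 1)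
    Metric.isClosed_closedBall.measurableSet hκ0 hκt H hHm _ hHint (forb Xh η₂)
    (forb_meas Xh η₂) (forb_symm Xh η₂) k (by
      calc 2 * (k : ℝ≥0∞) * volume (forb Xh η₂)
          ≤ 2 * (k : ℝ≥0∞) * (ENNReal.ofReal ((M : ℝ) ^ 2 * η₂ ^ n) * κ) := by
            gcongr
            exact forb_vol Xh hη₂ M hXhcard
        _ = ENNReal.ofReal (2 * (k : ℝ) * (M : ℝ) ^ 2 * η₂ ^ n) * κ := by
            have h1 : (2 : ℝ) * (k : ℝ) * (M : ℝ) ^ 2 * η₂ ^ n
                = 2 * (k : ℝ) * ((M : ℝ) ^ 2 * η₂ ^ n) := by ring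
            rw [h1, ofReal_two_mul_nat k (by positivity)]
            simp only [mul_assoc]
        _ ≤ ENNReal.ofReal 1 * κ := by gcongr
        _ = κ := by rw [ENNReal.ofReal_one, one_mul])
  -- greedy selection of the points
  have hex : ∀ i : Fin k, ∃ x : Fin T → E n,
      (∀ a, x a ∈ Metric.closedBall (y i) ρ ∧ f (x a) ≤ 2 * ENNReal.ofReal (12 * D)) ∧
        ∀ a b, a ≠ b → x a - x b ∉ forb Xh η₃ := by
    intro i
    have hvol : volume (Metric.closedBall (y i) ρ) = ENNReal.ofReal (ρ ^ n) * κ :=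
      vol_cball _ hρ.le
    refine greedy (Metric.closedBall (y i) ρ) Metric.isClosed_closedBall.measurableSet ?_ ?_ f hfm
      (ENNReal.ofReal (12 * D)) ?_ (forb Xh η₃) (forb_meas Xh η₃) (forb_symm Xh η₃) T ?_
    · rw [hvol]; exact mul_ne_zero hρ0 hκ0
    · rw [hvol]; exact ENNReal.mul_ne_top ENNReal.ofReal_ne_top hκt
    · refine ((hy1 i).2).trans (le_of_eq ?_)
      rw [hvol]
      have h2 : ENNReal.ofReal (12 * D) = 2 * ENNReal.ofReal (6 * D) := by
        have h3 : (12 : ℝ) * D = 2 * (6 * D) := by ring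
        rw [h3, ENNReal.ofReal_mul (by norm_num : (0:ℝ) ≤ 2), ENNReal.ofReal_ofNat]
      rw [h2, ENNReal.ofReal_mul (by positivity : (0:ℝ) ≤ 6 * D)]
      ring
    · rw [hvol]
      calc 2 * (T : ℝ≥0∞) * volume (forb Xh η₃)
          ≤ 2 * (T : ℝ≥0∞) * (ENNReal.ofReal ((M : ℝ) ^ 2 * η₃ ^ n) * κ) := by
            gcongr
            exact forb_vol Xh hη₃ M hXhcard
        _ = ENNReal.ofReal (2 * (T : ℝ) * (M : ℝ) ^ 2 * η₃ ^ n) * κ := by
            have h1 : (2 : ℝ) * (T : ℝ) * (M : ℝ) ^ 2 * η₃ ^ n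
                = 2 * (T : ℝ) * ((M : ℝ) ^ 2 * η₃ ^ n) := by ring
            rw [h1, ofReal_two_mul_nat T (by positivity)]
            simp only [mul_assoc]
        _ ≤ ENNReal.ofReal (ρ ^ n) * κ := by gcongr
  choose x hx1 hx2 using hex
  have hB0' : 0 ≤ B := by linarith
  have hfB : ∀ i a, f (x i a) ≤ ENNReal.ofReal B := by
    intro i a
    refine ((hx1 i a).2).trans ?_
    have h2 : (2 : ℝ≥0∞) * ENNReal.ofReal (12 * D) = ENNReal.ofReal (24 * D) := by
      have h3 : (24 : ℝ) * D = 2 * (12 * D) := by ring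
      rw [h3, ENNReal.ofReal_mul (by norm_num : (0:ℝ) ≤ 2), ENNReal.ofReal_ofNat]
    rw [h2]
    exact ENNReal.ofReal_le_ofReal s5
  -- rounding: preimages of the near centres
  have hpre : ∀ g ∈ Xh, ∃ z ∈ Z, φ z = g := by
    intro g hg
    rw [hXh, Finset.mem_image] at hg
    exact hg
  choose! ψ hψZ hψ using hpre
  have hynorm : ∀ i, ‖y i‖ ≤ 1 := by
    intro i
    have h2 := (hy1 i).1
    rwa [Metric.mem_closedBall, dist_zero_right] at h2
  refine ⟨y, x, hynorm, ?_, ?_, ?_, ?_, ?_⟩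
  · intro i a
    have h1 := (hx1 i a).1
    rwa [Metric.mem_closedBall, dist_eq_norm] at h1
  · intro i j hij l hl l' hl'
    exact forb_sep Xh (hy2 i j hij) l hl l' hl'
  · intro i a b hab l hl l' hl'
    exact forb_sep Xh (hx2 i a b hab) l hl l' hl'
  · intro i a
    have h1 : ENNReal.ofReal (∑ l ∈ near Xh τ (x i a), wgt (x i a - l)) ≤ ENNReal.ofReal B := by
      refine le_trans ?_ (hfB i a)
      have hnn : ∀ l ∈ near Xh τ (x i a), 0 ≤ wgt (x i a - l) := fun l _ =>
        zero_le_one.trans (le_max_left _ _)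
      rw [ENNReal.ofReal_sum_of_nonneg hnn]
      calc ∑ l ∈ near Xh τ (x i a), ENNReal.ofReal (wgt (x i a - l))
          ≤ ∑ l ∈ near Xh τ (x i a), W n τ d L (x i a - ψ l) := by
            refine Finset.sum_le_sum fun l hl => ?_
            obtain ⟨hlX, hln⟩ := mem_near.mp hl
            refine wgt_le_W n hn τ d L hτ.le _ _ hln ?_
            have h2 : x i a - l - (x i a - ψ l) = ψ l - l := by abel
            rw [h2]
            have h3 := hround (ψ l) (hψZ l hlX)
            rwa [hψ l hlX] at h3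
        _ = ∑ z ∈ (near Xh τ (x i a)).image ψ, W n τ d L (x i a - z) := by
            rw [Finset.sum_image]
            intro l hl l' hl' hll
            have h1 := hψ l (mem_near.mp hl).1
            have h2 := hψ l' (mem_near.mp hl').1
            rw [← h1, ← h2, hll]
        _ ≤ ∑ z ∈ Z, W n τ d L (x i a - z) := by
            refine Finset.sum_le_sum_of_subset ?_
            intro z hz
            rw [Finset.mem_image] at hz
            obtain ⟨l, hl, rfl⟩ := hz
            exact hψZ l (mem_near.mp hl).1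
    exact (ENNReal.ofReal_le_ofReal_iff hB0').mp h1
  · intro i a l hl
    obtain ⟨hlX, hln⟩ := mem_near.mp hl
    by_contra hcon
    push Not at hcon
    have h1 : ENNReal.ofReal L ≤ W n τ d L (x i a - ψ l) := by
      refine L_le_W n τ d L _ _ hcon ?_
      have h2 : x i a - l - (x i a - ψ l) = ψ l - l := by abel
      rw [h2]
      have h3 := hround (ψ l) (hψZ l hlX)
      rwa [hψ l hlX] at h3
    have h2 : W n τ d L (x i a - ψ l) ≤ f (x i a) :=
      Finset.single_le_sum (f := fun z => W n τ d L (x i a - z)) (fun _ _ => zero_le) (hψZ l hlX)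
    have h3 := (h1.trans h2).trans (hfB i a)
    rw [ENNReal.ofReal_le_ofReal_iff hB0'] at h3
    linarith

end Vale.Agent.P230
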