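import Vale.Agent.Lib.P230.Union
import Vale.Agent.Lib.P230.Grid
import Vale.Agent.Lib.P230.Sel
import Vale.Agent.Lib.P230.CapUse
import Vale.Agent.Lib.P230.Net
import Vale.Agent.Lib.P230.WInt

/-! The final assembly: existence of a convex body with large covering density. -/

namespace Vale.Agent.P230

open MeasureTheory Set Filter
open scoped ENNReal Pointwise

lemma cnt_coe {n : ℕ} (V : Finset (E n)) (P : E n → Prop) [DecidablePred P] :
    cnt (fun v : ↥V => (v : E n)) P = ((V.filter P).card : ℝ) := by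
  classical
  unfold cnt
  congr 1
  refine Finset.card_bij (fun v _ => v.1) ?_ ?_ ?_
  · intro v hv
    simp only [Finset.mem_filter, Finset.mem_univ, true_and] at hv
    exact Finset.mem_filter.mpr ⟨v.2, hv⟩
  · intro a _ b _ h
    exact Subtype.ext h
  · intro b hb
    obtain ⟨h1, h2⟩ := Finset.mem_filter.mp hb
    exact ⟨⟨b, h1⟩, by simpa using h2, rfl⟩

/-- the random body. -/
def Kset {n : ℕ} {V : Finset (E n)} (s : ℝ) (ω : Finset ↥V) : Set (E n) :=
  {z | ‖z‖ ≤ 1 ∧ ∀ v ∈ ω, inner ℝ (v : E n) z ≤ s}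

lemma Kset_closed {n : ℕ} {V : Finset (E n)} (s : ℝ) (ω : Finset ↥V) :
    IsClosed (Kset s ω) := by
  have : Kset s ω = {z | ‖z‖ ≤ 1} ∩ ⋂ v ∈ ω, {z | inner ℝ (v : E n) z ≤ s} := by
    ext z; simp [Kset]
  rw [this]
  refine IsClosed.inter (isClosed_le continuous_norm continuous_const) ?_
  refine isClosed_biInter fun v _ => ?_
  exact isClosed_le (by fun_prop) continuous_const

lemma Kset_sub {n : ℕ} {V : Finset (E n)} (s : ℝ) (ω : Finset ↥V) :
    Kset s ω ⊆ Metric.closedBall (0 : E n) 1 := by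
  intro z hz
  simpa using hz.1

lemma Kset_convexBody {n : ℕ} {V : Finset (E n)} (hV : ∀ v ∈ V, ‖v‖ ≤ 1) {s : ℝ} (hs : 0 < s)
    (ω : Finset ↥V) : IsConvexBody (Kset s ω) := by
  refine ⟨?_, ?_, ?_⟩
  · have : Kset s ω = Metric.closedBall (0 : E n) 1 ∩ ⋂ v ∈ ω, {z | inner ℝ (v : E n) z ≤ s} := by
      ext z; simp [Kset]
    rw [this]
    refine (convex_closedBall _ _).inter ?_
    refine convex_iInter fun v => convex_iInter fun _ => ?_
    exact convex_halfSpace_le (f := fun z => inner ℝ (v : E n) z)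
      ⟨fun a b => inner_add_right _ _ _, fun c a => by simp [inner_smul_right]⟩ s
  · exact (isCompact_closedBall (0 : E n) 1).of_isClosed_subset (Kset_closed s ω) (Kset_sub s ω)
  · refine ⟨0, mem_interior.mpr ⟨Metric.ball 0 (min 1 s), ?_, Metric.isOpen_ball, ?_⟩⟩
    · intro z hz
      rw [mem_ball_zero_iff, lt_min_iff] at hz
      refine ⟨hz.1.le, fun v _ => ?_⟩
      have h1 : inner ℝ (v : E n) z ≤ ‖(v : E n)‖ * ‖z‖ := real_inner_le_norm _ _
      have h2 : ‖(v : E n)‖ * ‖z‖ ≤ 1 * ‖z‖ := by gcongr; exact hV v v.2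
      linarith [hz.2]
    · simp [hs]

/-- For each fixed finite set of centres with a good family the bad event has tiny probability. -/
lemma bad_prob (n : ℕ) (hN : Par.NumOK n) (V : Finset (E n)) (p : ℝ) (hp0 : 0 < p)
    (hp1 : p < 1) (hV : ∀ v ∈ V, ‖v‖ ≤ 1) (A : ℝ)
    (c1 : ∀ (d : ℝ) (w : E n), 0 ≤ d → d ≤ 1 / 10 → 5 * Par.β * d ≤ 1 → Par.h < 1 - d →
      1 - d < ‖w‖ → Real.exp (-(5 * Par.β * wgt w)) ≤ A⁻¹ * capv w Par.h)
    (c2 : ∀ (d r : ℝ) (w : E n), 0 ≤ d → d ≤ 1 / 10 → d ≤ r → 24 * Par.β * r ≤ 1 →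
      Par.h + r < 1 - d → 1 - d < ‖w‖ →
      Real.exp (-(24 * Par.β * (n * r))) ≤ A⁻¹ * capv w (Par.h + r))
    (c3 : ∀ (τ η : ℝ) (w w' : E n), 0 ≤ τ → τ ≤ 1 / 10 → 0 ≤ η → 3 * τ ≤ η ^ 2 / 4 →
      ‖w‖ ≤ 1 + τ → ‖w'‖ ≤ 1 + τ → η ≤ ‖w - w'‖ → A⁻¹ * capv ((1 / 2 : ℝ) • (w + w')) Par.h ≤
        2 * Real.exp (-(n / 2 * Par.β * (η ^ 2 / 4 - 3 * τ))))
    (c4 : ∀ (τ η ρ : ℝ) (w w' : E n), 0 ≤ τ → 0 < ρ → τ + ρ ≤ 1 / 10 → 0 ≤ η → ‖w‖ ≤ 1 + τ →
      ‖w'‖ ≤ 1 + τ + ρ → η - ρ ≤ ‖w - w'‖ → ρ ≤ η → η ≤ 1 →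
      2 * (1 + Par.β) * ρ ≤ Par.β * ((η - ρ) ^ 2 / 4 - 3 * (τ + ρ)) →
      A⁻¹ * capv ((1 / 2 : ℝ) • (w + w')) (Par.h - ρ / 2) ≤
        2 * Real.exp (-(n / 2 *
          (Par.β * ((η - ρ) ^ 2 / 4 - 3 * (τ + ρ)) - 2 * (1 + Par.β) * ρ))))
    (Xh : Finset (E n)) (hXM : Xh.card ≤ 4 ^ n)
    (y : Fin (5 ^ n) → E n) (x : Fin (5 ^ n) → Fin (Par.T n) → E n)
    (hgood : GoodFam Xh (5 ^ n) (Par.T n) (Par.τ n) Par.ρ (Par.d n) Par.η₂ (Par.η₃ n)
      (Par.B n) y x)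
    (w1 : ∀ i a, ∀ l ∈ Xh, |p * cnt (fun v : ↥V => (v : E n))
      (fun v => Par.h < inner ℝ v (x i a - l)) - A⁻¹ * capv (x i a - l) Par.h| ≤ Par.ε n)
    (w2 : ∀ i a, ∀ l ∈ Xh, |p * cnt (fun v : ↥V => (v : E n))
      (fun v => Par.h + Par.r n < inner ℝ v (x i a - l)) -
        A⁻¹ * capv (x i a - l) (Par.h + Par.r n)| ≤ Par.ε n)
    (w3 : ∀ i a b, ∀ l ∈ Xh, ∀ l' ∈ Xh, |p * cnt (fun v : ↥V => (v : E n))
      (fun v => Par.h < inner ℝ v ((1 / 2 : ℝ) • ((x i a - l) + (x i b - l')))) -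
        A⁻¹ * capv ((1 / 2 : ℝ) • ((x i a - l) + (x i b - l'))) Par.h| ≤ Par.ε n)
    (w4 : ∀ i a j, ∀ l ∈ Xh, ∀ l' ∈ Xh, |p * cnt (fun v : ↥V => (v : E n))
      (fun v => Par.h - Par.ρ / 2 < inner ℝ v ((1 / 2 : ℝ) • ((x i a - l) + (y j - l')))) -
        A⁻¹ * capv ((1 / 2 : ℝ) • ((x i a - l) + (y j - l'))) (Par.h - Par.ρ / 2)| ≤ Par.ε n) :
    Pr p {ω : Finset ↥V | ∀ i a, ∃ l ∈ Xh, ‖x i a - l‖ ≤ 1 + Par.τ n ∧
      ∀ v ∈ ω, inner ℝ (v : E n) (x i a - l) ≤ Par.h} ≤ (2 / 3 : ℝ) ^ (5 ^ n) := by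
  obtain ⟨g1, g2, g3, g4, g5⟩ := hgood
  have hβ : Par.β = 4000000 := rfl
  have hρ : Par.ρ = 1 / 4000000 := rfl
  have hη₂ : Par.η₂ = 1 / 200 := rfl
  have hm := hN.hm
  have hd0 : 0 ≤ Par.d n := by unfold Par.d; positivity
  have hr0 : 0 < Par.r n := by unfold Par.r; positivity
  have hη₃0 : 0 < Par.η₃ n := by unfold Par.η₃; positivity
  have hτ0 : 0 ≤ Par.τ n := by unfold Par.τ; positivity
  have hτ1 := hN.hτ
  have hε0 : 0 ≤ Par.ε n := by unfold Par.ε; positivity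
  have hB0 : 0 ≤ Par.B n := by unfold Par.B; linarith [hN.hD]
  have he₃ : 0 ≤ Par.e₃ n := by unfold Par.e₃; positivity
  have he₄ : 0 ≤ Par.e₄ n := by unfold Par.e₄; positivity
  have he₅ : 0 ≤ Par.e₅ n := by unfold Par.e₅; positivity
  have hmid : ∀ (v w w' : E n), inner ℝ v ((1 / 2 : ℝ) • (w + w')) =
      (inner ℝ v w + inner ℝ v w') / 2 := by
    intro v w w'
    rw [inner_smul_right, inner_add_right]; ring
  refine prob_app (e := fun v : ↥V => (v : E n)) (X := Xh) (y := y) (x := x) (h := Par.h)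
    (τ := Par.τ n) (ρ := Par.ρ) (r := Par.r n) (fun v => hV v v.2) hN.hT hr0 (Par.d n) (Par.B n)
    Par.a₁ Par.a₂ (Par.ε n) (Par.e₃ n) (Par.e₄ n) (Par.e₅ n) p (4 ^ n) (Par.S n) hN.hS hd0
    (by unfold Par.a₁; rw [hβ]; norm_num) (by unfold Par.a₂; rw [hβ]; norm_num) hB0 he₃ he₄ he₅
    hp0 hp1 hXM g1 g4 g5 ?_ ?_ ?_ ?_ ?_ ?_ ?_ hN.n3 hN.n4
  · intro i a l hl
    have h1 := c1 (Par.d n) (x i a - l) hd0 hN.d_le hN.d_le' hN.d_lt (g5 i a l hl)
    have h2 := neg_le_of_abs_le (w1 i a l (mem_near.mp hl).1)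
    unfold Par.a₁
    linarith
  · intro i a l hl
    have h1 := c2 (Par.d n) (Par.r n) (x i a - l) hd0 hN.d_le hN.dr hN.r_le hN.r_lt (g5 i a l hl)
    have h2 := neg_le_of_abs_le (w2 i a l (mem_near.mp hl).1)
    unfold Par.a₂
    linarith
  · intro i a l hl l'' hl'' hfar
    have h0 : Par.r n ≤ ‖(x i a - l) - (x i a - l'')‖ := by
      have : (x i a - l) - (x i a - l'') = -(l - l'') := by abel
      rw [this, norm_neg]; exact hfar
    have h1 := c3 (Par.τ n) (Par.r n) (x i a - l) (x i a - l'') hτ0 (by linarith) hr0.le hN.τr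
      (mem_near.mp hl).2 (mem_near.mp hl'').2 h0
    have h2 := le_of_abs_le (w3 i a a l (mem_near.mp hl).1 l'' (mem_near.mp hl'').1)
    have h3 := cnt_mono (fun v : ↥V => (v : E n))
      (P := fun v => Par.h < inner ℝ v (x i a - l) ∧ Par.h < inner ℝ v (x i a - l''))
      (Q := fun v => Par.h < inner ℝ v ((1 / 2 : ℝ) • ((x i a - l) + (x i a - l''))))
      (fun v hv => by rw [hmid]; linarith [hv.1, hv.2])
    have h4 := mul_le_mul_of_nonneg_left h3 hp0.le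
    unfold Par.e₃
    linarith
  · intro i a l hl j hj l' hl' hn'
    have h0 : Par.η₂ - Par.ρ ≤ ‖(x i a - l) - (y j - l')‖ := by
      have h5 := g2 i j hj.symm l (mem_near.mp hl).1 l' hl'
      have h6 : (y i - l) - (y j - l') = ((x i a - l) - (y j - l')) - (x i a - y i) := by abel
      rw [h6] at h5
      have h7 := norm_sub_le ((x i a - l) - (y j - l')) (x i a - y i)
      have h8 := g1 i a
      linarith
    have h1 := c4 (Par.τ n) Par.η₂ Par.ρ (x i a - l) (y j - l') hτ0 (by rw [hρ]; norm_num)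
      (by rw [hρ]; linarith) (by rw [hη₂]; norm_num) (mem_near.mp hl).2 hn' h0
      (by rw [hρ, hη₂]; norm_num) (by rw [hη₂]; norm_num)
      (by rw [hρ, hη₂, hβ]; norm_num; linarith)
    have h2 := le_of_abs_le (w4 i a j l (mem_near.mp hl).1 l' hl')
    have h3 := cnt_mono (fun v : ↥V => (v : E n))
      (P := fun v => Par.h < inner ℝ v (x i a - l) ∧ Par.h - Par.ρ < inner ℝ v (y j - l'))
      (Q := fun v => Par.h - Par.ρ / 2 < inner ℝ v ((1 / 2 : ℝ) • ((x i a - l) + (y j - l'))))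
      (fun v hv => by rw [hmid]; linarith [hv.1, hv.2])
    have h4 := mul_le_mul_of_nonneg_left h3 hp0.le
    unfold Par.e₄
    linarith
  · intro i a b hab l hl l' hl'
    have h0 := g3 i a b hab l (mem_near.mp hl).1 l' (mem_near.mp hl').1
    have h1 := c3 (Par.τ n) (Par.η₃ n) (x i a - l) (x i b - l') hτ0 (by linarith) hη₃0.le hN.τη
      (mem_near.mp hl).2 (mem_near.mp hl').2 h0
    have h2 := le_of_abs_le (w3 i a b l (mem_near.mp hl).1 l' (mem_near.mp hl').1)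
    have h3 := cnt_mono (fun v : ↥V => (v : E n))
      (P := fun v => Par.h < inner ℝ v (x i a - l) ∧ Par.h < inner ℝ v (x i b - l'))
      (Q := fun v => Par.h < inner ℝ v ((1 / 2 : ℝ) • ((x i a - l) + (x i b - l'))))
      (fun v hv => by rw [hmid]; linarith [hv.1, hv.2])
    have h4 := mul_le_mul_of_nonneg_left h3 hp0.le
    unfold Par.e₅
    linarith
  · have := hN.n1
    push_cast
    linarith
  · have := hN.n2
    push_cast
    linarith

/-- For every admissible dimension there is a convex body with large covering density. -/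
theorem exists_body (n : ℕ) (hN : Par.NumOK n) : ∃ K : Set (E n), IsConvexBody K ∧
    ENNReal.ofReal (Real.exp (-14) * Par.D n) ≤ thetaT K := by
  classical
  have hβ : Par.β = 4000000 := rfl
  have hρ : Par.ρ = 1 / 4000000 := rfl
  have hη₂ : Par.η₂ = 1 / 200 := rfl
  have hn1 : 1 ≤ n := by have := hN.hn; omega
  have hn0 : (0 : ℝ) < n := by exact_mod_cast hn1
  have hh2 : Par.h ^ 2 = Par.β / (1 + Par.β) := by
    unfold Par.h
    exact Real.sq_sqrt (by rw [hβ]; norm_num)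
  have hh0 : 0 < Par.h := by
    unfold Par.h
    exact Real.sqrt_pos.mpr (by rw [hβ]; norm_num)
  have hh1 : 1 / 2 < Par.h := by
    rw [hβ] at hh2
    by_contra hcon
    push Not at hcon
    have h1 : Par.h ^ 2 ≤ (1 / 2) ^ 2 := pow_le_pow_left₀ hh0.le hcon 2
    rw [hh2] at h1
    norm_num at h1
  have hm := hN.hm
  have hd0 : 0 ≤ Par.d n := by unfold Par.d; positivity
  have hr0 : 0 < Par.r n := by unfold Par.r; positivity
  have hη₃0 : 0 < Par.η₃ n := by unfold Par.η₃; positivity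
  have hτ0 : 0 < Par.τ n := by unfold Par.τ; positivity
  have hτ1 := hN.hτ
  have hε0 : 0 < Par.ε n := by unfold Par.ε; positivity
  have hε1 : Par.ε n ≤ 1 / 4 := by
    unfold Par.ε
    refine le_trans (Real.exp_le_exp.mpr ?_) exp_neg_two_le
    have : (1 : ℝ) ≤ n := by exact_mod_cast hn1
    linarith
  obtain ⟨A, hA, c1, c2, c3, c4, c5⟩ :=
    cap_use n hn1 Par.β (by rw [hβ]; norm_num) Par.h hh0 hh2
  obtain ⟨Gr, hGrc, hGr⟩ := exists_net n hn1 (Par.τ n) hτ0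
  obtain ⟨t, ht1, htf, ht2⟩ :=
    (isCompact_closedBall (0 : E n) 1).finite_cover_balls hτ0
  -- the admissible sets of centres
  set fam : Finset (E n) → (Fin (5 ^ n) → E n) → (Fin (5 ^ n) → Fin (Par.T n) → E n) → Prop :=
    fun Xh y x => (∀ i, ‖y i‖ ≤ 1) ∧ GoodFam Xh (5 ^ n) (Par.T n) (Par.τ n) Par.ρ (Par.d n)
      Par.η₂ (Par.η₃ n) (Par.B n) y x with hfam
  set good : Finset (Finset (E n)) :=
    (Gr.powerset.filter (fun X => X.card ≤ 4 ^ n)).filter (fun Xh => ∃ y x, fam Xh y x)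
    with hgood
  have hchoose : ∀ Xh : Finset (E n), ∃ y x, (∃ y x, fam Xh y x) → fam Xh y x := by
    intro Xh
    by_cases h : ∃ y x, fam Xh y x
    · obtain ⟨y, x, hyx⟩ := h
      exact ⟨y, x, fun _ => hyx⟩
    · exact ⟨0, 0, fun h' => absurd h' h⟩
  choose fy fx hfyx using hchoose
  -- the finite family of caps
  let J := ↥good × Fin (5 ^ n) × Fin (5 ^ n) × Fin (Par.T n) × Fin (Par.T n) × ↥Gr × ↥Gr
  let f1 : J → E n × ℝ := fun q => (fx q.1 q.2.1 q.2.2.2.1 - q.2.2.2.2.2.1, Par.h)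
  let f2 : J → E n × ℝ := fun q => (fx q.1 q.2.1 q.2.2.2.1 - q.2.2.2.2.2.1, Par.h + Par.r n)
  let f3 : J → E n × ℝ := fun q => ((1 / 2 : ℝ) • ((fx q.1 q.2.1 q.2.2.2.1 - q.2.2.2.2.2.1) +
    (fx q.1 q.2.1 q.2.2.2.2.1 - q.2.2.2.2.2.2)), Par.h)
  let f4 : J → E n × ℝ := fun q => ((1 / 2 : ℝ) • ((fx q.1 q.2.1 q.2.2.2.1 - q.2.2.2.2.2.1) +
    (fy q.1 q.2.2.1 - q.2.2.2.2.2.2)), Par.h - Par.ρ / 2)
  let f5 : E n → E n × ℝ := fun z => (z, Par.h - 2 * Par.τ n)
  have hWfin : (range f1 ∪ range f2 ∪ range f3 ∪ range f4 ∪ f5 '' t).Finite :=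
    ((((finite_range f1).union (finite_range f2)).union (finite_range f3)).union
      (finite_range f4)).union (htf.image f5)
  obtain ⟨V, p, hp0, hpε, hV, happ⟩ := exists_grid n hn1 hWfin.toFinset A (Par.ε n) hA hε0
  have hp1 : p < 1 := by linarith
  have happ' : ∀ (w : E n) (s : ℝ), (w, s) ∈ range f1 ∪ range f2 ∪ range f3 ∪ range f4 ∪ f5 '' t →
      |p * cnt (fun v : ↥V => (v : E n)) (fun v => s < inner ℝ v w) - A⁻¹ * capv w s| ≤
        Par.ε n := by
    intro w s hw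
    have h1 := happ (w, s) (hWfin.mem_toFinset.mpr hw)
    rw [cnt_coe]
    simpa only [capv] using h1
  -- the bad events
  set Bad : Finset (E n) → Set (Finset ↥V) := fun Xh =>
    {ω | ∀ i a, ∃ l ∈ Xh, ‖fx Xh i a - l‖ ≤ 1 + Par.τ n ∧
      ∀ v ∈ ω, inner ℝ (v : E n) (fx Xh i a - l) ≤ Par.h} with hBad
  have hbad : ∀ Xh ∈ good, Pr p (Bad Xh) ≤ (2 / 3 : ℝ) ^ (5 ^ n) := by
    intro Xh hXh
    have hXh' := hXh
    rw [hgood, Finset.mem_filter, Finset.mem_filter, Finset.mem_powerset] at hXh'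
    obtain ⟨⟨hXG, hXM⟩, hex⟩ := hXh'
    have hf := hfyx Xh hex
    by_cases h0 : 0 < 5 ^ n
    · refine bad_prob n hN V p hp0 hp1 hV A c1 c2 c3 c4 Xh hXM (fy Xh) (fx Xh) hf.2 ?_ ?_ ?_ ?_
      · intro i a l hl
        refine happ' _ _ ?_
        refine Or.inl (Or.inl (Or.inl (Or.inl ?_)))
        exact ⟨(⟨Xh, hXh⟩, i, i, a, a, ⟨l, hXG hl⟩, ⟨l, hXG hl⟩), rfl⟩
      · intro i a l hl
        refine happ' _ _ ?_
        refine Or.inl (Or.inl (Or.inl (Or.inr ?_)))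
        exact ⟨(⟨Xh, hXh⟩, i, i, a, a, ⟨l, hXG hl⟩, ⟨l, hXG hl⟩), rfl⟩
      · intro i a b l hl l' hl'
        refine happ' _ _ ?_
        refine Or.inl (Or.inl (Or.inr ?_))
        exact ⟨(⟨Xh, hXh⟩, i, i, a, b, ⟨l, hXG hl⟩, ⟨l', hXG hl'⟩), rfl⟩
      · intro i a j l hl l' hl'
        refine happ' _ _ ?_
        refine Or.inl (Or.inr ?_)
        exact ⟨(⟨Xh, hXh⟩, i, j, a, a, ⟨l, hXG hl⟩, ⟨l', hXG hl'⟩), rfl⟩
    · exact absurd (by positivity) h0
  have hunion : Pr p (⋃ Xh ∈ good, Bad Xh) ≤ Real.exp (-13) := by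
    refine (Pr_biUnion_le hp0 hp1 good Bad _ hbad).trans ?_
    refine le_trans ?_ hN.u1
    gcongr
    have h1 : good.card ≤ (Gr.card + 1) ^ (4 ^ n) :=
      (Finset.card_le_card (Finset.filter_subset _ _)).trans (card_small_subsets Gr (4 ^ n))
    calc (good.card : ℝ) ≤ (((Gr.card + 1) ^ (4 ^ n) : ℕ) : ℝ) := by exact_mod_cast h1
      _ = ((Gr.card : ℝ) + 1) ^ (4 ^ n) := by push_cast; ring
      _ ≤ _ := by gcongr
  -- the volume
  have hin : ∀ z ∈ Metric.closedBall (0 : E n) 1, Real.exp (-8) ≤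
      Pr p {ω : Finset ↥V | z ∈ Kset (Par.h - Par.τ n) ω} := by
    intro z hz
    have hz1 : ‖z‖ ≤ 1 := by simpa using hz
    obtain ⟨z0, hz0t, hz0⟩ : ∃ z0 ∈ t, z ∈ Metric.ball z0 (Par.τ n) := by
      have := ht2 hz
      simpa using this
    have hz01 : ‖z0‖ ≤ 1 := by simpa using ht1 hz0t
    have hset : {ω : Finset ↥V | z ∈ Kset (Par.h - Par.τ n) ω} =
        {ω | Disjoint ω (Finset.univ.filter
          (fun v : ↥V => Par.h - Par.τ n < inner ℝ (v : E n) z))} := by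
      ext ω
      simp only [Set.mem_setOf_eq, Kset, Finset.disjoint_left, Finset.mem_filter,
        Finset.mem_univ, true_and, not_lt]
      exact ⟨fun h => h.2, fun h => ⟨hz1, h⟩⟩
    rw [hset, Pr_disjoint]
    have h1 := happ' z0 (Par.h - 2 * Par.τ n) (Or.inr ⟨z0, hz0t, rfl⟩)
    have h2 := le_of_abs_le h1
    have h3 := c5 (Par.τ n) z0 hτ0.le (by linarith) hz01
    have h4 : Real.exp (4 * n * (1 + Par.β) * Par.τ n) ≤ 3 / 2 := by
      refine (Real.exp_le_exp.mpr hN.q1).trans ?_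
      have h5 : Real.exp (1 / 10) ≤ 1 / (1 - 1 / 10) := by
        have := Real.one_sub_le_exp_neg (1 / 10)
        rw [Real.exp_neg] at this
        rw [le_div_iff₀ (by norm_num)]
        have h6 := Real.exp_pos (1 / 10)
        calc Real.exp (1 / 10) * (1 - 1 / 10) ≤ Real.exp (1 / 10) * (Real.exp (1 / 10))⁻¹ := by
              gcongr
          _ = 1 := mul_inv_cancel₀ h6.ne'
      refine h5.trans (by norm_num)
    have h5 : ((Finset.univ.filter
          (fun v : ↥V => Par.h - Par.τ n < inner ℝ (v : E n) z)).card : ℝ) ≤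
        cnt (fun v : ↥V => (v : E n)) (fun v => Par.h - 2 * Par.τ n < inner ℝ v z0) := by
      have : ((Finset.univ.filter
          (fun v : ↥V => Par.h - Par.τ n < inner ℝ (v : E n) z)).card : ℝ) =
          cnt (fun v : ↥V => (v : E n)) (fun v => Par.h - Par.τ n < inner ℝ v z) := by
        simp only [cnt]
      rw [this]
      refine cnt_mono _ fun v hv => ?_
      have h6 : inner ℝ (v : E n) z0 = inner ℝ (v : E n) z - inner ℝ (v : E n) (z - z0) := by
        rw [← inner_sub_right]; congr 1; abel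
      have h7 : inner ℝ (v : E n) (z - z0) ≤ ‖(v : E n)‖ * ‖z - z0‖ := real_inner_le_norm _ _
      have h8 : ‖(v : E n)‖ * ‖z - z0‖ ≤ 1 * Par.τ n := by
        gcongr
        · exact hV v v.2
        · rw [← dist_eq_norm]; exact (Metric.mem_ball.mp hz0).le
      linarith
    have h6 := one_sub_pow_ge hp0 (by linarith) (Finset.univ.filter
          (fun v : ↥V => Par.h - Par.τ n < inner ℝ (v : E n) z)).card
    refine le_trans (Real.exp_le_exp.mpr ?_) h6
    have h7 := mul_le_mul_of_nonneg_left h5 hp0.le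
    linarith
  have hBd0 : volume (Metric.closedBall (0 : E n) 1) ≠ 0 :=
    (Metric.measure_closedBall_pos _ _ one_pos).ne'
  have hBd1 : volume (Metric.closedBall (0 : E n) 1) ≠ ∞ := measure_closedBall_lt_top.ne
  obtain ⟨ω, hωB, hωV⟩ := exists_large hp0 hp1 (Metric.closedBall (0 : E n) 1)
    Metric.isClosed_closedBall.measurableSet hBd0 hBd1 (Kset (Par.h - Par.τ n))
    (fun ω => (Kset_closed _ ω).measurableSet) (fun ω => Kset_sub _ ω)
    (Real.exp (-8)) (Real.exp_pos _) hin (⋃ Xh ∈ good, Bad Xh) (by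
      refine hunion.trans ?_
      rw [show (-13 : ℝ) = -8 + (-5) by norm_num, Real.exp_add]
      have h1 : Real.exp (-5) ≤ 1 / 4 :=
        (Real.exp_le_exp.mpr (by norm_num)).trans exp_neg_two_le
      have h2 := Real.exp_pos (-8)
      nlinarith)
  refine ⟨Kset (Par.h - Par.τ n) ω, Kset_convexBody hV (by linarith) ω, ?_⟩
  unfold thetaT
  refine le_iInf fun X => le_iInf fun hX => le_iInf fun hcov => ?_
  by_contra hcon
  push Not at hcon
  -- density bound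
  have hvol : ENNReal.ofReal (Real.exp (-14)) * volume (Metric.closedBall (0 : E n) 1) ≤
      volume (Kset (Par.h - Par.τ n) ω) := by
    refine le_trans ?_ hωV
    gcongr
    rw [show (-14 : ℝ) = -8 + (-6) by norm_num, Real.exp_add]
    have h1 : Real.exp (-6) ≤ 1 / 4 :=
      (Real.exp_le_exp.mpr (by norm_num)).trans exp_neg_two_le
    have h2 := Real.exp_pos (-8)
    nlinarith
  have hdens : upperDensity X * volume (Metric.closedBall (0 : E n) 1) <
      ENNReal.ofReal (Par.D n) := by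
    have h1 : ENNReal.ofReal (Real.exp (-14)) *
        (upperDensity X * volume (Metric.closedBall (0 : E n) 1)) <
        ENNReal.ofReal (Real.exp (-14)) * ENNReal.ofReal (Par.D n) := by
      calc ENNReal.ofReal (Real.exp (-14)) *
          (upperDensity X * volume (Metric.closedBall (0 : E n) 1)) =
          (ENNReal.ofReal (Real.exp (-14)) * volume (Metric.closedBall (0 : E n) 1)) *
            upperDensity X := by ring
        _ ≤ volume (Kset (Par.h - Par.τ n) ω) * upperDensity X := by gcongr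
        _ < ENNReal.ofReal (Real.exp (-14) * Par.D n) := hcon
        _ = _ := ENNReal.ofReal_mul (Real.exp_pos _).le
    exact lt_of_mul_lt_mul_left' h1
  have hs4 := W_int n hn1 (Par.τ n) (Par.d n) (Par.L n) hτ0.le hd0 (by linarith [hN.d_le])
    (by unfold Par.L Par.B; linarith [hN.hD]) hN.w1 hN.w2
  obtain ⟨Xh, hXG, hXM, hex, hcv⟩ := select hn1 (5 ^ n) (Par.T n) (4 ^ n) (Par.τ n) Par.ρ
    (Par.d n) (Par.L n) Par.η₂ (Par.η₃ n) (Par.B n) (Par.D n) hτ0 (by rw [hρ]; norm_num)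
    (by rw [hρ]; linarith) hd0 (by rw [hη₂]; norm_num) hη₃0 hN.hD Gr hGr
    (by have := hN.s1; push_cast; linarith) (by have := hN.s2; push_cast; linarith)
    (by have := hN.s3; push_cast; linarith) hs4 (by unfold Par.B; linarith)
    (by unfold Par.L; linarith) X hX hdens (Kset (Par.h - Par.τ n) ω) (fun z hz => hz.1) hcov
  have hXgood : Xh ∈ good := by
    rw [hgood, Finset.mem_filter, Finset.mem_filter, Finset.mem_powerset]
    exact ⟨⟨hXG, hXM⟩, hex⟩
  apply hωB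
  simp only [Set.mem_iUnion, exists_prop]
  refine ⟨Xh, hXgood, ?_⟩
  have hf := hfyx Xh hex
  intro i a
  have hxn : ‖fx Xh i a‖ ≤ 1 + Par.ρ := by
    calc ‖fx Xh i a‖ = ‖fy Xh i + (fx Xh i a - fy Xh i)‖ := by congr 1; abel
      _ ≤ ‖fy Xh i‖ + ‖fx Xh i a - fy Xh i‖ := norm_add_le _ _
      _ ≤ 1 + Par.ρ := by linarith [hf.1 i, hf.2.1 i a]
  obtain ⟨l, hl, z, hz, hlz⟩ := hcv (fx Xh i a) hxn
  refine ⟨l, hl, ?_, ?_⟩
  · calc ‖fx Xh i a - l‖ = ‖z + ((fx Xh i a - l) - z)‖ := by congr 1; abel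
      _ ≤ ‖z‖ + ‖(fx Xh i a - l) - z‖ := norm_add_le _ _
      _ ≤ 1 + Par.τ n := by linarith [hz.1]
  · intro v hv
    have h1 : inner ℝ (v : E n) (fx Xh i a - l) =
        inner ℝ (v : E n) z + inner ℝ (v : E n) ((fx Xh i a - l) - z) := by
      rw [← inner_add_right]; congr 1; abel
    have h2 : inner ℝ (v : E n) ((fx Xh i a - l) - z) ≤
        ‖(v : E n)‖ * ‖(fx Xh i a - l) - z‖ := real_inner_le_norm _ _
    have h3 : ‖(v : E n)‖ * ‖(fx Xh i a - l) - z‖ ≤ 1 * Par.τ n := by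
      gcongr
      exact hV v v.2
    have h4 := hz.2 v hv
    linarith

end Vale.Agent.P230
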