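import Vale.Agent.Lib.P230.Defs2

/-!
# The numerical inequalities
-/

namespace Vale.Agent.P230

namespace Par

open MeasureTheory Set Filter
open scoped ENNReal Pointwise Topology

/-- The facts about a large `n` from which all inequalities are derived. -/
structure Big (n : ℕ) (x : ℝ) : Prop where
  hx : m n = x
  nx : (n : ℝ) = x ^ 32
  lg : Real.log n = 32 * Real.log x
  x_ge : (10 : ℝ) ^ 12 ≤ x
  pow_exp : x ^ 66 ≤ Real.exp x
  log_ge : 24 ≤ Real.log x
  f4 : 2 * (n : ℝ) ^ 2 ≤ (4 / 3 : ℝ) ^ n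
  f5 : 3 * (n : ℝ) ^ 2 + 39 ≤ (5 / 4 : ℝ) ^ n
  f6 : 6 * (n : ℝ) ^ 3 + 4 ≤ Real.exp (n / 2)

theorem big_eventually : ∀ᶠ n : ℕ in atTop, Big n (m n) := by
  have hm : Tendsto m atTop atTop := by
    unfold m
    exact (tendsto_rpow_atTop (by norm_num)).comp tendsto_natCast_atTop_atTop
  have h1 : ∀ᶠ n : ℕ in atTop, (10 : ℝ) ^ 12 ≤ m n := hm.eventually_ge_atTop _
  have h2 : ∀ᶠ n : ℕ in atTop, m n ^ 66 ≤ Real.exp (m n) := by
    have h3 : ∀ᶠ x : ℝ in atTop, x ^ 66 ≤ Real.exp x := by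
      have := Real.tendsto_pow_mul_exp_neg_atTop_nhds_zero 66
      filter_upwards [this.eventually (ge_mem_nhds (show (0 : ℝ) < 1 by norm_num))] with x hx
      rw [Real.exp_neg] at hx
      have := Real.exp_pos x
      rwa [mul_inv_le_iff₀ this, one_mul] at hx
    exact hm.eventually h3
  have h3 : ∀ᶠ n : ℕ in atTop, 24 ≤ Real.log (m n) :=
    hm.eventually (Real.tendsto_log_atTop.eventually_ge_atTop 24)
  have h4 : ∀ᶠ n : ℕ in atTop, 2 * (n : ℝ) ^ 2 ≤ (4 / 3 : ℝ) ^ n := by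
    have := tendsto_pow_const_div_const_pow_of_one_lt 2 (show (1 : ℝ) < 4 / 3 by norm_num)
    filter_upwards [this.eventually (ge_mem_nhds (show (0 : ℝ) < 1 / 2 by norm_num))] with n hn
    have hp : (0 : ℝ) < (4 / 3 : ℝ) ^ n := by positivity
    rw [div_le_iff₀ hp] at hn
    linarith
  have h5 : ∀ᶠ n : ℕ in atTop, 3 * (n : ℝ) ^ 2 + 39 ≤ (5 / 4 : ℝ) ^ n := by
    have := tendsto_pow_const_div_const_pow_of_one_lt 2 (show (1 : ℝ) < 5 / 4 by norm_num)
    filter_upwards [this.eventually (ge_mem_nhds (show (0 : ℝ) < 1 / 42 by norm_num)),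
      eventually_ge_atTop 1] with n hn hn1
    have hp : (0 : ℝ) < (5 / 4 : ℝ) ^ n := by positivity
    rw [div_le_iff₀ hp] at hn
    have : (1 : ℝ) ≤ (n : ℝ) ^ 2 := one_le_pow₀ (by exact_mod_cast hn1)
    linarith
  have h6 : ∀ᶠ n : ℕ in atTop, 6 * (n : ℝ) ^ 3 + 4 ≤ Real.exp (n / 2) := by
    have h7 : ∀ᶠ x : ℝ in atTop, 10 * (2 * x) ^ 3 ≤ Real.exp x := by
      have := (Real.tendsto_pow_mul_exp_neg_atTop_nhds_zero 3).const_mul 80
      rw [mul_zero] at this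
      filter_upwards [this.eventually (ge_mem_nhds (show (0 : ℝ) < 1 by norm_num))] with x hx
      rw [Real.exp_neg] at hx
      have hp := Real.exp_pos x
      rw [← mul_assoc, mul_inv_le_iff₀ hp, one_mul] at hx
      have h8 : 10 * (2 * x) ^ 3 = 80 * x ^ 3 := by ring
      rw [h8]; exact hx
    have h8 : Tendsto (fun n : ℕ => (n : ℝ) / 2) atTop atTop :=
      tendsto_natCast_atTop_atTop.atTop_div_const (by norm_num)
    filter_upwards [h8.eventually h7, eventually_ge_atTop 1] with n hn hn1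
    have : (1 : ℝ) ≤ (n : ℝ) ^ 3 := one_le_pow₀ (by exact_mod_cast hn1)
    have h9 : 2 * ((n : ℝ) / 2) = n := by ring
    rw [h9] at hn
    linarith
  filter_upwards [h1, h2, h3, h4, h5, h6, eventually_ge_atTop 1] with n h1 h2 h3 h4 h5 h6 hn1
  have hn0 : (0 : ℝ) < n := by exact_mod_cast hn1
  refine ⟨rfl, ?_, ?_, h1, h2, h3, h4, h5, h6⟩
  · unfold m
    rw [← Real.rpow_natCast, ← Real.rpow_mul hn0.le]
    norm_num
  · unfold m
    rw [Real.log_rpow hn0]
    ring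

section

variable {n : ℕ} {x : ℝ}

theorem Big.pow_lt (hb : Big n x) {a b : ℕ} (h : a < b) : (10 : ℝ) ^ 12 * x ^ a ≤ x ^ b := by
  have hx0 : (1 : ℝ) ≤ x := le_trans (by norm_num) hb.x_ge
  calc (10 : ℝ) ^ 12 * x ^ a ≤ x * x ^ a := by
        have := hb.x_ge
        gcongr
    _ = x ^ (a + 1) := by ring
    _ ≤ x ^ b := pow_le_pow_right₀ hx0 h

theorem Big.one_le (hb : Big n x) : (1 : ℝ) ≤ x := le_trans (by norm_num) hb.x_ge

theorem Big.pos (hb : Big n x) : (0 : ℝ) < x := lt_of_lt_of_le one_pos hb.one_le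

theorem Big.log_le (hb : Big n x) : Real.log x ≤ x := by
  have := Real.log_le_sub_one_of_pos hb.pos
  linarith

theorem Big.npos (hb : Big n x) : (0 : ℝ) < n := by rw [hb.nx]; have := hb.pos; positivity

theorem Big.hr (hb : Big n x) : r n = 1 / x ^ 12 := by unfold r; rw [hb.hx]
theorem Big.hd (hb : Big n x) : d n = 1 / x ^ 28 := by unfold d; rw [hb.hx]
theorem Big.hη (hb : Big n x) : η₃ n = 1 / x := by unfold η₃; rw [hb.hx]
theorem Big.hτ (hb : Big n x) : τ n = 1 / x ^ 64 := by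
  unfold τ; rw [hb.nx]; congr 1; ring

theorem Big.nr (hb : Big n x) : (n : ℝ) * r n = x ^ 20 := by
  have := hb.pos
  rw [hb.hr, hb.nx]; field_simp

theorem Big.nd (hb : Big n x) : (n : ℝ) * d n = x ^ 4 := by
  have := hb.pos
  rw [hb.hd, hb.nx]; field_simp

theorem Big.hB (hb : Big n x) : B n = 768 / 10 ^ 11 * (n * Real.log x) := by
  unfold B D c₀; rw [hb.lg]; ring

theorem Big.B_nonneg (hb : Big n x) : 0 ≤ B n := by
  rw [hb.hB]
  have := hb.npos
  have := hb.log_ge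
  positivity

theorem Big.B_le (hb : Big n x) : B n ≤ x ^ 33 := by
  rw [hb.hB]
  have h1 := hb.log_le
  have h2 := hb.pos
  have h3 := hb.log_ge
  calc 768 / 10 ^ 11 * ((n : ℝ) * Real.log x) ≤ 1 * ((n : ℝ) * Real.log x) := by
        have := hb.npos
        gcongr; norm_num
    _ = x ^ 32 * Real.log x := by rw [hb.nx]; ring
    _ ≤ x ^ 32 * x := by gcongr
    _ = x ^ 33 := by ring

theorem Big.inv_le (hb : Big n x) {k : ℕ} (hk : 0 < k) : 1 / x ^ k ≤ 1 / 10 ^ 12 := by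
  have h1 := hb.pow_lt hk
  rw [pow_zero, mul_one] at h1
  exact one_div_le_one_div_of_le (by norm_num) h1

theorem Big.inv_mono (hb : Big n x) {a b : ℕ} (h : a < b) : 10 ^ 12 * (1 / x ^ b) ≤ 1 / x ^ a := by
  have h0 := hb.pos
  have h1 := hb.pow_lt h
  rw [mul_one_div, div_le_div_iff₀ (by positivity) (by positivity)]
  linarith

theorem h_sq : h ^ 2 = β / (1 + β) := by
  unfold h
  rw [Real.sq_sqrt]
  unfold β; positivity

theorem h_lt : h ≤ 1 - 1 / 10 ^ 8 := by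
  unfold h
  rw [Real.sqrt_le_left (by norm_num)]
  unfold β
  norm_num

/-- the bound for `e₃`. -/
theorem Big.e₃_le (hb : Big n x) : e₃ n ≤ 3 * Real.exp (-x ^ 8) := by
  have h0 := hb.pos
  have h1 : x ^ 8 ≤ (n : ℝ) / 2 * β * (r n ^ 2 / 4 - 3 * τ n) := by
    have h2 : (n : ℝ) / 2 * β * (r n ^ 2 / 4 - 3 * τ n) =
        β / 8 * x ^ 8 - 3 * β / 2 * (1 / x ^ 32) := by
      rw [hb.hr, hb.hτ, hb.nx]; field_simp; ring
    rw [h2]
    have h3 := hb.inv_le (k := 32) (by norm_num)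
    have h4 : 1 ≤ x ^ 8 := one_le_pow₀ hb.one_le
    unfold β
    linarith
  have h5 : x ^ 8 ≤ 5 * n := by
    rw [hb.nx]
    have := hb.pow_lt (show 8 < 32 by norm_num)
    have h6 : 0 < x ^ 8 := by positivity
    linarith
  unfold e₃ ε
  have h7 : Real.exp (-((n : ℝ) / 2 * β * (r n ^ 2 / 4 - 3 * τ n))) ≤ Real.exp (-x ^ 8) :=
    Real.exp_le_exp.2 (by linarith)
  have h8 : Real.exp (-(5 * (n : ℝ))) ≤ Real.exp (-x ^ 8) := Real.exp_le_exp.2 (by linarith)
  linarith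

theorem Big.e₅_le (hb : Big n x) : e₅ n ≤ 3 * Real.exp (-x ^ 30) := by
  have h0 := hb.pos
  have h1 : x ^ 30 ≤ (n : ℝ) / 2 * β * (η₃ n ^ 2 / 4 - 3 * τ n) := by
    have h2 : (n : ℝ) / 2 * β * (η₃ n ^ 2 / 4 - 3 * τ n) =
        β / 8 * x ^ 30 - 3 * β / 2 * (1 / x ^ 32) := by
      rw [hb.hη, hb.hτ, hb.nx]; field_simp; ring
    rw [h2]
    have h3 := hb.inv_le (k := 32) (by norm_num)
    have h4 : 1 ≤ x ^ 30 := one_le_pow₀ hb.one_le
    unfold β
    linarith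
  have h5 : x ^ 30 ≤ 5 * n := by
    rw [hb.nx]
    have := hb.pow_lt (show 30 < 32 by norm_num)
    have h6 : 0 < x ^ 30 := by positivity
    linarith
  unfold e₅ ε
  have h7 : Real.exp (-((n : ℝ) / 2 * β * (η₃ n ^ 2 / 4 - 3 * τ n))) ≤ Real.exp (-x ^ 30) :=
    Real.exp_le_exp.2 (by linarith)
  have h8 : Real.exp (-(5 * (n : ℝ))) ≤ Real.exp (-x ^ 30) := Real.exp_le_exp.2 (by linarith)
  linarith

theorem Big.e₄_le (hb : Big n x) : (5 : ℝ) ^ n * 4 ^ n * e₄ n ≤ 3 * Real.exp (-(2 * n)) := by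
  have h0 := hb.pos
  have hn0 := hb.npos
  have h1 : 5 * (n : ℝ) ≤
      (n : ℝ) / 2 * (β * ((η₂ - ρ) ^ 2 / 4 - 3 * (τ n + ρ)) - 2 * (1 + β) * ρ) := by
    have h2 : (10 : ℝ) ≤ β * ((η₂ - ρ) ^ 2 / 4 - 3 * (τ n + ρ)) - 2 * (1 + β) * ρ := by
      have h3 := hb.inv_le (k := 64) (by norm_num)
      rw [← hb.hτ] at h3
      unfold β η₂ ρ
      norm_num at h3 ⊢
      linarith
    calc 5 * (n : ℝ) = (n : ℝ) / 2 * 10 := by ring
      _ ≤ _ := by gcongr
  have h4 : e₄ n ≤ 3 * Real.exp (-(5 * n)) := by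
    unfold e₄ ε
    have h7 : Real.exp (-((n : ℝ) / 2 *
        (β * ((η₂ - ρ) ^ 2 / 4 - 3 * (τ n + ρ)) - 2 * (1 + β) * ρ))) ≤ Real.exp (-(5 * n)) :=
      Real.exp_le_exp.2 (by linarith)
    linarith
  have h5 : (5 : ℝ) ^ n * 4 ^ n ≤ Real.exp (3 * n) := by
    have h6 : (20 : ℝ) ≤ Real.exp 3 := by
      have h7 : Real.exp 3 = Real.exp 1 ^ 3 := by
        rw [← Real.exp_nat_mul]; norm_num
      rw [h7]
      have h8 := Real.exp_one_gt_d9
      calc (20 : ℝ) ≤ 2.7182818283 ^ 3 := by norm_num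
        _ ≤ Real.exp 1 ^ 3 := by gcongr
    rw [← mul_pow]
    calc ((5 : ℝ) * 4) ^ n ≤ (Real.exp 3) ^ n := by
          have : (5 : ℝ) * 4 = 20 := by norm_num
          rw [this]; gcongr
      _ = Real.exp (3 * n) := by rw [← Real.exp_nat_mul]; congr 1; ring
  calc (5 : ℝ) ^ n * 4 ^ n * e₄ n ≤ Real.exp (3 * n) * (3 * Real.exp (-(5 * n))) := by
        gcongr
        unfold e₄ ε; positivity
    _ = 3 * (Real.exp (3 * n) * Real.exp (-(5 * n))) := by ring
    _ = 3 * Real.exp (-(2 * n)) := by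
        rw [← Real.exp_add]; congr 2; ring

theorem exp_three : (18 : ℝ) ≤ Real.exp 3 := by
  have h7 : Real.exp 3 = Real.exp 1 ^ 3 := by
    rw [← Real.exp_nat_mul]; norm_num
  rw [h7]
  have h8 := Real.exp_one_gt_d9
  calc (18 : ℝ) ≤ 2.7182818283 ^ 3 := by norm_num
    _ ≤ Real.exp 1 ^ 3 := by gcongr

theorem Big.x33_le (hb : Big n x) : x ^ 33 ≤ Real.exp x :=
  (pow_le_pow_right₀ hb.one_le (by norm_num)).trans hb.pow_exp

theorem Big.n1 (hb : Big n x) :
    B n * e₃ n + (5 : ℝ) ^ n * 4 ^ n * e₄ n + ε n ≤ Real.exp (-(a₁ * (1 + n * d n))) / 2 := by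
  have h0 := hb.pos
  rw [hb.nd]
  have hp1 := hb.pow_lt (show 4 < 8 by norm_num)
  have hp2 := hb.pow_lt (show 4 < 32 by norm_num)
  have hp3 : x ≤ x ^ 4 := le_self_pow₀ hb.one_le (by norm_num)
  have hp4 : 1 ≤ x ^ 4 := one_le_pow₀ hb.one_le
  have ha : a₁ = 20000000 := by unfold a₁ β; norm_num
  have e18 := exp_three
  have key : ∀ y : ℝ, y + 3 ≤ -(a₁ * (1 + x ^ 4)) →
      3 * Real.exp y ≤ Real.exp (-(a₁ * (1 + x ^ 4))) / 6 := by
    intro y hy
    have h1 : Real.exp (y + 3) ≤ Real.exp (-(a₁ * (1 + x ^ 4))) := Real.exp_le_exp.2 hy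
    rw [Real.exp_add] at h1
    have h2 : Real.exp y * 18 ≤ Real.exp y * Real.exp 3 := by gcongr
    linarith
  have t1 : B n * e₃ n ≤ Real.exp (-(a₁ * (1 + x ^ 4))) / 6 := by
    have h1 := hb.e₃_le
    have h2 := hb.B_le
    have h3 := hb.x33_le
    have h4 : 0 ≤ e₃ n := by unfold e₃ ε; positivity
    calc B n * e₃ n ≤ Real.exp x * (3 * Real.exp (-x ^ 8)) := by
          gcongr
          exact h2.trans h3
      _ = 3 * Real.exp (x + -x ^ 8) := by rw [Real.exp_add]; ring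
      _ ≤ _ := by
          apply key
          rw [ha]
          linarith
  have t2 : 3 * Real.exp (-(2 * (n : ℝ))) ≤ Real.exp (-(a₁ * (1 + x ^ 4))) / 6 := by
    apply key
    rw [ha, hb.nx]
    linarith
  have t3 : ε n ≤ 3 * Real.exp (-(2 * (n : ℝ))) := by
    unfold ε
    have h1 : Real.exp (-(5 * (n : ℝ))) ≤ Real.exp (-(2 * (n : ℝ))) :=
      Real.exp_le_exp.2 (by linarith [hb.npos])
    have h2 := Real.exp_pos (-(2 * (n : ℝ)))
    linarith
  have t4 := hb.e₄_le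
  linarith

theorem Big.n2 (hb : Big n x) :
    (5 : ℝ) ^ n * 4 ^ n * e₄ n + ε n ≤ Real.exp (-(a₂ * (n * r n))) / 2 := by
  have h0 := hb.pos
  rw [hb.nr]
  have hp2 := hb.pow_lt (show 20 < 32 by norm_num)
  have hp4 : 1 ≤ x ^ 20 := one_le_pow₀ hb.one_le
  have ha : a₂ = 96000000 := by unfold a₂ β; norm_num
  have e18 := exp_three
  have t2 : 6 * Real.exp (-(2 * (n : ℝ))) ≤ Real.exp (-(a₂ * x ^ 20)) / 2 := by
    have h1 : Real.exp (-(2 * (n : ℝ)) + 3) ≤ Real.exp (-(a₂ * x ^ 20)) := by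
      apply Real.exp_le_exp.2
      rw [ha, hb.nx]
      linarith
    rw [Real.exp_add] at h1
    have h2 : Real.exp (-(2 * (n : ℝ))) * 18 ≤ Real.exp (-(2 * (n : ℝ))) * Real.exp 3 := by
      gcongr
    have h3 := Real.exp_pos (-(2 * (n : ℝ)))
    linarith
  have t3 : ε n ≤ 3 * Real.exp (-(2 * (n : ℝ))) := by
    unfold ε
    have h1 : Real.exp (-(5 * (n : ℝ))) ≤ Real.exp (-(2 * (n : ℝ))) :=
      Real.exp_le_exp.2 (by linarith [hb.npos])
    have h2 := Real.exp_pos (-(2 * (n : ℝ)))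
    linarith
  have t4 := hb.e₄_le
  linarith

theorem Big.S_ge (hb : Big n x) : x ^ 24 ≤ (S n : ℝ) := by
  unfold S; rw [hb.hx]; exact Nat.le_ceil _

theorem Big.S_le (hb : Big n x) : (S n : ℝ) ≤ 2 * x ^ 24 := by
  have h0 := hb.pos
  have h1 : (S n : ℝ) < x ^ 24 + 1 := by
    unfold S; rw [hb.hx]; exact Nat.ceil_lt_add_one (by positivity)
  have h2 : 1 ≤ x ^ 24 := one_le_pow₀ hb.one_le
  linarith

/-- The second exponent. -/
theorem Big.q2_le (hb : Big n x) :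
    (a₂ * (n * r n) + 2) * (B n / S n) ≤ 2 * (x ^ 28 * Real.log x) := by
  have h0 := hb.pos
  have hl := hb.log_ge
  have hS := hb.S_ge
  have hS0 : (0 : ℝ) < S n := lt_of_lt_of_le (by positivity) hS
  have h1 : B n / S n ≤ B n / x ^ 24 := by
    have := hb.B_nonneg
    gcongr
  have h2 : a₂ * (n * r n) + 2 ≤ 2 * 10 ^ 8 * x ^ 20 := by
    rw [hb.nr]
    have hp4 : 1 ≤ x ^ 20 := one_le_pow₀ hb.one_le
    have ha : a₂ = 96000000 := by unfold a₂ β; norm_num
    rw [ha]; linarith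
  have h3 : B n / x ^ 24 = 768 / 10 ^ 11 * (x ^ 8 * Real.log x) := by
    rw [hb.hB, hb.nx]; field_simp
  have hl0 : 0 < Real.log x := by linarith
  calc (a₂ * (n * r n) + 2) * (B n / S n) ≤ (2 * 10 ^ 8 * x ^ 20) * (B n / x ^ 24) := by
        have := hb.B_nonneg
        gcongr
    _ = 2 * 10 ^ 8 * 768 / 10 ^ 11 * (x ^ 28 * Real.log x) := by rw [h3]; ring
    _ ≤ 2 * (x ^ 28 * Real.log x) := by
        have : 0 ≤ x ^ 28 * Real.log x := by positivity
        have h5 : (2 : ℝ) * 10 ^ 8 * 768 / 10 ^ 11 ≤ 2 := by norm_num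
        exact mul_le_mul_of_nonneg_right h5 this

theorem Big.T_ge (hb : Big n x) : (ρ * x / 16) ^ n / 4 ≤ (T n : ℝ) := by
  have h0 := hb.pos
  have h1 : ρ / (16 * η₃ n) = ρ * x / 16 := by
    rw [hb.hη]; field_simp
  have h2 : (2 : ℝ) ≤ (ρ * x / 16) := by
    unfold ρ
    have := hb.x_ge
    linarith
  have hn : 1 ≤ n := by
    have := hb.npos
    have h3 : 0 < n := by exact_mod_cast this
    omega
  have h4 : (ρ * x / 16) ≤ (ρ * x / 16) ^ n := le_self_pow₀ (by linarith) (by omega)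
  have h5 : (4 : ℝ) ≤ (ρ * x / 16) ^ n := by
    refine le_trans ?_ h4
    unfold ρ
    have := hb.x_ge
    linarith
  have h6 : (ρ * x / 16) ^ n / 2 - 1 < (T n : ℝ) := by
    unfold T; rw [h1]; exact Nat.sub_one_lt_floor _
  linarith

theorem Big.T_le (hb : Big n x) : (T n : ℝ) ≤ (ρ / (16 * η₃ n)) ^ n / 2 := by
  unfold T
  apply Nat.floor_le
  have h0 := hb.pos
  rw [hb.hη]
  unfold ρ
  positivity

theorem Big.log_const (hb : Big n x) : Real.log x - 18 ≤ Real.log (ρ * x / 16) := by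
  have h0 := hb.pos
  have h1 : ρ * x / 16 = x / (64 * 10 ^ 6) := by unfold ρ; ring
  rw [h1, Real.log_div h0.ne' (by norm_num)]
  have h2 : Real.log (64 * 10 ^ 6) ≤ 18 := by
    rw [Real.log_le_iff_le_exp (by norm_num)]
    have h7 : Real.exp 18 = Real.exp 1 ^ 18 := by
      rw [← Real.exp_nat_mul]; norm_num
    rw [h7]
    have h8 := Real.exp_one_gt_d9
    calc (64 * 10 ^ 6 : ℝ) ≤ 2.7182818283 ^ 18 := by norm_num
      _ ≤ Real.exp 1 ^ 18 := by gcongr
  linarith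

theorem Big.n3 (hb : Big n x) : 1 / (T n : ℝ) ≤
    Real.exp (-((a₁ + 2) * B n + (a₂ * (n * r n) + 2) * (B n / S n))) := by
  have h0 := hb.pos
  have hn0 := hb.npos
  have hl := hb.log_ge
  have hT := hb.T_ge
  have hρ : 0 < ρ * x / 16 := by unfold ρ; positivity
  have hT0 : (0 : ℝ) < T n := lt_of_lt_of_le (by positivity) hT
  rw [Real.exp_neg, one_div]
  apply inv_anti₀ (Real.exp_pos _)
  refine le_trans ?_ hT
  have h1 : Real.exp (n * Real.log (ρ * x / 16)) = (ρ * x / 16) ^ n := by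
    rw [Real.exp_nat_mul, Real.exp_log hρ]
  rw [← h1]
  have h2 : (4 : ℝ) ≤ Real.exp 2 := by
    have h7 : Real.exp 2 = Real.exp 1 ^ 2 := by
      rw [← Real.exp_nat_mul]; norm_num
    rw [h7]
    have h8 := Real.exp_one_gt_d9
    calc (4 : ℝ) ≤ 2.7182818283 ^ 2 := by norm_num
      _ ≤ Real.exp 1 ^ 2 := by gcongr
  rw [le_div_iff₀ (by norm_num)]
  calc Real.exp ((a₁ + 2) * B n + (a₂ * (n * r n) + 2) * (B n / S n)) * 4
      ≤ Real.exp ((a₁ + 2) * B n + (a₂ * (n * r n) + 2) * (B n / S n)) * Real.exp 2 := by gcongr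
    _ = Real.exp ((a₁ + 2) * B n + (a₂ * (n * r n) + 2) * (B n / S n) + 2) := by
        rw [← Real.exp_add]
    _ ≤ Real.exp (n * Real.log (ρ * x / 16)) := by
        apply Real.exp_le_exp.2
        have h3 := hb.q2_le
        have h4 : (a₁ + 2) * B n ≤ 16 / 100 * (n * Real.log x) := by
          rw [hb.hB]
          have ha : a₁ = 20000000 := by unfold a₁ β; norm_num
          rw [ha]
          have : 0 ≤ (n : ℝ) * Real.log x := by positivity
          linarith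
        have h5 : 2 * (x ^ 28 * Real.log x) ≤ 1 / 100 * (n * Real.log x) := by
          rw [hb.nx]
          have hp := hb.pow_lt (show 28 < 32 by norm_num)
          have hl0 : 0 ≤ Real.log x := by linarith
          have h6 : (10 ^ 12 * x ^ 28) * Real.log x ≤ x ^ 32 * Real.log x := by gcongr
          have h7 : 0 ≤ x ^ 28 * Real.log x := by positivity
          linarith
        have h8 := hb.log_const
        have h9 : (n : ℝ) * (Real.log x - 18) ≤ n * Real.log (ρ * x / 16) := by gcongr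
        have h10 : (n : ℝ) * 24 ≤ n * Real.log x := by gcongr
        have h11 : (10 : ℝ) ^ 12 ≤ n := by
          rw [hb.nx]
          have := hb.pow_lt (show 0 < 32 by norm_num)
          rw [pow_zero, mul_one] at this
          exact this
        linarith

theorem Big.n4 (hb : Big n x) : B n ^ 2 * e₅ n *
    (Real.exp ((a₁ + 2) * (1 + n * d n) * S n + (a₂ * (n * r n) + 2) * (B n / S n))) ^ 2
      ≤ Real.log 2 := by
  have h0 := hb.pos
  have hn0 := hb.npos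
  have hl := hb.log_ge
  have hp1 := hb.pow_lt (show 28 < 29 by norm_num)
  have hp2 := hb.pow_lt (show 29 < 30 by norm_num)
  have hp3 := hb.pow_lt (show 1 < 30 by norm_num)
  have hp4 : 1 ≤ x ^ 4 := one_le_pow₀ hb.one_le
  have hp5 := hb.pow_lt (show 0 < 30 by norm_num)
  rw [pow_one] at hp3
  rw [pow_zero, mul_one] at hp5
  have h1 : (a₁ + 2) * (1 + n * d n) * S n ≤ 10 ^ 9 * x ^ 28 := by
    rw [hb.nd]
    have ha : a₁ = 20000000 := by unfold a₁ β; norm_num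
    rw [ha]
    calc ((20000000 : ℝ) + 2) * (1 + x ^ 4) * S n ≤ (20000000 + 2) * (2 * x ^ 4) * (2 * x ^ 24) := by
          have := hb.S_le
          gcongr
          linarith
      _ = 80000008 * x ^ 28 := by ring
      _ ≤ 10 ^ 9 * x ^ 28 := by
          have : 0 < x ^ 28 := by positivity
          nlinarith
  have h2 : (a₂ * (n * r n) + 2) * (B n / S n) ≤ 2 * x ^ 29 := by
    refine hb.q2_le.trans ?_
    have := hb.log_le
    calc 2 * (x ^ 28 * Real.log x) ≤ 2 * (x ^ 28 * x) := by gcongr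
      _ = 2 * x ^ 29 := by ring
  have h3 : (Real.exp ((a₁ + 2) * (1 + n * d n) * S n +
      (a₂ * (n * r n) + 2) * (B n / S n))) ^ 2 ≤ Real.exp (6 * x ^ 29) := by
    rw [← Real.exp_nat_mul]
    apply Real.exp_le_exp.2
    push_cast
    have hx29 : 0 < x ^ 29 := by positivity
    linarith
  have h4 : B n ^ 2 ≤ Real.exp x := by
    calc B n ^ 2 ≤ (x ^ 33) ^ 2 := by
          have := hb.B_nonneg
          have := hb.B_le
          gcongr
      _ = x ^ 66 := by ring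
      _ ≤ _ := hb.pow_exp
  have h5 := hb.e₅_le
  have h6 : 0 ≤ e₅ n := by unfold e₅ ε; positivity
  calc B n ^ 2 * e₅ n * (Real.exp ((a₁ + 2) * (1 + n * d n) * S n +
      (a₂ * (n * r n) + 2) * (B n / S n))) ^ 2
      ≤ Real.exp x * (3 * Real.exp (-x ^ 30)) * Real.exp (6 * x ^ 29) := by gcongr
    _ = 3 * (Real.exp x * Real.exp (-x ^ 30) * Real.exp (6 * x ^ 29)) := by ring
    _ = 3 * Real.exp (x + -x ^ 30 + 6 * x ^ 29) := by
        rw [Real.exp_add, Real.exp_add]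
    _ ≤ 3 * Real.exp (-3) := by
        gcongr
        linarith
    _ ≤ 1 / 6 := by
        rw [Real.exp_neg]
        have := exp_three
        have h7 : (Real.exp 3)⁻¹ ≤ (18 : ℝ)⁻¹ := inv_anti₀ (by norm_num) this
        norm_num at h7 ⊢
        linarith
    _ ≤ Real.log 2 := by linarith [Real.log_two_gt_d9]

theorem Big.s1 (hb : Big n x) : 2 * (5 : ℝ) ^ n * (4 ^ n) ^ 2 * η₂ ^ n ≤ 1 := by
  have hn : 1 ≤ n := by
    have := hb.npos
    have h3 : 0 < n := by exact_mod_cast this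
    omega
  have h1 : 2 * (5 : ℝ) ^ n * (4 ^ n) ^ 2 * η₂ ^ n = 2 * (2 / 5 : ℝ) ^ n := by
    rw [← pow_mul, mul_comm n 2, pow_mul, mul_assoc, mul_assoc, ← mul_pow, ← mul_pow]
    unfold η₂
    norm_num
  rw [h1]
  have h2 : (2 / 5 : ℝ) ^ n ≤ (2 / 5) ^ 1 := pow_le_pow_of_le_one (by norm_num) (by norm_num) hn
  linarith

theorem Big.s2 (hb : Big n x) : 2 * (T n : ℝ) * (4 ^ n) ^ 2 * η₃ n ^ n ≤ ρ ^ n := by
  have h0 := hb.pos
  have hη : 0 < η₃ n := by rw [hb.hη]; positivity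
  calc 2 * (T n : ℝ) * (4 ^ n) ^ 2 * η₃ n ^ n
      ≤ 2 * ((ρ / (16 * η₃ n)) ^ n / 2) * (4 ^ n) ^ 2 * η₃ n ^ n := by
        have := hb.T_le
        gcongr
    _ = (ρ / (16 * η₃ n)) ^ n * (16 ^ n * η₃ n ^ n) := by
        rw [← pow_mul, mul_comm n 2, pow_mul]; norm_num; ring
    _ = ρ ^ n := by
        rw [← mul_pow, ← mul_pow]; congr 1; field_simp

theorem Big.s3 (hb : Big n x) : 2 * D n * 3 ^ n ≤ 4 ^ n := by
  have hn0 := hb.npos
  have h1 : Real.log n ≤ n := by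
    have := Real.log_le_sub_one_of_pos hn0
    linarith
  have h2 : 2 * D n ≤ (4 / 3 : ℝ) ^ n := by
    refine le_trans ?_ hb.f4
    unfold D c₀
    have h3 : (n : ℝ) * Real.log n ≤ n * n := by gcongr
    have h4 : 0 ≤ (n : ℝ) * n := by positivity
    calc 2 * (1 / 10 ^ 11 * (n : ℝ) * Real.log n)
          = 2 / 10 ^ 11 * ((n : ℝ) * Real.log n) := by ring
      _ ≤ 2 / 10 ^ 11 * ((n : ℝ) * n) := by gcongr
      _ ≤ 2 * (n : ℝ) ^ 2 := by nlinarith
  calc 2 * D n * 3 ^ n ≤ (4 / 3 : ℝ) ^ n * 3 ^ n := by gcongr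
    _ = 4 ^ n := by rw [← mul_pow]; norm_num

theorem Big.w1 (hb : Big n x) : Real.exp (2 * τ n * n) ≤ 11 / 10 := by
  have h0 := hb.pos
  have h1 : 2 * τ n * n = 2 * (1 / x ^ 32) := by
    rw [hb.hτ, hb.nx]; field_simp
  rw [h1]
  have h2 := hb.inv_le (k := 32) (by norm_num)
  have h3 : Real.exp (2 * (1 / x ^ 32)) ≤ Real.exp (1 / 11) := by
    apply Real.exp_le_exp.2
    norm_num at h2 ⊢
    linarith
  refine h3.trans ?_
  have h4 : 1 - 1 / 11 ≤ Real.exp (-(1 / 11)) := Real.one_sub_le_exp_neg _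
  rw [Real.exp_neg] at h4
  have h5 := Real.exp_pos (1 / 11 : ℝ)
  have h6 := mul_le_mul_of_nonneg_left h4 h5.le
  rw [mul_inv_cancel₀ h5.ne'] at h6
  linarith

theorem Big.w2 (hb : Big n x) : L n * (1 - d n + τ n) ^ n ≤ 1 := by
  have h0 := hb.pos
  have h1 : 1 - d n + τ n ≤ Real.exp (-(d n - τ n)) := by
    have := Real.one_sub_le_exp_neg (d n - τ n)
    linarith
  have hd : d n ≤ 1 := by
    rw [hb.hd]
    have := hb.inv_le (k := 28) (by norm_num)
    norm_num at this ⊢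
    linarith
  have hτ0 : 0 ≤ τ n := by rw [hb.hτ]; positivity
  have h2 : (1 - d n + τ n) ^ n ≤ Real.exp (-x ^ 4 + 1) := by
    calc (1 - d n + τ n) ^ n ≤ (Real.exp (-(d n - τ n))) ^ n := by
          gcongr
      _ = Real.exp (n * (-(d n - τ n))) := by rw [← Real.exp_nat_mul]
      _ ≤ Real.exp (-x ^ 4 + 1) := by
          apply Real.exp_le_exp.2
          have h3 : (n : ℝ) * (-(d n - τ n)) = -(n * d n) + n * τ n := by ring
          have h4 : (n : ℝ) * τ n = 1 / x ^ 32 := by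
            rw [hb.hτ, hb.nx]; field_simp
          rw [h3, h4, hb.nd]
          have := hb.inv_le (k := 32) (by norm_num)
          norm_num at this ⊢
          linarith
  have h3 : L n ≤ 2 * Real.exp x := by
    unfold L
    have h4 := hb.B_le
    have h5 := hb.x33_le
    have h6 : 1 ≤ Real.exp x := Real.one_le_exp h0.le
    linarith
  have hL0 : 0 ≤ L n := by unfold L; linarith [hb.B_nonneg]
  have hp := hb.pow_lt (show 1 < 4 by norm_num)
  have hx1 := hb.one_le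
  rw [pow_one] at hp
  calc L n * (1 - d n + τ n) ^ n ≤ (2 * Real.exp x) * Real.exp (-x ^ 4 + 1) := by
        have : 0 ≤ (1 - d n + τ n) ^ n := by
          apply pow_nonneg; linarith
        gcongr
    _ = 2 * Real.exp (x + (-x ^ 4 + 1)) := by rw [mul_assoc, ← Real.exp_add]
    _ ≤ 2 * Real.exp (-3) := by
        gcongr
        linarith
    _ ≤ 1 := by
        rw [Real.exp_neg]
        have := exp_three
        have h7 : (Real.exp 3)⁻¹ ≤ (18 : ℝ)⁻¹ := inv_anti₀ (by norm_num) this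
        norm_num at h7 ⊢
        linarith

theorem Big.u1 (hb : Big n x) :
    ((6 * n / τ n + 4) ^ n + 1 : ℝ) ^ (4 ^ n) * (2 / 3 : ℝ) ^ (5 ^ n) ≤ Real.exp (-13) := by
  have h0 := hb.pos
  have hn0 := hb.npos
  have hn1 : (1 : ℝ) ≤ n := by
    have h3 : 0 < n := by exact_mod_cast hn0
    exact_mod_cast h3
  have h1 : 6 * (n : ℝ) / τ n + 4 = 6 * (n : ℝ) ^ 3 + 4 := by
    unfold τ; field_simp
  rw [h1]
  have h2 : (6 * (n : ℝ) ^ 3 + 4) ^ n + 1 ≤ Real.exp (n ^ 2) := by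
    have h3 : (6 * (n : ℝ) ^ 3 + 4) ^ n ≤ Real.exp (n ^ 2 / 2) := by
      calc (6 * (n : ℝ) ^ 3 + 4) ^ n ≤ (Real.exp (n / 2)) ^ n := by
            have := hb.f6
            gcongr
        _ = Real.exp (n ^ 2 / 2) := by rw [← Real.exp_nat_mul]; congr 1; ring
    have h4 : (2 : ℝ) ≤ Real.exp (n ^ 2 / 2) := by
      have h5 : (n : ℝ) ^ 2 / 2 + 1 ≤ Real.exp (n ^ 2 / 2) := Real.add_one_le_exp _
      have h6 : (10 : ℝ) ^ 12 ≤ n := by
        rw [hb.nx]
        have := hb.pow_lt (show 0 < 32 by norm_num)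
        rw [pow_zero, mul_one] at this
        exact this
      nlinarith
    have h5 : Real.exp ((n : ℝ) ^ 2) = Real.exp (n ^ 2 / 2) * Real.exp (n ^ 2 / 2) := by
      rw [← Real.exp_add]; congr 1; ring
    rw [h5]
    nlinarith
  have h3 : (2 / 3 : ℝ) ≤ Real.exp (-(1 / 3)) := by
    have := Real.one_sub_le_exp_neg (1 / 3 : ℝ)
    linarith
  have h4 : (n : ℝ) ^ 2 * 4 ^ n + 13 ≤ 1 / 3 * 5 ^ n := by
    have h5 : (5 : ℝ) ^ n = (5 / 4 : ℝ) ^ n * 4 ^ n := by rw [← mul_pow]; norm_num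
    have h6 := hb.f5
    have h7 : (1 : ℝ) ≤ 4 ^ n := one_le_pow₀ (by norm_num)
    rw [h5]
    have h8 : (3 * (n : ℝ) ^ 2 + 39) * 4 ^ n ≤ (5 / 4 : ℝ) ^ n * 4 ^ n := by gcongr
    nlinarith
  calc ((6 * (n : ℝ) ^ 3 + 4) ^ n + 1 : ℝ) ^ (4 ^ n) * (2 / 3 : ℝ) ^ (5 ^ n)
      ≤ (Real.exp (n ^ 2)) ^ (4 ^ n) * (Real.exp (-(1 / 3))) ^ (5 ^ n) := by gcongr
    _ = Real.exp (((4 ^ n : ℕ) : ℝ) * n ^ 2) * Real.exp (((5 ^ n : ℕ) : ℝ) * (-(1 / 3))) := by
        rw [← Real.exp_nat_mul, ← Real.exp_nat_mul]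
    _ = Real.exp (((4 ^ n : ℕ) : ℝ) * n ^ 2 + ((5 ^ n : ℕ) : ℝ) * (-(1 / 3))) := by
        rw [Real.exp_add]
    _ ≤ Real.exp (-13) := by
        apply Real.exp_le_exp.2
        push_cast
        linarith

theorem Big.q1 (hb : Big n x) : 4 * n * (1 + β) * τ n ≤ 1 / 10 := by
  have h0 := hb.pos
  have h1 : 4 * n * (1 + β) * τ n = 4 * (1 + β) * (1 / x ^ 32) := by
    rw [hb.hτ, hb.nx]; field_simp
  rw [h1]
  have := hb.inv_le (k := 32) (by norm_num)
  unfold β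
  norm_num at this ⊢
  linarith

theorem Big.ok (hb : Big n x) : NumOK n := by
  have h0 := hb.pos
  have hn0 := hb.npos
  have hl := hb.log_ge
  have hbig : (10 : ℝ) ^ 12 ≤ n := by
    rw [hb.nx]
    have := hb.pow_lt (show 0 < 32 by norm_num)
    rw [pow_zero, mul_one] at this
    exact this
  have hT := hb.T_ge
  have hρ : 0 < ρ * x / 16 := by unfold ρ; positivity
  have hlt := h_lt
  have i12 := hb.inv_le (k := 12) (by norm_num)
  have i28 := hb.inv_le (k := 28) (by norm_num)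
  have i64 := hb.inv_le (k := 64) (by norm_num)
  have i1 := hb.inv_le (k := 1) (by norm_num)
  have e12 := hb.hr
  have e28 := hb.hd
  have e64 := hb.hτ
  have e1 := hb.hη
  refine ⟨?_, ?_, ?_, ?_, ?_, ?_, ?_, ?_, ?_, ?_, ?_, ?_, ?_, ?_, ?_, hb.n1, hb.n2, hb.n3, hb.n4,
    hb.s1, hb.s2, hb.s3, hb.w1, hb.w2, hb.u1, hb.q1⟩
  · have : (2 : ℝ) ≤ n := by linarith
    exact_mod_cast this
  · rw [hb.hx]; exact h0
  · have := hb.S_ge
    have h1 : (0 : ℝ) < S n := lt_of_lt_of_le (by positivity) this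
    exact_mod_cast h1
  · have h1 : (0 : ℝ) < T n := lt_of_lt_of_le (by positivity) hT
    exact_mod_cast h1
  · unfold D c₀
    rw [hb.lg]; positivity
  · rw [e64]; norm_num at i64 ⊢; linarith
  · rw [e1]; rw [pow_one] at i1; norm_num at i1 ⊢; linarith
  · rw [e28]; norm_num at i28 ⊢; linarith
  · rw [e28]; unfold β; norm_num at i28 ⊢; linarith
  · rw [e28]; norm_num at i28 hlt ⊢; linarith
  · rw [e28, e12]
    have := hb.inv_mono (show 12 < 28 by norm_num)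
    have h1 : 0 < 1 / x ^ 28 := by positivity
    linarith
  · rw [e12]; unfold β; norm_num at i12 ⊢; linarith
  · rw [e12, e28]; norm_num at i28 i12 hlt ⊢; linarith
  · rw [e64, e12]
    have := hb.inv_mono (show 24 < 64 by norm_num)
    have h1 : (1 / x ^ 12) ^ 2 = 1 / x ^ 24 := by
      rw [div_pow, one_pow, ← pow_mul]
    rw [h1]
    have h2 : 0 < 1 / x ^ 64 := by positivity
    linarith
  · rw [e64, e1]
    have := hb.inv_mono (show 2 < 64 by norm_num)
    have h1 : (1 / x) ^ 2 = 1 / x ^ 2 := by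
      rw [div_pow, one_pow]
    rw [h1]
    have h2 : 0 < 1 / x ^ 64 := by positivity
    linarith

end

theorem num : ∀ᶠ n : ℕ in atTop, NumOK n :=
  big_eventually.mono fun _ hb => hb.ok

end Par

end Vale.Agent.P230
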