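import Vale.Agent.Lib.P230.Avg

/-!
# P230: a covering of a cube by translates of `K` yields a periodic covering
-/

namespace Vale.Agent.P230

open MeasureTheory Set Filter
open scoped ENNReal Pointwise

/-- The vector `2 L z` of the lattice `2 L ℤⁿ`. -/
noncomputable def lvec (n : ℕ) (L : ℝ) (z : Fin n → ℤ) : E n :=
  WithLp.toLp 2 (fun i => 2 * L * (z i : ℝ))

@[simp] lemma lvec_apply (n : ℕ) (L : ℝ) (z : Fin n → ℤ) (i : Fin n) :
    lvec n L z i = 2 * L * (z i : ℝ) := rfl

/-- The periodic extension of a finite set. -/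
def perSet {n : ℕ} (L : ℝ) (F : Finset (E n)) : Set (E n) :=
  {w | ∃ x ∈ F, ∃ z : Fin n → ℤ, w = x + lvec n L z}

lemma exists_bound_finset {n : ℕ} (F : Finset (E n)) : ∃ a : ℝ, 0 ≤ a ∧ ∀ x ∈ F, ∀ i, |x i| ≤ a := by
  refine ⟨∑ x ∈ F, ‖x‖, Finset.sum_nonneg fun x _ => norm_nonneg x, fun x hx i => ?_⟩
  refine (abs_coord_le_norm x i).trans ?_
  exact Finset.single_le_sum (f := fun x : E n => ‖x‖) (fun y _ => norm_nonneg y) hx

/-- The finite set that contains the part of the periodic set in the cube. -/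
noncomputable def perFin {n : ℕ} (L : ℝ) (F : Finset (E n)) (m : ℕ) : Finset (E n) := by
  classical
  exact (F ×ˢ (Fintype.piFinset fun _ : Fin n => Finset.Icc (-(m : ℤ)) m)).image
    (fun q => q.1 + lvec n L q.2)

lemma perFin_card_le {n : ℕ} (L : ℝ) (F : Finset (E n)) (m : ℕ) :
    (perFin L F m).card ≤ F.card * (2 * m + 1) ^ n := by
  classical
  unfold perFin
  refine Finset.card_image_le.trans ?_
  rw [Finset.card_product, Fintype.card_piFinset]
  simp only [Int.card_Icc, Finset.prod_const, Finset.card_univ, Fintype.card_fin]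
  apply le_of_eq
  congr 2
  omega

lemma perSet_subset {n : ℕ} {L : ℝ} (hL : 0 < L) (F : Finset (E n)) {a : ℝ}
    (ha : ∀ x ∈ F, ∀ i, |x i| ≤ a) (R : ℝ) :
    perSet L F ∩ cube n R ⊆ (perFin L F ⌊(R + a) / (2 * L)⌋₊ : Set (E n)) := by
  classical
  rintro w ⟨⟨x, hx, z, rfl⟩, hw⟩
  unfold perFin
  rw [Finset.mem_coe, Finset.mem_image]
  refine ⟨(x, z), ?_, rfl⟩
  rw [Finset.mem_product]
  refine ⟨hx, ?_⟩
  rw [Fintype.mem_piFinset]
  intro i
  have h1 := hw i
  have h2 : |2 * L * (z i : ℝ)| ≤ R + a := by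
    have h3 : 2 * L * (z i : ℝ) = (x + lvec n L z) i - x i := by simp
    rw [h3]
    calc |(x + lvec n L z) i - x i| ≤ |(x + lvec n L z) i| + |x i| := abs_sub _ _
      _ ≤ R + a := add_le_add h1 (ha x hx i)
  rw [abs_mul, abs_of_pos (by linarith : 0 < 2 * L)] at h2
  have h4 : |(z i : ℝ)| ≤ (R + a) / (2 * L) := by
    rw [le_div_iff₀ (by linarith)]; linarith
  have h5 : ((|z i|).toNat : ℝ) ≤ (R + a) / (2 * L) := by
    have : (((|z i|).toNat : ℤ) : ℝ) = |(z i : ℝ)| := by
      rw [Int.toNat_of_nonneg (abs_nonneg _)]; simp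
    have h6 : ((|z i|).toNat : ℝ) = |(z i : ℝ)| := by exact_mod_cast this
    rw [h6]; exact h4
  have h7 : (|z i|).toNat ≤ ⌊(R + a) / (2 * L)⌋₊ := Nat.le_floor h5
  rw [Finset.mem_Icc]
  have h8 : |z i| ≤ (⌊(R + a) / (2 * L)⌋₊ : ℤ) := by
    have := Int.toNat_of_nonneg (abs_nonneg (z i))
    omega
  exact abs_le.mp h8

lemma perSet_locFin {n : ℕ} {L : ℝ} (hL : 0 < L) (F : Finset (E n)) : LocFin (perSet L F) := by
  intro S hS
  obtain ⟨a, ha0, ha⟩ := exists_bound_finset F
  obtain ⟨C, hC⟩ := isBounded_iff_forall_norm_le.mp hS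
  refine ((perFin L F ⌊(|C| + a) / (2 * L)⌋₊).finite_toSet).subset ?_
  refine subset_trans ?_ (perSet_subset hL F ha |C|)
  rintro w ⟨hw, hwS⟩
  exact ⟨hw, fun i => (abs_coord_le_norm w i).trans ((hC w hwS).trans (le_abs_self C))⟩

lemma perSet_upperDensity {n : ℕ} {L : ℝ} (hL : 0 < L) (F : Finset (E n)) :
    upperDensity (perSet L F) ≤ (F.card : ℝ≥0∞) / ENNReal.ofReal ((2 * L) ^ n) := by
  obtain ⟨a, ha0, ha⟩ := exists_bound_finset F
  unfold upperDensity
  have hev : ∀ᶠ R : ℝ in atTop, ((perSet L F ∩ cube n R).encard : ℝ≥0∞)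
      / ENNReal.ofReal ((2 * R) ^ n) ≤
      ENNReal.ofReal (F.card * (((R + a) / L + 1) / (2 * R)) ^ n) := by
    filter_upwards [eventually_gt_atTop 0] with R hR
    have hpos : (0 : ℝ) < (2 * R) ^ n := by positivity
    have h1 : ((perSet L F ∩ cube n R).encard : ℝ≥0∞) ≤
        ENNReal.ofReal (F.card * ((R + a) / L + 1) ^ n) := by
      have h2 : (perSet L F ∩ cube n R).encard ≤
          ((F.card * (2 * ⌊(R + a) / (2 * L)⌋₊ + 1) ^ n : ℕ) : ℕ∞) := by
        refine (encard_le_encard (perSet_subset hL F ha R)).trans ?_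
        rw [encard_coe_eq_coe_finsetCard]
        exact_mod_cast perFin_card_le L F _
      have h3 : ((perSet L F ∩ cube n R).encard : ℝ≥0∞) ≤
          ((F.card * (2 * ⌊(R + a) / (2 * L)⌋₊ + 1) ^ n : ℕ) : ℝ≥0∞) := by
        have := ENat.toENNReal_mono h2
        simpa using this
      refine h3.trans ?_
      rw [← ENNReal.ofReal_natCast]
      apply ENNReal.ofReal_le_ofReal
      push_cast
      have h4 : (⌊(R + a) / (2 * L)⌋₊ : ℝ) ≤ (R + a) / (2 * L) := Nat.floor_le (by positivity)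
      have h5 : 2 * ((R + a) / (2 * L)) = (R + a) / L := by field_simp
      have h6 : 2 * (⌊(R + a) / (2 * L)⌋₊ : ℝ) + 1 ≤ (R + a) / L + 1 := by linarith
      gcongr
    have hne0 : ENNReal.ofReal ((2 * R) ^ n) ≠ 0 := by
      rw [Ne, ENNReal.ofReal_eq_zero, not_le]; exact hpos
    rw [ENNReal.div_le_iff hne0 ENNReal.ofReal_ne_top]
    refine h1.trans ?_
    rw [← ENNReal.ofReal_mul (by positivity)]
    apply ENNReal.ofReal_le_ofReal
    rw [div_pow, mul_assoc, div_mul_cancel₀ _ hpos.ne']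
  refine (limsup_le_limsup hev).trans ?_
  have hlim : Tendsto (fun R : ℝ => ENNReal.ofReal (F.card * (((R + a) / L + 1) / (2 * R)) ^ n))
      atTop (nhds (ENNReal.ofReal (F.card * (1 / (2 * L)) ^ n))) := by
    apply ENNReal.tendsto_ofReal
    apply Tendsto.const_mul
    apply Tendsto.pow
    have h1 : Tendsto (fun R : ℝ => 1 / (2 * L) + ((a / L + 1) / 2) * R⁻¹) atTop
        (nhds (1 / (2 * L) + ((a / L + 1) / 2) * 0)) :=
      tendsto_const_nhds.add (tendsto_const_nhds.mul tendsto_inv_atTop_zero)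
    rw [mul_zero, add_zero] at h1
    refine h1.congr' ?_
    filter_upwards [eventually_gt_atTop 0] with R hR
    field_simp
    ring
  rw [hlim.limsup_eq]
  have hpos : (0 : ℝ) < (2 * L) ^ n := by positivity
  rw [div_pow, one_pow, mul_one_div, ENNReal.ofReal_div_of_pos hpos, ENNReal.ofReal_natCast]

/-- A finite covering of the cube `Q_L` by translates of `K` bounds the covering density. -/
theorem thetaT_le_of_cover_cube {n : ℕ} (K : Set (E n)) {L : ℝ} (hL : 0 < L) (F : Finset (E n))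
    (hF : ∀ w ∈ cube n L, ∃ x ∈ F, w - x ∈ K) :
    thetaT K ≤ volume K * ((F.card : ℝ≥0∞) / ENNReal.ofReal ((2 * L) ^ n)) := by
  unfold thetaT
  refine (iInf_le _ (perSet L F)).trans ?_
  refine (iInf_le _ (perSet_locFin hL F)).trans ?_
  refine (iInf_le _ ?_).trans ?_
  · rw [eq_univ_iff_forall]
    intro w
    set z : Fin n → ℤ := fun i => round (w i / (2 * L)) with hz
    have hw : w - lvec n L z ∈ cube n L := by
      intro i
      have h1 : (w - lvec n L z) i = 2 * L * (w i / (2 * L) - (z i : ℝ)) := by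
        simp; field_simp
      rw [h1, abs_mul, abs_of_pos (by linarith : 0 < 2 * L)]
      have h2 := abs_sub_round (w i / (2 * L))
      have h3 : |w i / (2 * L) - (z i : ℝ)| ≤ 1 / 2 := h2
      nlinarith
    obtain ⟨x, hx, hk⟩ := hF _ hw
    rw [Set.mem_add]
    refine ⟨w - lvec n L z - x, hk, x + lvec n L z, ⟨x, hx, z, rfl⟩, ?_⟩
    abel
  · exact mul_le_mul_right (perSet_upperDensity hL F) _

end Vale.Agent.P230
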