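import Mathlib

/-!
# P230, Lemma A: a second-moment estimate for random hitting of groups of caps

A random subset `ω` of a finite set `V` contains each point independently with probability `p`.
There are `k` regions, in each region `T` candidates, each candidate being a family of nonempty
groups.  A candidate is covered (bad) if all its groups are hit by `ω`.  We bound the probability
that no candidate of any region has all its groups hit.
-/

namespace Vale.Agent.P230

open Finset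

/-- weight of `ω` for the product Bernoulli(`p`) measure on subsets of `V`. -/
noncomputable def wt {V : Type*} [Fintype V] (p : ℝ) (ω : Finset V) : ℝ :=
  p ^ ω.card * (1 - p) ^ (Fintype.card V - ω.card)

/-- probability of the event `A` under the product Bernoulli(`p`) measure. -/
noncomputable def Pr {V : Type*} [Fintype V] (p : ℝ) (A : Set (Finset V)) : ℝ :=
  ∑ ω, A.indicator (wt p) ω

/-- expectation of `f` under the product Bernoulli(`p`) measure. -/
noncomputable def Ex {V : Type*} [Fintype V] (p : ℝ) (f : Finset V → ℝ) : ℝ :=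
  ∑ ω, wt p ω * f ω

section
variable {V : Type*} [Fintype V] [DecidableEq V] {p : ℝ}

omit [DecidableEq V] in
lemma Pr_eq_Ex (A : Set (Finset V)) : Pr p A = Ex p (A.indicator 1) := by
  classical
  unfold Pr Ex
  refine sum_congr rfl fun ω _ => ?_
  by_cases h : ω ∈ A <;> simp [h]

omit [DecidableEq V] in
lemma wt_nonneg (hp0 : 0 < p) (hp1 : p < 1) (ω : Finset V) : 0 ≤ wt p ω := by
  unfold wt
  have : 0 ≤ 1 - p := by linarith
  positivity

omit [DecidableEq V] in
lemma Ex_mono (hp0 : 0 < p) (hp1 : p < 1) {f g : Finset V → ℝ} (h : ∀ ω, f ω ≤ g ω) :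
    Ex p f ≤ Ex p g :=
  sum_le_sum fun ω _ => mul_le_mul_of_nonneg_left (h ω) (wt_nonneg hp0 hp1 ω)

omit [DecidableEq V] in
lemma Ex_nonneg (hp0 : 0 < p) (hp1 : p < 1) {f : Finset V → ℝ} (h : ∀ ω, 0 ≤ f ω) :
    0 ≤ Ex p f :=
  sum_nonneg fun ω _ => mul_nonneg (wt_nonneg hp0 hp1 ω) (h ω)

omit [DecidableEq V] in
lemma Ex_sum {ι : Type*} (s : Finset ι) (f : ι → Finset V → ℝ) :
    Ex p (fun ω => ∑ i ∈ s, f i ω) = ∑ i ∈ s, Ex p (f i) := by
  unfold Ex
  simp_rw [mul_sum]
  exact sum_comm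

omit [DecidableEq V] in
lemma Ex_mul_left (c : ℝ) (f : Finset V → ℝ) : Ex p (fun ω => c * f ω) = c * Ex p f := by
  unfold Ex
  rw [mul_sum]
  exact sum_congr rfl fun ω _ => by ring

omit [DecidableEq V] in
lemma Ex_add (f g : Finset V → ℝ) : Ex p (fun ω => f ω + g ω) = Ex p f + Ex p g := by
  unfold Ex
  rw [← sum_add_distrib]
  exact sum_congr rfl fun ω _ => by ring

omit [DecidableEq V] in
lemma Ex_sub (f g : Finset V → ℝ) : Ex p (fun ω => f ω - g ω) = Ex p f - Ex p g := by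
  unfold Ex
  rw [← sum_sub_distrib]
  exact sum_congr rfl fun ω _ => by ring

lemma wt_eq_prod (ω : Finset V) :
    wt p ω = (∏ _v ∈ ω, p) * ∏ _v ∈ univ \ ω, (1 - p) := by
  unfold wt
  rw [prod_const, prod_const, card_sdiff_of_subset (subset_univ _), card_univ]

/-- Exponential moment of the size of the trace on a set. -/
lemma Ex_pow (z : ℝ) (O : Finset V) :
    Ex p (fun ω => z ^ (ω ∩ O).card) = (1 - p + p * z) ^ O.card := by
  classical
  have h := prod_add (fun v : V => if v ∈ O then p * z else p) (fun _ => 1 - p) univ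
  have h1 : ∏ i : V, ((if i ∈ O then p * z else p) + (1 - p)) = (1 - p + p * z) ^ O.card := by
    have : ∀ i : V, ((if i ∈ O then p * z else p) + (1 - p))
        = if i ∈ O then (1 - p + p * z) else 1 := by
      intro i; split_ifs <;> ring
    rw [prod_congr rfl fun i _ => this i, prod_ite_mem, univ_inter, prod_const]
  rw [← h1, h, powerset_univ]
  unfold Ex
  refine sum_congr rfl fun ω _ => ?_
  have h2 : ∏ v ∈ ω, (if v ∈ O then p * z else p) = (∏ _v ∈ ω, p) * z ^ (ω ∩ O).card := by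
    have : ∀ v ∈ ω, (if v ∈ O then p * z else p) = p * if v ∈ O then z else 1 := by
      intro v _; split_ifs <;> ring
    rw [prod_congr rfl this, prod_mul_distrib, prod_ite_mem, prod_const z]
  rw [h2, wt_eq_prod]
  ring

lemma Ex_one : Ex p (fun _ : Finset V => (1 : ℝ)) = 1 := by
  have := Ex_pow (V := V) (p := p) 1 ∅
  simpa using this

lemma Ex_const (c : ℝ) : Ex p (fun _ : Finset V => c) = c := by
  have := Ex_mul_left (V := V) (p := p) c (fun _ => 1)
  rw [Ex_one] at this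
  simpa using this

/-- Probability of missing a set. -/
lemma Ex_disjoint (F : Finset V) :
    Ex p (fun ω => if Disjoint ω F then (1 : ℝ) else 0) = (1 - p) ^ F.card := by
  have h := Ex_pow (V := V) (p := p) 0 F
  rw [mul_zero, add_zero] at h
  rw [← h]
  congr 1
  funext ω
  by_cases hd : Disjoint ω F
  · simp [hd, disjoint_iff_inter_eq_empty.mp hd]
  · have : (ω ∩ F).card ≠ 0 := by
      rw [Ne, card_eq_zero]
      exact fun h' => hd (disjoint_iff_inter_eq_empty.mpr h')
    simp [hd, zero_pow this]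

/-- The indicator that `ω` meets `F`. -/
noncomputable def hitv (F ω : Finset V) : ℝ := if Disjoint ω F then 0 else 1

lemma Ex_hit (F : Finset V) : Ex p (hitv F) = 1 - (1 - p) ^ F.card := by
  have h := Ex_disjoint (V := V) (p := p) F
  have h2 : hitv F = fun ω => 1 - (if Disjoint ω F then (1 : ℝ) else 0) := by
    funext ω; unfold hitv; split_ifs <;> norm_num
  rw [h2, Ex_sub, h, Ex_one]

/-- Resampling: exchange the parts outside `A` of two independent copies. -/
lemma wt_swap (A ω ω' : Finset V) :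
    wt p ((ω ∩ A) ∪ (ω' \ A)) * wt p ((ω' ∩ A) ∪ (ω \ A)) = wt p ω * wt p ω' := by
  have hcard : ∀ a b : Finset V, ((a ∩ A) ∪ (b \ A)).card = (a ∩ A).card + (b \ A).card := by
    intro a b
    apply card_union_of_disjoint
    exact disjoint_of_subset_left inter_subset_right disjoint_sdiff
  have h1 : ω.card = (ω ∩ A).card + (ω \ A).card := by
    rw [card_inter_add_card_sdiff]
  have h2 : ω'.card = (ω' ∩ A).card + (ω' \ A).card := by
    rw [card_inter_add_card_sdiff]
  have l1 := card_le_univ ((ω ∩ A) ∪ (ω' \ A))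
  have l2 := card_le_univ ((ω' ∩ A) ∪ (ω \ A))
  have l3 := card_le_univ ω
  have l4 := card_le_univ ω'
  unfold wt
  rw [mul_mul_mul_comm, ← pow_add, ← pow_add, mul_mul_mul_comm, ← pow_add, ← pow_add]
  rw [hcard] at l1 l2 ⊢
  rw [hcard]
  congr 2 <;> omega

omit [Fintype V] in
lemma swap_swap (A ω ω' : Finset V) :
    ((((ω ∩ A) ∪ (ω' \ A)) ∩ A) ∪ (((ω' ∩ A) ∪ (ω \ A)) \ A)) = ω := by
  ext v
  simp only [mem_union, mem_inter, mem_sdiff]
  tauto

/-- Two independent copies: exchanging the parts outside `A` preserves expectations. -/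
lemma Ex_swap (A : Finset V) (F : Finset V → Finset V → ℝ) :
    Ex p (fun ω => Ex p (fun ω' => F ω ω'))
      = Ex p (fun ω => Ex p (fun ω' => F ((ω ∩ A) ∪ (ω' \ A)) ((ω' ∩ A) ∪ (ω \ A)))) := by
  unfold Ex
  simp_rw [mul_sum]
  rw [← sum_product', ← sum_product']
  refine sum_bij' (fun q _ => ((q.1 ∩ A) ∪ (q.2 \ A), (q.2 ∩ A) ∪ (q.1 \ A)))
    (fun q _ => ((q.1 ∩ A) ∪ (q.2 \ A), (q.2 ∩ A) ∪ (q.1 \ A))) ?_ ?_ ?_ ?_ ?_
  · intro q _; simp
  · intro q _; simp
  · intro q _
    ext1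
    · exact swap_swap A q.1 q.2
    · exact swap_swap A q.2 q.1
  · intro q _
    ext1
    · exact swap_swap A q.1 q.2
    · exact swap_swap A q.2 q.1
  · intro q _
    simp only
    rw [swap_swap A q.1 q.2, swap_swap A q.2 q.1, ← mul_assoc, ← mul_assoc, wt_swap]

/-- Independence. -/
lemma Ex_mul_of_dep (A : Finset V) {f g : Finset V → ℝ} (hf : ∀ ω, f (ω ∩ A) = f ω)
    (hg : ∀ ω, g (ω \ A) = g ω) :
    Ex p (fun ω => f ω * g ω) = Ex p f * Ex p g := by
  have h1 : Ex p f * Ex p g = Ex p (fun ω => Ex p (fun ω' => f ω * g ω')) := by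
    unfold Ex
    rw [sum_mul_sum]
    simp_rw [mul_sum]
    refine sum_congr rfl fun ω _ => sum_congr rfl fun ω' _ => by ring
  rw [h1, Ex_swap A]
  have h2 : ∀ ω ω' : Finset V, f ((ω ∩ A) ∪ (ω' \ A)) * g ((ω' ∩ A) ∪ (ω \ A)) = f ω * g ω := by
    intro ω ω'
    rw [← hf ((ω ∩ A) ∪ (ω' \ A)), ← hg ((ω' ∩ A) ∪ (ω \ A))]
    have e1 : ((ω ∩ A) ∪ (ω' \ A)) ∩ A = ω ∩ A := by
      ext v; simp only [mem_union, mem_inter, mem_sdiff]; tauto
    have e2 : ((ω' ∩ A) ∪ (ω \ A)) \ A = ω \ A := by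
      ext v; simp only [mem_union, mem_inter, mem_sdiff]; tauto
    rw [e1, e2, hf, hg]
  simp_rw [h2]
  congr 1
  funext ω
  rw [Ex_const]

/-- Resampling outside `A`. -/
lemma Ex_resample (A : Finset V) (f : Finset V → ℝ) :
    Ex p f = Ex p (fun ω => Ex p (fun ω' => f ((ω ∩ A) ∪ (ω' \ A)))) := by
  have h := Ex_swap (p := p) A (fun ω _ => f ω)
  rw [← h]
  congr 1
  funext ω
  rw [Ex_const]

/-- Harris inequality for the product Bernoulli measure. -/
lemma Ex_harris (hp0 : 0 < p) (hp1 : p < 1) {f g : Finset V → ℝ} (hf₀ : 0 ≤ f) (hg₀ : 0 ≤ g)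
    (hf : Monotone f) (hg : Monotone g) :
    Ex p f * Ex p g ≤ Ex p (fun ω => f ω * g ω) := by
  have h := fkg (α := Finset V) (μ := wt p) (f := f) (g := g)
    (fun ω => wt_nonneg hp0 hp1 ω) hf₀ hg₀ hf hg ?_
  · have h1 : ∑ ω : Finset V, wt p ω = 1 := by
      have := Ex_one (V := V) (p := p)
      simpa [Ex] using this
    rw [h1, one_mul] at h
    exact h
  · intro a b
    have := wt_swap (p := p) (V := V) a b b
    apply le_of_eq
    have l1 := card_inter_add_card_union a b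
    have m1 := card_le_univ (a ∩ b)
    have m2 := card_le_univ (a ∪ b)
    have m3 := card_le_univ a
    have m4 := card_le_univ b
    unfold wt
    rw [mul_mul_mul_comm, ← pow_add, ← pow_add, mul_mul_mul_comm, ← pow_add, ← pow_add]
    simp only [inf_eq_inter, sup_eq_union]
    congr 2 <;> omega

omit [Fintype V] in
lemma hitv_nonneg (F ω : Finset V) : 0 ≤ hitv F ω := by
  unfold hitv; split_ifs <;> norm_num

omit [Fintype V] in
lemma hitv_le_one (F ω : Finset V) : hitv F ω ≤ 1 := by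
  unfold hitv; split_ifs <;> norm_num

omit [Fintype V] in
lemma hitv_mono (F : Finset V) : Monotone (hitv F) := by
  intro ω ω' h
  unfold hitv
  by_cases h1 : Disjoint ω' F
  · have : Disjoint ω F := disjoint_of_subset_left h h1
    simp [h1, this]
  · rw [if_neg h1]; split_ifs <;> norm_num

variable {ι : Type*} [DecidableEq ι]

/-- The indicator that `ω` meets every group. -/
noncomputable def cov (G : Finset ι) (F : ι → Finset V) (ω : Finset V) : ℝ :=
  ∏ g ∈ G, hitv (F g) ω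

omit [Fintype V] [DecidableEq ι] in
lemma cov_nonneg (G : Finset ι) (F : ι → Finset V) (ω : Finset V) : 0 ≤ cov G F ω :=
  prod_nonneg fun g _ => hitv_nonneg (F g) ω

omit [Fintype V] [DecidableEq ι] in
lemma cov_mono (G : Finset ι) (F : ι → Finset V) : Monotone (cov G F) := fun _ _ h =>
  prod_le_prod (fun g _ => hitv_nonneg (F g) _) fun g _ => hitv_mono (F g) h

omit [Fintype V] [DecidableEq ι] in
lemma cov_eq (G : Finset ι) (F : ι → Finset V) (ω : Finset V) [Decidable (∀ g ∈ G, ¬ Disjoint ω (F g))] :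
    cov G F ω = if ∀ g ∈ G, ¬ Disjoint ω (F g) then 1 else 0 := by
  unfold cov
  split_ifs with h
  · exact prod_eq_one fun g hg => by unfold hitv; rw [if_neg (h g hg)]
  · push Not at h
    obtain ⟨g, hg, hd⟩ := h
    exact prod_eq_zero hg (by unfold hitv; rw [if_pos hd])

/-- Harris for many groups. -/
lemma prod_le_Ex_cov (hp0 : 0 < p) (hp1 : p < 1) (G : Finset ι) (F : ι → Finset V) :
    ∏ g ∈ G, (1 - (1 - p) ^ (F g).card) ≤ Ex p (cov G F) := by
  induction G using Finset.induction_on with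
  | empty =>
    have : cov (∅ : Finset ι) F = fun _ => 1 := by funext ω; simp [cov]
    rw [this, Ex_one]; simp
  | insert g G hg ih =>
    rw [prod_insert hg, ← Ex_hit (p := p) (F g)]
    have hcov : cov (insert g G) F = fun ω => hitv (F g) ω * cov G F ω := by
      funext ω; unfold cov; rw [prod_insert hg]
    rw [hcov]
    refine le_trans (mul_le_mul_of_nonneg_left ih ?_) (Ex_harris hp0 hp1
      (fun ω => hitv_nonneg (F g) ω) (fun ω => cov_nonneg G F ω) (hitv_mono (F g)) (cov_mono G F))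
    exact Ex_nonneg hp0 hp1 fun ω => hitv_nonneg (F g) ω

omit [Fintype V] [DecidableEq V] in
lemma q_pos (hp0 : 0 < p) (hp1 : p < 1) {F : Finset V} (hF : F.Nonempty) :
    0 < 1 - (1 - p) ^ F.card := by
  have := pow_lt_one₀ (by linarith : 0 ≤ 1 - p) (by linarith : 1 - p < 1)
    (Finset.card_ne_zero.mpr hF)
  linarith

omit [Fintype V] [DecidableEq ι] in
lemma prod_hit_le {G : Finset ι} {F : ι → Finset V} {c : ι → ℝ} (hc : ∀ g ∈ G, 1 ≤ c g) {R : ℝ}
    (hR : ∀ v, ∏ g ∈ G.filter (fun g => v ∈ F g), c g ≤ R) (S : Finset V) :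
    ∏ g ∈ G.filter (fun g => ¬ Disjoint S (F g)), c g ≤ R ^ S.card := by
  have h1 : ∏ v ∈ S, ∏ g ∈ G.filter (fun g => v ∈ F g), c g ≤ R ^ S.card := by
    rw [← prod_const]
    refine prod_le_prod (fun v _ => prod_nonneg fun g hg => ?_) fun v _ => hR v
    exact zero_le_one.trans (hc g (mem_filter.mp hg).1)
  refine le_trans ?_ h1
  have h2 : ∏ v ∈ S, ∏ g ∈ G.filter (fun g => v ∈ F g), c g
      = ∏ g ∈ G, ∏ v ∈ S, (if v ∈ F g then c g else 1) := by
    rw [prod_comm]
    exact prod_congr rfl fun v _ => by rw [prod_filter]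
  rw [h2, prod_filter]
  refine prod_le_prod (fun g hg => ?_) fun g hg => ?_
  · split_ifs
    · norm_num
    · exact zero_le_one.trans (hc g hg)
  · rw [← prod_filter, prod_const]
    split_ifs with hd
    · exact one_le_pow₀ (hc g hg)
    · refine le_self_pow₀ (hc g hg) ?_
      rw [Ne, card_eq_zero]
      intro h0
      apply hd
      rw [Finset.disjoint_left]
      intro v hv hvF
      have : v ∈ S.filter (fun v => v ∈ F g) := mem_filter.mpr ⟨hv, hvF⟩
      rw [h0] at this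
      exact absurd this (notMem_empty v)

/-- The groups not met by `S` are all hit with probability at most `R ^ |S|` times the
probability that all groups are hit. -/
lemma Ex_cov_filter_le (hp0 : 0 < p) (hp1 : p < 1) {G : Finset ι} {F : ι → Finset V}
    (hne : ∀ g ∈ G, (F g).Nonempty) {R : ℝ}
    (hR : ∀ v, ∏ g ∈ G.filter (fun g => v ∈ F g), (1 - (1 - p) ^ (F g).card)⁻¹ ≤ R)
    (S : Finset V) :
    Ex p (cov (G.filter (fun g => Disjoint S (F g))) F) ≤ Ex p (cov G F) * R ^ S.card := by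
  set G1 := G.filter (fun g => Disjoint S (F g))
  set G2 := G.filter (fun g => ¬ Disjoint S (F g))
  have hq : ∀ g ∈ G, 0 < 1 - (1 - p) ^ (F g).card := fun g hg => q_pos hp0 hp1 (hne g hg)
  have hq1 : ∀ g ∈ G, 1 ≤ (1 - (1 - p) ^ (F g).card)⁻¹ := fun g hg => by
    apply (one_le_inv₀ (hq g hg)).mpr
    have : 0 ≤ (1 - p) ^ (F g).card := pow_nonneg (by linarith) _
    linarith
  have hP : 0 < ∏ g ∈ G2, (1 - (1 - p) ^ (F g).card) :=
    prod_pos fun g hg => hq g (mem_filter.mp hg).1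
  have h1 : Ex p (cov G1 F) * ∏ g ∈ G2, (1 - (1 - p) ^ (F g).card) ≤ Ex p (cov G F) := by
    have hcov : cov G F = fun ω => cov G1 F ω * cov G2 F ω := by
      funext ω; unfold cov; exact (prod_filter_mul_prod_filter_not G _ _).symm
    rw [hcov]
    refine le_trans (mul_le_mul_of_nonneg_left (prod_le_Ex_cov hp0 hp1 G2 F) ?_)
      (Ex_harris hp0 hp1 (fun ω => cov_nonneg G1 F ω) (fun ω => cov_nonneg G2 F ω)
        (cov_mono G1 F) (cov_mono G2 F))
    exact Ex_nonneg hp0 hp1 fun ω => cov_nonneg G1 F ω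
  have h2 : (∏ g ∈ G2, (1 - (1 - p) ^ (F g).card))⁻¹ ≤ R ^ S.card := by
    rw [← prod_inv_distrib]
    exact prod_hit_le hq1 hR S
  calc Ex p (cov G1 F) = (Ex p (cov G1 F) * ∏ g ∈ G2, (1 - (1 - p) ^ (F g).card))
        * (∏ g ∈ G2, (1 - (1 - p) ^ (F g).card))⁻¹ := by
        rw [mul_assoc, mul_inv_cancel₀ hP.ne', mul_one]
    _ ≤ Ex p (cov G F) * R ^ S.card :=
        mul_le_mul h1 h2 (inv_nonneg.mpr hP.le) (Ex_nonneg hp0 hp1 fun ω => cov_nonneg G F ω)

omit [Fintype V] [DecidableEq ι] in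
lemma cov_union_le {G : Finset ι} {F : ι → Finset V} (S O ω' : Finset V) :
    cov G F (S ∪ (ω' \ O)) ≤ cov (G.filter (fun g => Disjoint S (F g))) F ω' := by
  classical
  rw [cov_eq, cov_eq]
  split_ifs with h1 h2 h2
  · exact le_rfl
  · exfalso
    apply h2
    intro g hg hd
    obtain ⟨hgG, hgS⟩ := mem_filter.mp hg
    apply h1 g hgG
    rw [disjoint_union_left]
    exact ⟨hgS, disjoint_of_subset_left sdiff_subset hd⟩
  · norm_num
  · exact le_rfl

omit [Fintype V] [DecidableEq ι] in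
lemma cov_congr {G : Finset ι} {F : ι → Finset V} {ω ω' : Finset V}
    (h : ∀ v ∈ G.biUnion F, v ∈ ω ↔ v ∈ ω') : cov G F ω = cov G F ω' := by
  classical
  unfold cov
  refine prod_congr rfl fun g hg => ?_
  unfold hitv
  have : Disjoint ω (F g) ↔ Disjoint ω' (F g) := by
    rw [Finset.disjoint_left, Finset.disjoint_left]
    constructor
    · intro hd v hv hvF
      exact hd ((h v (mem_biUnion.mpr ⟨g, hg, hvF⟩)).mpr hv) hvF
    · intro hd v hv hvF
      exact hd ((h v (mem_biUnion.mpr ⟨g, hg, hvF⟩)).mp hv) hvF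
  by_cases hd : Disjoint ω (F g)
  · rw [if_pos hd, if_pos (this.mp hd)]
  · rw [if_neg hd, if_neg fun h' => hd (this.mpr h')]

/-- The pair bound. -/
lemma Ex_pair_le (hp0 : 0 < p) (hp1 : p < 1) {G G' : Finset ι} {F F' : ι → Finset V}
    (hne : ∀ g ∈ G, (F g).Nonempty) (hne' : ∀ g ∈ G', (F' g).Nonempty) {R : ℝ}
    (hR : ∀ v, ∏ g ∈ G.filter (fun g => v ∈ F g), (1 - (1 - p) ^ (F g).card)⁻¹ ≤ R)
    (hR' : ∀ v, ∏ g ∈ G'.filter (fun g => v ∈ F' g), (1 - (1 - p) ^ (F' g).card)⁻¹ ≤ R)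
    (hO : p * ((G.biUnion F ∩ G'.biUnion F').card : ℝ) * R ^ 2 ≤ Real.log 2) :
    Ex p (fun ω => cov G F ω * cov G' F' ω) ≤ 2 * (Ex p (cov G F) * Ex p (cov G' F')) := by
  set O := G.biUnion F ∩ G'.biUnion F' with hOdef
  set a := Ex p (cov G F) with ha
  set b := Ex p (cov G' F') with hb
  have ha0 : 0 ≤ a := Ex_nonneg hp0 hp1 fun ω => cov_nonneg G F ω
  have hb0 : 0 ≤ b := Ex_nonneg hp0 hp1 fun ω => cov_nonneg G' F' ω
  rw [Ex_resample O]
  have key : ∀ ω : Finset V, Ex p (fun ω' => cov G F ((ω ∩ O) ∪ (ω' \ O)) *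
      cov G' F' ((ω ∩ O) ∪ (ω' \ O))) ≤ (a * b) * (R ^ 2) ^ (ω ∩ O).card := by
    intro ω
    set S := ω ∩ O
    have hind := Ex_mul_of_dep (p := p) (G.biUnion F \ O)
      (f := fun ω' => cov G F (S ∪ (ω' \ O))) (g := fun ω' => cov G' F' (S ∪ (ω' \ O))) ?_ ?_
    · rw [hind]
      have h1 : Ex p (fun ω' => cov G F (S ∪ (ω' \ O))) ≤ a * R ^ S.card :=
        (Ex_mono hp0 hp1 fun ω' => cov_union_le S O ω').trans (Ex_cov_filter_le hp0 hp1 hne hR S)
      have h2 : Ex p (fun ω' => cov G' F' (S ∪ (ω' \ O))) ≤ b * R ^ S.card :=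
        (Ex_mono hp0 hp1 fun ω' => cov_union_le S O ω').trans (Ex_cov_filter_le hp0 hp1 hne' hR' S)
      have h3 : 0 ≤ Ex p (fun ω' => cov G F (S ∪ (ω' \ O))) :=
        Ex_nonneg hp0 hp1 fun ω' => cov_nonneg _ _ _
      have h4 : 0 ≤ Ex p (fun ω' => cov G' F' (S ∪ (ω' \ O))) :=
        Ex_nonneg hp0 hp1 fun ω' => cov_nonneg _ _ _
      calc _ ≤ (a * R ^ S.card) * (b * R ^ S.card) := mul_le_mul h1 h2 h4 (h3.trans h1)
        _ = (a * b) * (R ^ 2) ^ S.card := by rw [← pow_mul, mul_comm 2, pow_mul]; ring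
    · intro ω'
      apply cov_congr
      intro v hv
      simp only [mem_union, mem_sdiff, mem_inter]
      tauto
    · intro ω'
      apply cov_congr
      intro v hv
      simp only [mem_union, mem_sdiff, mem_inter, hOdef]
      tauto
  refine (Ex_mono hp0 hp1 key).trans ?_
  rw [Ex_mul_left, Ex_pow]
  have hfin : (1 - p + p * R ^ 2) ^ O.card ≤ 2 := by
    have h0 : 0 ≤ 1 - p + p * R ^ 2 := by
      have : 0 ≤ p * R ^ 2 := by positivity
      linarith
    have h1 : 1 - p + p * R ^ 2 ≤ Real.exp (p * R ^ 2) := by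
      have := Real.add_one_le_exp (p * R ^ 2)
      linarith
    calc (1 - p + p * R ^ 2) ^ O.card ≤ (Real.exp (p * R ^ 2)) ^ O.card :=
          pow_le_pow_left₀ h0 h1 _
      _ = Real.exp (p * (O.card : ℝ) * R ^ 2) := by
          rw [← Real.exp_nat_mul]; congr 1; ring
      _ ≤ Real.exp (Real.log 2) := Real.exp_le_exp.mpr hO
      _ = 2 := Real.exp_log (by norm_num)
  calc a * b * (1 - p + p * R ^ 2) ^ O.card ≤ a * b * 2 :=
        mul_le_mul_of_nonneg_left hfin (mul_nonneg ha0 hb0)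
    _ = 2 * (a * b) := by ring

/-- Second moment: the probability that none of the `c a` occurs is at most `2/3`. -/
lemma second_moment (hp0 : 0 < p) (hp1 : p < 1) {T : ℕ} (hT : 0 < T)
    (c : Fin T → Finset V → ℝ) (hc : ∀ a ω, c a ω = 0 ∨ c a ω = 1)
    (h1 : ∀ a, 1 / (T : ℝ) ≤ Ex p (c a))
    (h2 : ∀ a b, a ≠ b → Ex p (fun ω => c a ω * c b ω) ≤ 2 * (Ex p (c a) * Ex p (c b))) :
    Ex p (fun ω => ∏ a, (1 - c a ω)) ≤ 2 / 3 := by
  have hc0 : ∀ a ω, 0 ≤ c a ω := fun a ω => by rcases hc a ω with h | h <;> rw [h]; norm_num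
  have hsq : ∀ a ω, c a ω * c a ω = c a ω := fun a ω => by
    rcases hc a ω with h | h <;> rw [h] <;> norm_num
  set μ : ℝ := ∑ a, Ex p (c a) with hμ
  have hT' : (0 : ℝ) < T := by exact_mod_cast hT
  have hμ1 : 1 ≤ μ := by
    calc (1 : ℝ) = ∑ _a : Fin T, 1 / (T : ℝ) := by
          rw [sum_const, card_univ, Fintype.card_fin, nsmul_eq_mul]; field_simp
      _ ≤ μ := sum_le_sum fun a _ => h1 a
  have hpos : ∀ a, 0 ≤ Ex p (c a) := fun a => Ex_nonneg hp0 hp1 (hc0 a)
  -- second moment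
  have hM : Ex p (fun ω => (∑ a, c a ω) ^ 2) ≤ μ + 2 * μ ^ 2 := by
    have e1 : (fun ω => (∑ a, c a ω) ^ 2) = fun ω => ∑ a, ∑ b, c a ω * c b ω := by
      funext ω; rw [sq, sum_mul_sum]
    rw [e1, Ex_sum]
    have e2 : ∀ a, Ex p (fun ω => ∑ b, c a ω * c b ω) = ∑ b, Ex p (fun ω => c a ω * c b ω) :=
      fun a => Ex_sum (p := p) univ (fun b ω => c a ω * c b ω)
    simp_rw [e2]
    have e3 : ∀ a b, Ex p (fun ω => c a ω * c b ω) ≤
        (if a = b then Ex p (c a) else 0) + 2 * (Ex p (c a) * Ex p (c b)) := by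
      intro a b
      by_cases hab : a = b
      · subst hab
        rw [if_pos rfl]
        have : (fun ω => c a ω * c a ω) = c a := by funext ω; exact hsq a ω
        rw [this]
        have := mul_nonneg (hpos a) (hpos a)
        linarith
      · rw [if_neg hab, zero_add]
        exact h2 a b hab
    calc ∑ a, ∑ b, Ex p (fun ω => c a ω * c b ω)
        ≤ ∑ a, ∑ b, ((if a = b then Ex p (c a) else 0) + 2 * (Ex p (c a) * Ex p (c b))) :=
          sum_le_sum fun a _ => sum_le_sum fun b _ => e3 a b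
      _ = μ + 2 * μ ^ 2 := by
          simp_rw [sum_add_distrib]
          congr 1
          · refine sum_congr rfl fun a _ => ?_
            simp
          · simp_rw [← mul_sum]
            rw [hμ, sq, sum_mul_sum]
            simp_rw [mul_sum]
  -- pointwise bound
  set t : ℝ := 1 + 2 * μ with ht
  have ht0 : 0 < t := by linarith
  have hpt : ∀ ω, ∏ a, (1 - c a ω) ≤ 1 - (2 / t) * (∑ a, c a ω) + (1 / t ^ 2) * (∑ a, c a ω) ^ 2 := by
    intro ω
    have hform : 1 - (2 / t) * (∑ a, c a ω) + (1 / t ^ 2) * (∑ a, c a ω) ^ 2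
        = (1 - (∑ a, c a ω) / t) ^ 2 := by field_simp; ring
    rw [hform]
    by_cases h : ∃ a, c a ω = 1
    · obtain ⟨a, ha⟩ := h
      rw [prod_eq_zero (mem_univ a) (by rw [ha]; ring)]
      positivity
    · push Not at h
      have hz : ∀ a, c a ω = 0 := fun a => (hc a ω).resolve_right (h a)
      simp [hz]
  refine (Ex_mono hp0 hp1 hpt).trans ?_
  have e4 : Ex p (fun ω => 1 - (2 / t) * (∑ a, c a ω) + (1 / t ^ 2) * (∑ a, c a ω) ^ 2)
      = 1 - (2 / t) * μ + (1 / t ^ 2) * Ex p (fun ω => (∑ a, c a ω) ^ 2) := by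
    have hs : Ex p (fun ω => ∑ a, c a ω) = μ := Ex_sum (p := p) univ c
    rw [Ex_add, Ex_sub, Ex_one, Ex_mul_left, Ex_mul_left, hs]
  rw [e4]
  have e5 : 1 - (2 / t) * μ + (1 / t ^ 2) * Ex p (fun ω => (∑ a, c a ω) ^ 2)
      ≤ 1 - (2 / t) * μ + (1 / t ^ 2) * (μ + 2 * μ ^ 2) := by
    have : 0 ≤ 1 / t ^ 2 := by positivity
    have := mul_le_mul_of_nonneg_left hM this
    linarith
  refine e5.trans ?_
  have e6 : 1 - (2 / t) * μ + (1 / t ^ 2) * (μ + 2 * μ ^ 2) = 1 - μ / t := by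
    have : μ + 2 * μ ^ 2 = μ * t := by rw [ht]; ring
    rw [this]; field_simp; ring
  rw [e6]
  have e7 : 1 / 3 ≤ μ / t := by
    rw [div_le_div_iff₀ (by norm_num) ht0]; rw [ht]; linarith
  linarith

/-- Independence of finitely many functions with pairwise disjoint supports. -/
lemma Ex_prod_of_dep {κ : Type*} [DecidableEq κ] (s : Finset κ) (U : κ → Finset V)
    (hU : ∀ i j, i ≠ j → Disjoint (U i) (U j)) (f : κ → Finset V → ℝ)
    (hf : ∀ i ω, f i (ω ∩ U i) = f i ω) :
    Ex p (fun ω => ∏ i ∈ s, f i ω) = ∏ i ∈ s, Ex p (f i) := by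
  induction s using Finset.induction_on with
  | empty => simp [Ex_one]
  | insert i s hi ih =>
    simp_rw [prod_insert hi]
    rw [← ih]
    refine Ex_mul_of_dep (p := p) (U i) (hf i) ?_
    intro ω
    refine prod_congr rfl fun j hj => ?_
    have hij : i ≠ j := fun h => hi (h ▸ hj)
    rw [← hf j (ω \ U i), ← hf j ω]
    congr 1
    ext v
    simp only [mem_inter, mem_sdiff]
    constructor
    · rintro ⟨⟨h1, _⟩, h3⟩; exact ⟨h1, h3⟩
    · rintro ⟨h1, h3⟩
      exact ⟨⟨h1, fun h => Finset.disjoint_left.mp (hU i j hij) h h3⟩, h3⟩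

end

theorem prob_main {V : Type*} [Fintype V] [DecidableEq V] (p : ℝ) (hp0 : 0 < p) (hp1 : p < 1)
    {ι : Type*} [DecidableEq ι] (k T : ℕ) (hT : 0 < T)
    (G : Fin k → Fin T → Finset ι) (F : Fin k → Fin T → ι → Finset V)
    (hne : ∀ i a, ∀ g ∈ G i a, (F i a g).Nonempty)
    (hdisj : ∀ i j, i ≠ j → ∀ a b, ∀ g ∈ G i a, ∀ h ∈ G j b, Disjoint (F i a g) (F j b h))
    (hprod : ∀ i a, 1 / (T : ℝ) ≤ ∏ g ∈ G i a, (1 - (1 - p) ^ (F i a g).card))
    (R : ℝ)
    (hR : ∀ i a v, ∏ g ∈ (G i a).filter (fun g => v ∈ F i a g),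
      (1 - (1 - p) ^ (F i a g).card)⁻¹ ≤ R)
    (hO : ∀ i a b, a ≠ b →
      p * (((G i a).biUnion (F i a) ∩ (G i b).biUnion (F i b)).card : ℝ) * R ^ 2 ≤ Real.log 2) :
    Pr p {ω | ∀ i a, ∃ g ∈ G i a, Disjoint ω (F i a g)} ≤ (2 / 3 : ℝ) ^ k := by
  classical
  rw [Pr_eq_Ex]
  -- the event as a product
  have hev : Set.indicator {ω : Finset V | ∀ i a, ∃ g ∈ G i a, Disjoint ω (F i a g)}
      (1 : Finset V → ℝ) = fun ω => ∏ i : Fin k, ∏ a : Fin T, (1 - cov (G i a) (F i a) ω) := by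
    funext ω
    by_cases h : ω ∈ {ω : Finset V | ∀ i a, ∃ g ∈ G i a, Disjoint ω (F i a g)}
    · rw [Set.indicator_of_mem h]
      symm
      refine prod_eq_one fun i _ => prod_eq_one fun a _ => ?_
      obtain ⟨g, hg, hd⟩ := h i a
      rw [cov_eq, if_neg (fun h' => h' g hg hd)]
      norm_num
    · rw [Set.indicator_of_notMem h]
      have h' : ∃ i a, ∀ g ∈ G i a, ¬ Disjoint ω (F i a g) := by
        by_contra hcon
        apply h
        intro i a
        by_contra h3
        apply hcon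
        refine ⟨i, a, fun g hg hd => h3 ⟨g, hg, hd⟩⟩
      obtain ⟨i, a, h4⟩ := h'
      symm
      refine prod_eq_zero (mem_univ i) (prod_eq_zero (mem_univ a) ?_)
      rw [cov_eq, if_pos h4]
      norm_num
  rw [hev]
  set U : Fin k → Finset V := fun i => univ.biUnion fun a => (G i a).biUnion (F i a) with hU
  rw [Ex_prod_of_dep univ U ?_ (fun i ω => ∏ a : Fin T, (1 - cov (G i a) (F i a) ω)) ?_]
  · have hbd : ∀ i ∈ (univ : Finset (Fin k)),
        Ex p (fun ω => ∏ a : Fin T, (1 - cov (G i a) (F i a) ω)) ≤ 2 / 3 := by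
      intro i _
      refine second_moment hp0 hp1 hT (fun a => cov (G i a) (F i a)) ?_ ?_ ?_
      · intro a ω
        rw [cov_eq]
        split_ifs
        · right; rfl
        · left; rfl
      · intro a
        exact (hprod i a).trans (prod_le_Ex_cov hp0 hp1 _ _)
      · intro a b hab
        exact Ex_pair_le hp0 hp1 (hne i a) (hne i b) (hR i a) (hR i b) (hO i a b hab)
    calc ∏ i : Fin k, Ex p (fun ω => ∏ a : Fin T, (1 - cov (G i a) (F i a) ω))
        ≤ ∏ _i : Fin k, (2 / 3 : ℝ) := by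
          refine prod_le_prod (fun i _ => ?_) hbd
          refine Ex_nonneg hp0 hp1 fun ω => prod_nonneg fun a _ => ?_
          rw [cov_eq]
          split_ifs <;> norm_num
      _ = (2 / 3 : ℝ) ^ k := by rw [prod_const, card_univ, Fintype.card_fin]
  · intro i j hij
    rw [Finset.disjoint_left]
    intro v hv hv'
    simp only [hU, mem_biUnion, mem_univ, true_and] at hv hv'
    obtain ⟨a, g, hg, hvg⟩ := hv
    obtain ⟨b, h, hh, hvh⟩ := hv'
    exact Finset.disjoint_left.mp (hdisj i j hij a b g hg h hh) hvg hvh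
  · intro i ω
    refine prod_congr rfl fun a _ => ?_
    congr 1
    apply cov_congr
    intro v hv
    have hvU : v ∈ U i := by
      simp only [hU, mem_biUnion, mem_univ, true_and]
      simp only [mem_biUnion] at hv
      exact ⟨a, hv⟩
    simp only [mem_inter, hvU, and_true]

end Vale.Agent.P230
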