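import Vale.Agent.Lib.P230.Defs2
import Vale.Agent.Lib.P230.Greedy
import Vale.Agent.Lib.P230.Prob

/-! Application of the abstract probability lemma to the geometric situation. -/

namespace Vale.Agent.P230

open MeasureTheory Set Filter
open scoped ENNReal Pointwise

lemma one_le_wgt {n : ℕ} (z : E n) : 1 ≤ wgt z := le_max_left _ _

open Classical in
/-- number of elements of `V` whose vector satisfies `P`. -/
noncomputable def cnt {n : ℕ} {V : Type*} [Fintype V] (e : V → E n) (P : E n → Prop) : ℝ :=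
  ((Finset.univ.filter (fun v => P (e v))).card : ℝ)

lemma cnt_nonneg {n : ℕ} {V : Type*} [Fintype V] (e : V → E n) (P : E n → Prop) :
    0 ≤ cnt e P := by unfold cnt; positivity

lemma cnt_mono {n : ℕ} {V : Type*} [Fintype V] (e : V → E n) {P Q : E n → Prop}
    (h : ∀ v, P (e v) → Q (e v)) : cnt e P ≤ cnt e Q := by
  classical
  unfold cnt
  exact_mod_cast Finset.card_le_card (by
    intro v hv
    simp only [Finset.mem_filter, Finset.mem_univ, true_and] at hv ⊢
    exact h v hv)

lemma q_lower {p y : ℝ} (hp0 : 0 < p) (hp1 : p < 1) (m : ℕ) (hy0 : 0 < y) (hy1 : y ≤ 1)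
    (h : y / 2 ≤ p * m) : y / 4 ≤ 1 - (1 - p) ^ m := by
  have h1 : (1 - p) ^ m ≤ Real.exp (-(p * m)) := by
    have : 1 - p ≤ Real.exp (-p) := by
      have := Real.add_one_le_exp (-p); linarith
    calc (1 - p) ^ m ≤ (Real.exp (-p)) ^ m := pow_le_pow_left₀ (by linarith) this m
      _ = Real.exp (-(p * m)) := by
        rw [← Real.exp_nat_mul]; ring_nf
  have h2 : Real.exp (-(p * m)) ≤ Real.exp (-(y / 2)) := Real.exp_le_exp.mpr (by linarith)
  have h3 : Real.exp (-(y / 2)) ≤ 1 - y / 4 := by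
    have h4 : Real.exp (-(y/2)) ≤ 1 / (1 + y / 2) := by
      rw [Real.exp_neg, ← one_div]
      apply one_div_le_one_div_of_le (by linarith)
      have := Real.add_one_le_exp (y / 2); linarith
    refine h4.trans ?_
    rw [div_le_iff₀ (by linarith)]
    nlinarith
  linarith

lemma exp_neg_two_le : Real.exp (-2) ≤ 1 / 4 := by
  have h := Real.add_one_le_exp (1 : ℝ)
  have h2 : Real.exp 2 = Real.exp 1 * Real.exp 1 := by rw [← Real.exp_add]; norm_num
  rw [Real.exp_neg, ← one_div]
  apply one_div_le_one_div_of_le (by norm_num)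
  rw [h2]; nlinarith

lemma q_lower' {p c : ℝ} (hp0 : 0 < p) (hp1 : p < 1) (m : ℕ) (hc : 0 ≤ c)
    (h : Real.exp (-c) / 2 ≤ p * m) : Real.exp (-(c + 2)) ≤ 1 - (1 - p) ^ m := by
  have := q_lower hp0 hp1 m (Real.exp_pos (-c)) (Real.exp_le_one_iff.mpr (by linarith)) h
  refine le_trans ?_ this
  rw [show -(c + 2) = -c + (-2) by ring, Real.exp_add]
  have := exp_neg_two_le
  nlinarith [Real.exp_pos (-c)]

section

variable {n : ℕ} {V : Type} [Fintype V] [DecidableEq V] (e : V → E n)
  (X : Finset (E n)) {k T : ℕ} (y : Fin k → E n) (x : Fin k → Fin T → E n) (h τ ρ r : ℝ)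

/-- cuts used by other regions. -/
def Cross (i : Fin k) (v : E n) : Prop :=
  ∃ j, j ≠ i ∧ ∃ l' ∈ X, ‖y j - l'‖ ≤ 1 + τ + ρ ∧ h - ρ < inner ℝ v (y j - l')

open Classical in
/-- the cut sets of the groups. -/
noncomputable def Fset (i : Fin k) (a : Fin T) (g : E n × Bool) : Finset V :=
  Finset.univ.filter (fun v => ¬ Cross X y h τ ρ i (e v) ∧
    (if g.2 = true then h + r < inner ℝ (e v) (x i a - g.1)
      else (h < inner ℝ (e v) (x i a - g.1) ∧
        ∀ l'' ∈ near X τ (x i a), r ≤ ‖g.1 - l''‖ → inner ℝ (e v) (x i a - l'') ≤ h)))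

variable {e X y x h τ ρ r}

lemma cross_bound (p : ℝ) (hp : 0 ≤ p) (i : Fin k) (a : Fin T) (l : E n) (M : ℕ)
    (hXM : X.card ≤ M) (e₄ : ℝ) (he₄ : 0 ≤ e₄)
    (v4 : ∀ j, j ≠ i → ∀ l' ∈ X, ‖y j - l'‖ ≤ 1 + τ + ρ →
      p * cnt e (fun v => h < inner ℝ v (x i a - l) ∧ h - ρ < inner ℝ v (y j - l')) ≤ e₄) :
    p * cnt e (fun v => h < inner ℝ v (x i a - l) ∧ Cross X y h τ ρ i v) ≤ k * M * e₄ := by
  classical
  have hsub : (Finset.univ.filter (fun v => h < inner ℝ (e v) (x i a - l) ∧
      Cross X y h τ ρ i (e v))) ⊆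
      ((Finset.univ.filter (fun j : Fin k => j ≠ i)) ×ˢ
        (X)).biUnion (fun q => if ‖y q.1 - q.2‖ ≤ 1 + τ + ρ then
        Finset.univ.filter (fun v => h < inner ℝ (e v) (x i a - l) ∧
          h - ρ < inner ℝ (e v) (y q.1 - q.2)) else ∅) := by
    intro v hv
    simp only [Finset.mem_filter, Finset.mem_univ, true_and] at hv
    obtain ⟨hv1, j, hj, l', hl', hn, hv2⟩ := hv
    simp only [Finset.mem_biUnion, Finset.mem_product, Finset.mem_filter, Finset.mem_univ,
      true_and]
    refine ⟨(j, l'), ⟨hj, hl'⟩, ?_⟩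
    simp only [hn, if_true, Finset.mem_filter, Finset.mem_univ, true_and]
    exact ⟨hv1, hv2⟩
  have h1 := Finset.card_le_card hsub
  have h2 := h1.trans Finset.card_biUnion_le
  have h3 : p * cnt e (fun v => h < inner ℝ v (x i a - l) ∧ Cross X y h τ ρ i v) ≤
      ∑ q ∈ (Finset.univ.filter (fun j : Fin k => j ≠ i)) ×ˢ X, e₄ := by
    calc p * cnt e (fun v => h < inner ℝ v (x i a - l) ∧ Cross X y h τ ρ i v)
        ≤ p * (∑ q ∈ (Finset.univ.filter (fun j : Fin k => j ≠ i)) ×ˢ X,
          ((if ‖y q.1 - q.2‖ ≤ 1 + τ + ρ then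
        Finset.univ.filter (fun v => h < inner ℝ (e v) (x i a - l) ∧
          h - ρ < inner ℝ (e v) (y q.1 - q.2)) else ∅ : Finset V).card : ℝ)) := by
          refine mul_le_mul_of_nonneg_left ?_ hp
          simp only [cnt]
          exact_mod_cast h2
      _ = ∑ q ∈ (Finset.univ.filter (fun j : Fin k => j ≠ i)) ×ˢ X,
          p * ((if ‖y q.1 - q.2‖ ≤ 1 + τ + ρ then
        Finset.univ.filter (fun v => h < inner ℝ (e v) (x i a - l) ∧
          h - ρ < inner ℝ (e v) (y q.1 - q.2)) else ∅ : Finset V).card : ℝ) := Finset.mul_sum _ _ _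
      _ ≤ _ := by
          refine Finset.sum_le_sum fun q hq => ?_
          simp only [Finset.mem_product, Finset.mem_filter, Finset.mem_univ, true_and] at hq
          split_ifs with hn
          · have := v4 q.1 hq.1 q.2 hq.2 hn
            simpa only [cnt] using this
          · simpa using he₄
  refine h3.trans ?_
  rw [Finset.sum_const, nsmul_eq_mul, Finset.card_product]
  have h4 : ((Finset.univ.filter (fun j : Fin k => j ≠ i)).card : ℝ) ≤ k := by
    have : (Finset.univ.filter (fun j : Fin k => j ≠ i)).card ≤ k := by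
      simpa using Finset.card_le_univ (Finset.univ.filter (fun j : Fin k => j ≠ i))
    exact_mod_cast this
  have h5 : (X.card : ℝ) ≤ M := by exact_mod_cast hXM
  push_cast
  gcongr

lemma single_lower (p : ℝ) (hp : 0 ≤ p) (i : Fin k) (a : Fin T) (l : E n) (M : ℕ)
    (hXM : X.card ≤ M) (e₃ e₄ : ℝ) (he₄ : 0 ≤ e₄)
    (v3 : ∀ l'' ∈ near X τ (x i a), r ≤ ‖l - l''‖ →
      p * cnt e (fun v => h < inner ℝ v (x i a - l) ∧ h < inner ℝ v (x i a - l'')) ≤ e₃)
    (he₃ : 0 ≤ e₃)
    (v4 : ∀ j, j ≠ i → ∀ l' ∈ X, ‖y j - l'‖ ≤ 1 + τ + ρ →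
      p * cnt e (fun v => h < inner ℝ v (x i a - l) ∧ h - ρ < inner ℝ v (y j - l')) ≤ e₄) :
    p * cnt e (fun v => h < inner ℝ v (x i a - l)) ≤
      p * (Fset e X y x h τ ρ r i a (l, false)).card +
        (near X τ (x i a)).card * e₃ + k * M * e₄ := by
  classical
  have hsub : (Finset.univ.filter (fun v => h < inner ℝ (e v) (x i a - l))) ⊆
      (Fset e X y x h τ ρ r i a (l, false)) ∪
      ((near X τ (x i a)).biUnion (fun l'' => if r ≤ ‖l - l''‖ then
        Finset.univ.filter (fun v => h < inner ℝ (e v) (x i a - l) ∧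
          h < inner ℝ (e v) (x i a - l'')) else ∅)) ∪
      (Finset.univ.filter (fun v => h < inner ℝ (e v) (x i a - l) ∧
          Cross X y h τ ρ i (e v))) := by
    intro v hv
    simp only [Finset.mem_filter, Finset.mem_univ, true_and] at hv
    by_cases hc : Cross X y h τ ρ i (e v)
    · refine Finset.mem_union_right _ ?_
      simp only [Finset.mem_filter, Finset.mem_univ, true_and]
      exact ⟨hv, hc⟩
    · refine Finset.mem_union_left _ ?_
      by_cases hf : ∀ l'' ∈ near X τ (x i a), r ≤ ‖l - l''‖ →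
          inner ℝ (e v) (x i a - l'') ≤ h
      · refine Finset.mem_union_left _ ?_
        simp only [Fset, Finset.mem_filter, Finset.mem_univ, true_and]
        refine ⟨hc, ?_⟩
        simp only [Bool.false_eq_true, if_false]
        exact ⟨hv, hf⟩
      · refine Finset.mem_union_right _ ?_
        push Not at hf
        obtain ⟨l'', hl'', hr, hlt⟩ := hf
        refine Finset.mem_biUnion.mpr ⟨l'', hl'', ?_⟩
        simp only [hr, if_true, Finset.mem_filter, Finset.mem_univ, true_and]
        exact ⟨hv, hlt⟩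
  have h1 := Finset.card_le_card hsub
  have h2 := h1.trans (Finset.card_union_le _ _)
  have h3 := h2.trans (Nat.add_le_add_right (Finset.card_union_le _ _) _)
  have h4 := h3.trans (Nat.add_le_add_right (Nat.add_le_add_left Finset.card_biUnion_le _) _)
  have h5 : cnt e (fun v => h < inner ℝ v (x i a - l)) ≤
      (Fset e X y x h τ ρ r i a (l, false)).card +
      (∑ l'' ∈ near X τ (x i a), ((if r ≤ ‖l - l''‖ then
        Finset.univ.filter (fun v => h < inner ℝ (e v) (x i a - l) ∧
          h < inner ℝ (e v) (x i a - l'')) else ∅ : Finset V).card : ℝ)) +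
      cnt e (fun v => h < inner ℝ v (x i a - l) ∧ Cross X y h τ ρ i v) := by
    simp only [cnt]
    exact_mod_cast h4
  have h6 := cross_bound (e := e) (X := X) (y := y) (x := x) (h := h) (τ := τ) (ρ := ρ) p hp i a l M
    hXM e₄ he₄ v4
  have h7 : p * (∑ l'' ∈ near X τ (x i a), ((if r ≤ ‖l - l''‖ then
        Finset.univ.filter (fun v => h < inner ℝ (e v) (x i a - l) ∧
          h < inner ℝ (e v) (x i a - l'')) else ∅ : Finset V).card : ℝ)) ≤
      (near X τ (x i a)).card * e₃ := by
    rw [Finset.mul_sum]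
    calc _ ≤ ∑ l'' ∈ near X τ (x i a), e₃ := by
          refine Finset.sum_le_sum fun l'' hl'' => ?_
          split_ifs with hr
          · have := v3 l'' hl'' hr
            simpa only [cnt] using this
          · simpa using he₃
      _ = _ := by rw [Finset.sum_const, nsmul_eq_mul]
  calc p * cnt e (fun v => h < inner ℝ v (x i a - l)) ≤ p * ((Fset e X y x h τ ρ r i a (l, false)).card +
      (∑ l'' ∈ near X τ (x i a), ((if r ≤ ‖l - l''‖ then
        Finset.univ.filter (fun v => h < inner ℝ (e v) (x i a - l) ∧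
          h < inner ℝ (e v) (x i a - l'')) else ∅ : Finset V).card : ℝ)) +
      cnt e (fun v => h < inner ℝ v (x i a - l) ∧ Cross X y h τ ρ i v)) := by gcongr
    _ = p * (Fset e X y x h τ ρ r i a (l, false)).card + p * (∑ l'' ∈ near X τ (x i a),
        ((if r ≤ ‖l - l''‖ then
        Finset.univ.filter (fun v => h < inner ℝ (e v) (x i a - l) ∧
          h < inner ℝ (e v) (x i a - l'')) else ∅ : Finset V).card : ℝ)) +
      p * cnt e (fun v => h < inner ℝ v (x i a - l) ∧ Cross X y h τ ρ i v) := by ring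
    _ ≤ _ := by gcongr

lemma mega_lower (p : ℝ) (hp : 0 ≤ p) (hr : 0 ≤ r) (i : Fin k) (a : Fin T) (l : E n) (M : ℕ)
    (hXM : X.card ≤ M) (e₄ : ℝ) (he₄ : 0 ≤ e₄)
    (v4 : ∀ j, j ≠ i → ∀ l' ∈ X, ‖y j - l'‖ ≤ 1 + τ + ρ →
      p * cnt e (fun v => h < inner ℝ v (x i a - l) ∧ h - ρ < inner ℝ v (y j - l')) ≤ e₄) :
    p * cnt e (fun v => h + r < inner ℝ v (x i a - l)) ≤
      p * (Fset e X y x h τ ρ r i a (l, true)).card + k * M * e₄ := by
  classical
  have hsub : (Finset.univ.filter (fun v => h + r < inner ℝ (e v) (x i a - l))) ⊆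
      (Fset e X y x h τ ρ r i a (l, true)) ∪
      (Finset.univ.filter (fun v => h < inner ℝ (e v) (x i a - l) ∧
          Cross X y h τ ρ i (e v))) := by
    intro v hv
    simp only [Finset.mem_filter, Finset.mem_univ, true_and] at hv
    by_cases hc : Cross X y h τ ρ i (e v)
    · refine Finset.mem_union_right _ ?_
      simp only [Finset.mem_filter, Finset.mem_univ, true_and]
      exact ⟨by linarith, hc⟩
    · refine Finset.mem_union_left _ ?_
      simp only [Fset, Finset.mem_filter, Finset.mem_univ, true_and, if_true]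
      exact ⟨hc, hv⟩
  have h1 := (Finset.card_le_card hsub).trans (Finset.card_union_le _ _)
  have h5 : cnt e (fun v => h + r < inner ℝ v (x i a - l)) ≤
      (Fset e X y x h τ ρ r i a (l, true)).card +
      cnt e (fun v => h < inner ℝ v (x i a - l) ∧ Cross X y h τ ρ i v) := by
    simp only [cnt]
    exact_mod_cast h1
  have h6 := cross_bound (e := e) (X := X) (y := y) (x := x) (h := h) (τ := τ) (ρ := ρ) p hp i a l M
    hXM e₄ he₄ v4
  calc _ ≤ p * ((Fset e X y x h τ ρ r i a (l, true)).card +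
      cnt e (fun v => h < inner ℝ v (x i a - l) ∧ Cross X y h τ ρ i v)) := by gcongr
    _ = p * (Fset e X y x h τ ρ r i a (l, true)).card +
      p * cnt e (fun v => h < inner ℝ v (x i a - l) ∧ Cross X y h τ ρ i v) := by ring
    _ ≤ _ := by gcongr

end

end Vale.Agent.P230
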