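import Vale.Agent.Lib.P230.ProbApp

/-! The probability that a fixed family of test points is covered by a fixed finite set of
centres. -/

namespace Vale.Agent.P230

open MeasureTheory Set Filter
open scoped ENNReal Pointwise

/-- monotonicity of the probability. -/
lemma Pr_mono {V : Type*} [Fintype V] {p : ℝ} (hp0 : 0 < p) (hp1 : p < 1)
    {A A' : Set (Finset V)} (h : A ⊆ A') : Pr p A ≤ Pr p A' := by
  unfold Pr
  refine Finset.sum_le_sum fun ω _ => ?_
  exact Set.indicator_le_indicator_of_subset h (fun ω => wt_nonneg hp0 hp1 ω) ω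

section

variable {n : ℕ} {V : Type} [Fintype V] [DecidableEq V] {e : V → E n}
  {X : Finset (E n)} {k T : ℕ} {y : Fin k → E n} {x : Fin k → Fin T → E n} {h τ ρ r : ℝ}

/-- members of the cut sets cut off the point `x i a - g.1`. -/
lemma Fset_cut (hr : 0 ≤ r) {i : Fin k} {a : Fin T} {g : E n × Bool} {v : V}
    (hv : v ∈ Fset e X y x h τ ρ r i a g) : h < inner ℝ (e v) (x i a - g.1) := by
  simp only [Fset, Finset.mem_filter, Finset.mem_univ, true_and] at hv
  obtain ⟨_, hv⟩ := hv
  split_ifs at hv with hb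
  · linarith
  · exact hv.1

lemma Fset_not_cross {i : Fin k} {a : Fin T} {g : E n × Bool} {v : V}
    (hv : v ∈ Fset e X y x h τ ρ r i a g) : ¬ Cross X y h τ ρ i (e v) := by
  simp only [Fset, Finset.mem_filter, Finset.mem_univ, true_and] at hv
  exact hv.1

lemma Fset_far {i : Fin k} {a : Fin T} {l : E n} {v : V}
    (hv : v ∈ Fset e X y x h τ ρ r i a (l, false)) {l'' : E n} (hl : l'' ∈ near X τ (x i a))
    (hfar : r ≤ ‖l - l''‖) : inner ℝ (e v) (x i a - l'') ≤ h := by
  simp only [Fset, Finset.mem_filter, Finset.mem_univ, true_and, Bool.false_eq_true,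
    if_false] at hv
  exact hv.2.2 l'' hl hfar

lemma Fset_mega (he : ∀ v, ‖e v‖ ≤ 1) {i : Fin k} {a : Fin T} {l l' : E n} {v : V}
    (hv : v ∈ Fset e X y x h τ ρ r i a (l, true)) (hl : ‖l - l'‖ < r) :
    h < inner ℝ (e v) (x i a - l') := by
  simp only [Fset, Finset.mem_filter, Finset.mem_univ, true_and, if_true] at hv
  have h1 : inner ℝ (e v) (x i a - l') = inner ℝ (e v) (x i a - l) + inner ℝ (e v) (l - l') := by
    rw [← inner_add_right]; congr 1; abel
  have h2 : |inner ℝ (e v) (l - l')| ≤ ‖e v‖ * ‖l - l'‖ := abs_real_inner_le_norm _ _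
  have h3 : ‖e v‖ * ‖l - l'‖ ≤ 1 * ‖l - l'‖ := by gcongr; exact he v
  have h4 := neg_le_of_abs_le h2
  linarith [hv.2]

lemma Fset_disj (he : ∀ v, ‖e v‖ ≤ 1) (hr : 0 ≤ r) (hyx : ∀ i a, ‖x i a - y i‖ ≤ ρ)
    {i j : Fin k} (hij : i ≠ j) {a b : Fin T} {g g' : E n × Bool}
    (hg' : g'.1 ∈ near X τ (x j b)) :
    Disjoint (Fset e X y x h τ ρ r i a g) (Fset e X y x h τ ρ r j b g') := by
  rw [Finset.disjoint_left]
  intro v hv hv'
  apply Fset_not_cross hv
  have h1 := Fset_cut hr hv'
  obtain ⟨hX, hn⟩ := mem_near.mp hg'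
  refine ⟨j, hij.symm, g'.1, hX, ?_, ?_⟩
  · calc ‖y j - g'.1‖ = ‖(x j b - g'.1) - (x j b - y j)‖ := by congr 1; abel
      _ ≤ ‖x j b - g'.1‖ + ‖x j b - y j‖ := norm_sub_le _ _
      _ ≤ 1 + τ + ρ := by linarith [hyx j b]
  · have h2 : inner ℝ (e v) (y j - g'.1) =
        inner ℝ (e v) (x j b - g'.1) - inner ℝ (e v) (x j b - y j) := by
      rw [← inner_sub_right]; congr 1; abel
    have h3 : |inner ℝ (e v) (x j b - y j)| ≤ ‖e v‖ * ‖x j b - y j‖ := abs_real_inner_le_norm _ _
    have h4 : ‖e v‖ * ‖x j b - y j‖ ≤ 1 * ρ := by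
      gcongr
      · exact he v
      · exact hyx j b
    have h5 := le_of_abs_le h3
    linarith

/-- The probability that all test points are covered. -/
theorem prob_app (he : ∀ v, ‖e v‖ ≤ 1) (hT : 0 < T) (hr : 0 < r)
    (d B a₁ a₂ ε e₃ e₄ e₅ p : ℝ) (M S : ℕ) (hS : 0 < S) (hd : 0 ≤ d)
    (ha₁ : 0 ≤ a₁) (ha₂ : 0 ≤ a₂) (hB : 0 ≤ B) (he₃ : 0 ≤ e₃) (he₄ : 0 ≤ e₄) (he₅ : 0 ≤ e₅)
    (hp0 : 0 < p) (hp1 : p < 1)
    (hXM : X.card ≤ M) (hyx : ∀ i a, ‖x i a - y i‖ ≤ ρ)
    (hw : ∀ i a, ∑ l ∈ near X τ (x i a), wgt (x i a - l) ≤ B)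
    (hdd : ∀ i a, ∀ l ∈ near X τ (x i a), 1 - d < ‖x i a - l‖)
    (v1 : ∀ i a, ∀ l ∈ near X τ (x i a), Real.exp (-(a₁ * wgt (x i a - l))) - ε ≤
      p * cnt e (fun v => h < inner ℝ v (x i a - l)))
    (v2 : ∀ i a, ∀ l ∈ near X τ (x i a), Real.exp (-(a₂ * (n * r))) - ε ≤
      p * cnt e (fun v => h + r < inner ℝ v (x i a - l)))
    (v3 : ∀ i a, ∀ l ∈ near X τ (x i a), ∀ l'' ∈ near X τ (x i a), r ≤ ‖l - l''‖ →
      p * cnt e (fun v => h < inner ℝ v (x i a - l) ∧ h < inner ℝ v (x i a - l'')) ≤ e₃)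
    (v4 : ∀ i a, ∀ l ∈ near X τ (x i a), ∀ j, j ≠ i → ∀ l' ∈ X, ‖y j - l'‖ ≤ 1 + τ + ρ →
      p * cnt e (fun v => h < inner ℝ v (x i a - l) ∧ h - ρ < inner ℝ v (y j - l')) ≤ e₄)
    (v5 : ∀ i a b, a ≠ b → ∀ l ∈ near X τ (x i a), ∀ l' ∈ near X τ (x i b),
      p * cnt e (fun v => h < inner ℝ v (x i a - l) ∧ h < inner ℝ v (x i b - l')) ≤ e₅)
    (n1 : B * e₃ + k * M * e₄ + ε ≤ Real.exp (-(a₁ * (1 + n * d))) / 2)
    (n2 : k * M * e₄ + ε ≤ Real.exp (-(a₂ * (n * r))) / 2)
    (n3 : 1 / (T : ℝ) ≤ Real.exp (-((a₁ + 2) * B + (a₂ * (n * r) + 2) * (B / S))))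
    (n4 : B ^ 2 * e₅ *
      (Real.exp ((a₁ + 2) * (1 + n * d) * S + (a₂ * (n * r) + 2) * (B / S))) ^ 2
        ≤ Real.log 2) :
    Pr p {ω : Finset V | ∀ i a, ∃ l ∈ X, ‖x i a - l‖ ≤ 1 + τ ∧
      ∀ v ∈ ω, inner ℝ (e v) (x i a - l) ≤ h} ≤ (2 / 3 : ℝ) ^ k := by
  classical
  -- the number of near centres
  have hcard : ∀ i a, ((near X τ (x i a)).card : ℝ) ≤ B := by
    intro i a
    refine le_trans ?_ (hw i a)
    calc ((near X τ (x i a)).card : ℝ) = ∑ l ∈ near X τ (x i a), (1 : ℝ) := by simp
      _ ≤ _ := Finset.sum_le_sum fun l _ => one_le_wgt _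
  -- clustering
  have hcl := fun (i : Fin k) (a : Fin T) =>
    cluster (fun l l' : E n => ‖l - l'‖ < r) (fun l => by simpa using hr) S hS
      (near X τ (x i a))
  choose Y U hYZ hUZ hcov hYcard hUiso using hcl
  -- upper bound for the weights
  have hwgt : ∀ i a, ∀ l ∈ near X τ (x i a), wgt (x i a - l) ≤ 1 + n * d := by
    intro i a l hl
    have h1 := hdd i a l hl
    unfold wgt
    have hn0 : (0 : ℝ) ≤ n := Nat.cast_nonneg n
    have h2 : (n : ℝ) * (1 - ‖x i a - l‖) ≤ n * d := by gcongr; linarith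
    have h3 : 0 ≤ (n : ℝ) * d := by positivity
    exact max_le (by linarith) (by linarith)
  set F : Fin k → Fin T → E n × Bool → Finset V := Fset e X y x h τ ρ r with hF
  -- lower bounds for the hitting probabilities
  have hq1 : ∀ i a, ∀ l ∈ near X τ (x i a),
      Real.exp (-(a₁ * wgt (x i a - l))) / 2 ≤ p * (F i a (l, false)).card := by
    intro i a l hl
    have h1 := single_lower (e := e) (X := X) (y := y) (x := x) (h := h) (τ := τ) (ρ := ρ) (r := r)
      p hp0.le i a l M hXM e₃ e₄ he₄ (fun l'' hl'' hfar => v3 i a l hl l'' hl'' hfar) he₃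
      (fun j hj l' hl' hn' => v4 i a l hl j hj l' hl' hn')
    have h2 := v1 i a l hl
    have h3 : (near X τ (x i a)).card * e₃ ≤ B * e₃ := by gcongr; exact hcard i a
    have h4 : Real.exp (-(a₁ * (1 + n * d))) ≤ Real.exp (-(a₁ * wgt (x i a - l))) := by
      apply Real.exp_le_exp.mpr
      have := mul_le_mul_of_nonneg_left (hwgt i a l hl) ha₁
      linarith
    linarith
  have hq2 : ∀ i a, ∀ l ∈ near X τ (x i a),
      Real.exp (-(a₂ * (n * r))) / 2 ≤ p * (F i a (l, true)).card := by
    intro i a l hl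
    have h1 := mega_lower (e := e) (X := X) (y := y) (x := x) (h := h) (τ := τ) (ρ := ρ) (r := r)
      p hp0.le hr.le i a l M hXM e₄ he₄
      (fun j hj l' hl' hn' => v4 i a l hl j hj l' hl' hn')
    have h2 := v2 i a l hl
    linarith
  have hwpos : ∀ z : E n, 0 ≤ wgt z := fun z => zero_le_one.trans (one_le_wgt z)
  have hQ1 : ∀ i a, ∀ l ∈ near X τ (x i a),
      Real.exp (-(a₁ * wgt (x i a - l) + 2)) ≤ 1 - (1 - p) ^ (F i a (l, false)).card := by
    intro i a l hl
    exact q_lower' hp0 hp1 _ (mul_nonneg ha₁ (hwpos _)) (hq1 i a l hl)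
  have hQ2 : ∀ i a, ∀ l ∈ near X τ (x i a),
      Real.exp (-(a₂ * (n * r) + 2)) ≤ 1 - (1 - p) ^ (F i a (l, true)).card := by
    intro i a l hl
    exact q_lower' hp0 hp1 _ (by positivity) (hq2 i a l hl)
  -- the groups
  set G : Fin k → Fin T → Finset (E n × Bool) := fun i a =>
    (U i a).image (fun l => (l, false)) ∪ (Y i a).image (fun l => (l, true)) with hG
  have hGnear : ∀ i a, ∀ g ∈ G i a, g.1 ∈ near X τ (x i a) := by
    intro i a g hg
    simp only [hG, Finset.mem_union, Finset.mem_image] at hg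
    rcases hg with ⟨l, hl, rfl⟩ | ⟨l, hl, rfl⟩
    · exact hUZ i a hl
    · exact hYZ i a hl
  have hne : ∀ i a, ∀ g ∈ G i a, (F i a g).Nonempty := by
    intro i a g hg
    have hgn := hGnear i a g hg
    obtain ⟨l, b⟩ := g
    rw [← Finset.card_pos]
    by_contra hcon
    have h0 : (F i a (l, b)).card = 0 := by omega
    cases b
    · have := hq1 i a l hgn
      rw [h0] at this
      have hpos := Real.exp_pos (-(a₁ * wgt (x i a - l)))
      simp at this
      linarith
    · have := hq2 i a l hgn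
      rw [h0] at this
      have hpos := Real.exp_pos (-(a₂ * (n * r)))
      simp at this
      linarith
  have hdisj : ∀ i j, i ≠ j → ∀ a b, ∀ g ∈ G i a, ∀ h ∈ G j b, Disjoint (F i a g) (F j b h) := by
    intro i j hij a b g hg g' hg'
    exact Fset_disj he hr.le hyx hij (hGnear j b g' hg')
  have hGdisj : ∀ i a, Disjoint ((U i a).image (fun l => (l, false)))
      ((Y i a).image (fun l => (l, true))) := by
    intro i a
    rw [Finset.disjoint_left]
    intro g hg hg'
    simp only [Finset.mem_image] at hg hg'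
    obtain ⟨l, _, rfl⟩ := hg
    obtain ⟨l', _, h'⟩ := hg'
    simp at h'
  have hinjf : Function.Injective (fun l : E n => (l, false)) := fun a b h => (Prod.mk.inj h).1
  have hinjt : Function.Injective (fun l : E n => (l, true)) := fun a b h => (Prod.mk.inj h).1
  have hYS : ∀ i a, ((Y i a).card : ℝ) ≤ B / S := by
    intro i a
    have hS' : (0 : ℝ) < S := by exact_mod_cast hS
    rw [le_div_iff₀ hS']
    refine le_trans ?_ (hcard i a)
    exact_mod_cast hYcard i a
  -- the product of the hitting probabilities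
  have hprod : ∀ i a, 1 / (T : ℝ) ≤ ∏ g ∈ G i a, (1 - (1 - p) ^ (F i a g).card) := by
    intro i a
    refine n3.trans ?_
    rw [hG]
    simp only
    rw [Finset.prod_union (hGdisj i a), Finset.prod_image (fun a _ b _ h => hinjf h),
      Finset.prod_image (fun a _ b _ h => hinjt h)]
    have h1 : Real.exp (-((a₁ + 2) * B)) ≤
        ∏ l ∈ U i a, (1 - (1 - p) ^ (F i a (l, false)).card) := by
      calc Real.exp (-((a₁ + 2) * B)) ≤ Real.exp (∑ l ∈ U i a, (-(a₁ * wgt (x i a - l) + 2))) := by
            apply Real.exp_le_exp.mpr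
            rw [Finset.sum_neg_distrib]
            apply neg_le_neg
            calc ∑ l ∈ U i a, (a₁ * wgt (x i a - l) + 2)
                ≤ ∑ l ∈ U i a, (a₁ + 2) * wgt (x i a - l) := by
                  refine Finset.sum_le_sum fun l _ => ?_
                  have := one_le_wgt (x i a - l)
                  nlinarith
              _ = (a₁ + 2) * ∑ l ∈ U i a, wgt (x i a - l) := by rw [Finset.mul_sum]
              _ ≤ (a₁ + 2) * B := by
                  have : ∑ l ∈ U i a, wgt (x i a - l) ≤ B := by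
                    refine le_trans ?_ (hw i a)
                    exact Finset.sum_le_sum_of_subset_of_nonneg (hUZ i a) fun l _ _ => hwpos _
                  have h2 : 0 ≤ a₁ + 2 := by linarith
                  gcongr
        _ = ∏ l ∈ U i a, Real.exp (-(a₁ * wgt (x i a - l) + 2)) := Real.exp_sum _ _
        _ ≤ _ := by
            refine Finset.prod_le_prod (fun l _ => (Real.exp_pos _).le) fun l hl => ?_
            exact hQ1 i a l (hUZ i a hl)
    have h2 : Real.exp (-((a₂ * (n * r) + 2) * (B / S))) ≤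
        ∏ l ∈ Y i a, (1 - (1 - p) ^ (F i a (l, true)).card) := by
      calc Real.exp (-((a₂ * (n * r) + 2) * (B / S))) ≤
            Real.exp (∑ l ∈ Y i a, (-(a₂ * (n * r) + 2))) := by
            apply Real.exp_le_exp.mpr
            rw [Finset.sum_neg_distrib, Finset.sum_const, nsmul_eq_mul]
            apply neg_le_neg
            have h3 : 0 ≤ a₂ * (n * r) + 2 := by positivity
            have := mul_le_mul_of_nonneg_right (hYS i a) h3
            linarith
        _ = ∏ l ∈ Y i a, Real.exp (-(a₂ * (n * r) + 2)) := Real.exp_sum _ _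
        _ ≤ _ := by
            refine Finset.prod_le_prod (fun l _ => (Real.exp_pos _).le) fun l hl => ?_
            exact hQ2 i a l (hYZ i a hl)
    calc Real.exp (-((a₁ + 2) * B + (a₂ * (n * r) + 2) * (B / S)))
        = Real.exp (-((a₁ + 2) * B)) * Real.exp (-((a₂ * (n * r) + 2) * (B / S))) := by
          rw [← Real.exp_add]; congr 1; ring
      _ ≤ _ := by
          refine mul_le_mul h1 h2 (Real.exp_pos _).le ?_
          exact (Real.exp_pos _).le.trans h1
  set R := Real.exp ((a₁ + 2) * (1 + n * d) * S + (a₂ * (n * r) + 2) * (B / S)) with hRdef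
  have hR : ∀ i a v, ∏ g ∈ (G i a).filter (fun g => v ∈ F i a g),
      (1 - (1 - p) ^ (F i a g).card)⁻¹ ≤ R := by
    intro i a v
    have hsplit : (G i a).filter (fun g => v ∈ F i a g) =
        ((U i a).filter (fun l => v ∈ F i a (l, false))).image (fun l => (l, false)) ∪
        ((Y i a).filter (fun l => v ∈ F i a (l, true))).image (fun l => (l, true)) := by
      rw [hG]
      ext g
      simp only [Finset.mem_filter, Finset.mem_union, Finset.mem_image]
      constructor
      · rintro ⟨⟨l, hl, rfl⟩ | ⟨l, hl, rfl⟩, hv⟩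
        · exact Or.inl ⟨l, ⟨hl, hv⟩, rfl⟩
        · exact Or.inr ⟨l, ⟨hl, hv⟩, rfl⟩
      · rintro (⟨l, ⟨hl, hv⟩, rfl⟩ | ⟨l, ⟨hl, hv⟩, rfl⟩)
        · exact ⟨Or.inl ⟨l, hl, rfl⟩, hv⟩
        · exact ⟨Or.inr ⟨l, hl, rfl⟩, hv⟩
    have hdj : Disjoint
        (((U i a).filter (fun l => v ∈ F i a (l, false))).image (fun l => (l, false)))
        (((Y i a).filter (fun l => v ∈ F i a (l, true))).image (fun l => (l, true))) := by
      refine Finset.disjoint_of_subset_left ?_ (Finset.disjoint_of_subset_right ?_ (hGdisj i a))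
      · exact Finset.image_subset_image (Finset.filter_subset _ _)
      · exact Finset.image_subset_image (Finset.filter_subset _ _)
    rw [hsplit, Finset.prod_union hdj, Finset.prod_image (fun a _ b _ h => hinjf h),
      Finset.prod_image (fun a _ b _ h => hinjt h)]
    have hinv1 : ∀ l ∈ near X τ (x i a), (1 - (1 - p) ^ (F i a (l, false)).card)⁻¹ ≤
        Real.exp ((a₁ + 2) * (1 + n * d)) := by
      intro l hl
      have h1 := hQ1 i a l hl
      calc (1 - (1 - p) ^ (F i a (l, false)).card)⁻¹ ≤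
          (Real.exp (-(a₁ * wgt (x i a - l) + 2)))⁻¹ := inv_anti₀ (Real.exp_pos _) h1
        _ = Real.exp (a₁ * wgt (x i a - l) + 2) := by rw [Real.exp_neg, inv_inv]
        _ ≤ _ := by
            apply Real.exp_le_exp.mpr
            have h2 := hwgt i a l hl
            have h3 := one_le_wgt (x i a - l)
            nlinarith
    have hinv2 : ∀ l ∈ near X τ (x i a), (1 - (1 - p) ^ (F i a (l, true)).card)⁻¹ ≤
        Real.exp (a₂ * (n * r) + 2) := by
      intro l hl
      have h1 := hQ2 i a l hl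
      calc (1 - (1 - p) ^ (F i a (l, true)).card)⁻¹ ≤
          (Real.exp (-(a₂ * (n * r) + 2)))⁻¹ := inv_anti₀ (Real.exp_pos _) h1
        _ = Real.exp (a₂ * (n * r) + 2) := by rw [Real.exp_neg, inv_inv]
    have hnn1 : ∀ l ∈ near X τ (x i a), 0 ≤ (1 - (1 - p) ^ (F i a (l, false)).card)⁻¹ := by
      intro l hl
      exact inv_nonneg.mpr ((Real.exp_pos _).le.trans (hQ1 i a l hl))
    have hnn2 : ∀ l ∈ near X τ (x i a), 0 ≤ (1 - (1 - p) ^ (F i a (l, true)).card)⁻¹ := by
      intro l hl
      exact inv_nonneg.mpr ((Real.exp_pos _).le.trans (hQ2 i a l hl))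
    -- few singles contain `v`
    have hfew : (((U i a).filter (fun l => v ∈ F i a (l, false))).card : ℝ) ≤ S := by
      rcases Finset.eq_empty_or_nonempty ((U i a).filter (fun l => v ∈ F i a (l, false))) with
        hem | ⟨l₀, hl₀⟩
      · rw [hem]; simp
      · have hl₀' := Finset.mem_filter.mp hl₀
        have hsub : (U i a).filter (fun l => v ∈ F i a (l, false)) ⊆
            (U i a).filter (fun l => ‖l₀ - l‖ < r) := by
          intro l hl
          have hl' := Finset.mem_filter.mp hl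
          refine Finset.mem_filter.mpr ⟨hl'.1, ?_⟩
          by_contra hfar
          push Not at hfar
          have h1 := Fset_far hl₀'.2 (hUZ i a hl'.1) hfar
          have h2 := Fset_cut hr.le hl'.2
          simp only at h2
          linarith
        have h1 := Finset.card_le_card hsub
        have h2 := hUiso i a l₀ hl₀'.1
        exact_mod_cast h1.trans h2.le
    have h1 : ∏ l ∈ (U i a).filter (fun l => v ∈ F i a (l, false)),
        (1 - (1 - p) ^ (F i a (l, false)).card)⁻¹ ≤ Real.exp ((a₁ + 2) * (1 + n * d) * S) := by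
      calc _ ≤ ∏ l ∈ (U i a).filter (fun l => v ∈ F i a (l, false)),
            Real.exp ((a₁ + 2) * (1 + n * d)) := by
            refine Finset.prod_le_prod (fun l hl => hnn1 l (hUZ i a (Finset.mem_filter.mp hl).1))
              fun l hl => hinv1 l (hUZ i a (Finset.mem_filter.mp hl).1)
        _ = Real.exp (((U i a).filter (fun l => v ∈ F i a (l, false))).card *
              ((a₁ + 2) * (1 + n * d))) := by
            rw [Finset.prod_const, Real.exp_nat_mul]
        _ ≤ _ := by
            apply Real.exp_le_exp.mpr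
            have h3 : 0 ≤ (a₁ + 2) * (1 + n * d) := by positivity
            calc _ ≤ (S : ℝ) * ((a₁ + 2) * (1 + n * d)) := by gcongr
              _ = _ := by ring
    have h2 : ∏ l ∈ (Y i a).filter (fun l => v ∈ F i a (l, true)),
        (1 - (1 - p) ^ (F i a (l, true)).card)⁻¹ ≤
        Real.exp ((a₂ * (n * r) + 2) * (B / S)) := by
      calc _ ≤ ∏ l ∈ (Y i a).filter (fun l => v ∈ F i a (l, true)),
            Real.exp (a₂ * (n * r) + 2) := by
            refine Finset.prod_le_prod (fun l hl => hnn2 l (hYZ i a (Finset.mem_filter.mp hl).1))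
              fun l hl => hinv2 l (hYZ i a (Finset.mem_filter.mp hl).1)
        _ = Real.exp (((Y i a).filter (fun l => v ∈ F i a (l, true))).card *
              (a₂ * (n * r) + 2)) := by
            rw [Finset.prod_const, Real.exp_nat_mul]
        _ ≤ _ := by
            apply Real.exp_le_exp.mpr
            have h3 : 0 ≤ a₂ * (n * r) + 2 := by positivity
            have h4 : (((Y i a).filter (fun l => v ∈ F i a (l, true))).card : ℝ) ≤ B / S := by
              refine le_trans ?_ (hYS i a)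
              exact_mod_cast Finset.card_le_card (Finset.filter_subset _ _)
            calc _ ≤ (B / S) * (a₂ * (n * r) + 2) := by gcongr
              _ = _ := by ring
    calc _ ≤ Real.exp ((a₁ + 2) * (1 + n * d) * S) *
        Real.exp ((a₂ * (n * r) + 2) * (B / S)) := by
          refine mul_le_mul h1 h2 ?_ (Real.exp_pos _).le
          exact Finset.prod_nonneg fun l hl => hnn2 l (hYZ i a (Finset.mem_filter.mp hl).1)
      _ = R := by rw [hRdef, ← Real.exp_add]
  have hO : ∀ i a b, a ≠ b →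
      p * (((G i a).biUnion (F i a) ∩ (G i b).biUnion (F i b)).card : ℝ) * R ^ 2 ≤
        Real.log 2 := by
    intro i a b hab
    have hsub : (G i a).biUnion (F i a) ∩ (G i b).biUnion (F i b) ⊆
        ((near X τ (x i a)) ×ˢ (near X τ (x i b))).biUnion (fun q =>
          Finset.univ.filter (fun v => h < inner ℝ (e v) (x i a - q.1) ∧
            h < inner ℝ (e v) (x i b - q.2))) := by
      intro v hv
      rw [Finset.mem_inter, Finset.mem_biUnion, Finset.mem_biUnion] at hv
      obtain ⟨⟨g, hg, hvg⟩, ⟨g', hg', hvg'⟩⟩ := hv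
      rw [Finset.mem_biUnion]
      refine ⟨(g.1, g'.1), Finset.mem_product.mpr ⟨hGnear i a g hg, hGnear i b g' hg'⟩, ?_⟩
      simp only [Finset.mem_filter, Finset.mem_univ, true_and]
      exact ⟨Fset_cut hr.le hvg, Fset_cut hr.le hvg'⟩
    have h1 := (Finset.card_le_card hsub).trans Finset.card_biUnion_le
    have h2 : p * (((G i a).biUnion (F i a) ∩ (G i b).biUnion (F i b)).card : ℝ) ≤
        B ^ 2 * e₅ := by
      calc p * (((G i a).biUnion (F i a) ∩ (G i b).biUnion (F i b)).card : ℝ)
          ≤ p * (∑ q ∈ (near X τ (x i a)) ×ˢ (near X τ (x i b)),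
            ((Finset.univ.filter (fun v => h < inner ℝ (e v) (x i a - q.1) ∧
            h < inner ℝ (e v) (x i b - q.2))).card : ℝ)) := by
            refine mul_le_mul_of_nonneg_left ?_ hp0.le
            exact_mod_cast h1
        _ = ∑ q ∈ (near X τ (x i a)) ×ˢ (near X τ (x i b)),
            p * ((Finset.univ.filter (fun v => h < inner ℝ (e v) (x i a - q.1) ∧
            h < inner ℝ (e v) (x i b - q.2))).card : ℝ) := Finset.mul_sum _ _ _
        _ ≤ ∑ q ∈ (near X τ (x i a)) ×ˢ (near X τ (x i b)), e₅ := by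
            refine Finset.sum_le_sum fun q hq => ?_
            obtain ⟨hq1, hq2⟩ := Finset.mem_product.mp hq
            have := v5 i a b hab q.1 hq1 q.2 hq2
            simpa only [cnt] using this
        _ = ((near X τ (x i a)).card : ℝ) * ((near X τ (x i b)).card : ℝ) * e₅ := by
            rw [Finset.sum_const, nsmul_eq_mul, Finset.card_product]
            push_cast; ring
        _ ≤ B ^ 2 * e₅ := by
            rw [pow_two]
            have := hcard i a
            have := hcard i b
            gcongr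
    calc _ ≤ B ^ 2 * e₅ * R ^ 2 := by gcongr
      _ ≤ _ := n4
  refine le_trans (Pr_mono hp0 hp1 ?_) (prob_main p hp0 hp1 k T hT G F hne hdisj hprod R hR hO)
  intro ω hω i a
  obtain ⟨l, hlX, hln, hlc⟩ := hω i a
  have hl : l ∈ near X τ (x i a) := mem_near.mpr ⟨hlX, hln⟩
  rcases hcov i a l hl with hU | ⟨z, hzY, hzl⟩
  · refine ⟨(l, false), ?_, ?_⟩
    · simp only [hG, Finset.mem_union, Finset.mem_image]
      exact Or.inl ⟨l, hU, rfl⟩
    · rw [Finset.disjoint_right]
      intro v hv hvω
      have h1 := Fset_cut hr.le hv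
      have h2 := hlc v hvω
      simp only at h1
      linarith
  · refine ⟨(z, true), ?_, ?_⟩
    · simp only [hG, Finset.mem_union, Finset.mem_image]
      exact Or.inr ⟨z, hzY, rfl⟩
    · rw [Finset.disjoint_right]
      intro v hv hvω
      have h1 := Fset_mega he hv hzl
      have h2 := hlc v hvω
      linarith

end

end Vale.Agent.P230
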