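import Vale.Agent.Lib.P230.Defs

/-!
# P230: every convex body `K` has a point `g` with `g - K ⊆ n (K - g)`

The point is the centroid of an inscribed simplex of maximal volume.
-/

namespace Vale.Agent.P230

open MeasureTheory Set Filter Matrix
open scoped ENNReal

/-- Homogeneous coordinates. -/
noncomputable def hom {n : ℕ} (x : E n) : Fin (n + 1) → ℝ := Fin.cons 1 (fun i => x i)

/-- The matrix whose columns are the homogeneous coordinates of the points. -/
noncomputable def hmat {n : ℕ} (v : Fin (n + 1) → E n) : Matrix (Fin (n + 1)) (Fin (n + 1)) ℝ :=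
  Matrix.of fun i j => hom (v j) i

lemma continuous_hom {n : ℕ} (i : Fin (n + 1)) : Continuous fun x : E n => hom x i := by
  refine Fin.cases ?_ (fun j => ?_) i
  · simp only [hom, Fin.cons_zero]; exact continuous_const
  · simp only [hom, Fin.cons_succ]
    exact (EuclideanSpace.proj j).continuous

lemma continuous_det_hmat {n : ℕ} : Continuous fun v : Fin (n + 1) → E n => (hmat v).det := by
  apply Continuous.matrix_det
  refine continuous_pi fun i => continuous_pi fun j => ?_
  exact (continuous_hom i).comp (continuous_apply j)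

lemma mulVec_hmat {n : ℕ} (v : Fin (n + 1) → E n) (c : Fin (n + 1) → ℝ) (x : E n)
    (h : hmat v *ᵥ c = hom x) : ∑ j, c j = 1 ∧ ∑ j, c j • v j = x := by
  constructor
  · have := congrFun h 0
    simp only [Matrix.mulVec, dotProduct, hmat, Matrix.of_apply, hom, Fin.cons_zero, one_mul] at this
    exact this
  · ext i
    have := congrFun h i.succ
    simp only [Matrix.mulVec, dotProduct, hmat, Matrix.of_apply, hom, Fin.cons_succ] at this
    rw [← this]
    simp only [WithLp.ofLp_sum, WithLp.ofLp_smul, Finset.sum_apply, Pi.smul_apply, smul_eq_mul]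
    exact Finset.sum_congr rfl fun j _ => mul_comm _ _

/-- A body with interior points contains a nondegenerate simplex. -/
lemma exists_simplex {n : ℕ} {K : Set (E n)} (hK : (interior K).Nonempty) :
    ∃ v : Fin (n + 1) → E n, (∀ j, v j ∈ K) ∧ (hmat v).det ≠ 0 := by
  obtain ⟨c, hc⟩ := hK
  obtain ⟨ε, hε, hball⟩ := Metric.mem_nhds_iff.mp (mem_interior_iff_mem_nhds.mp hc)
  set v : Fin (n + 1) → E n :=
    Fin.cons c (fun i => c + (ε / 2) • EuclideanSpace.single i (1 : ℝ)) with hv
  refine ⟨v, ?_, ?_⟩
  · intro j
    refine Fin.cases ?_ (fun i => ?_) j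
    · simp only [hv, Fin.cons_zero]; exact interior_subset hc
    · simp only [hv, Fin.cons_succ]
      apply hball
      rw [Metric.mem_ball, dist_eq_norm]
      have : c + (ε / 2) • EuclideanSpace.single i (1 : ℝ) - c
          = (ε / 2) • EuclideanSpace.single i (1 : ℝ) := by abel
      rw [this, norm_smul, PiLp.norm_single, Real.norm_eq_abs, norm_one, mul_one,
        abs_of_pos (by linarith)]
      linarith
  · intro h0
    obtain ⟨w, hw0, hw⟩ := Matrix.exists_mulVec_eq_zero_iff.mpr h0
    apply hw0
    have hsum : ∑ j, w j = 0 := by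
      have := congrFun hw 0
      simp only [Matrix.mulVec, dotProduct, hmat, Matrix.of_apply, hom, Fin.cons_zero,
        one_mul, Pi.zero_apply] at this
      exact this
    have hco : ∀ i : Fin n, w i.succ = 0 := by
      intro i
      have := congrFun hw i.succ
      simp only [Matrix.mulVec, dotProduct, hmat, Matrix.of_apply, hom, Fin.cons_succ,
        Pi.zero_apply] at this
      rw [Fin.sum_univ_succ] at this hsum
      simp only [hv, Fin.cons_zero, Fin.cons_succ] at this
      have h2 : ∀ j : Fin n, (c + (ε / 2) • EuclideanSpace.single j (1 : ℝ)) i * w j.succ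
          = c i * w j.succ + (ε / 2) * (if i = j then w j.succ else 0) := by
        intro j
        simp only [PiLp.add_apply, PiLp.smul_apply, PiLp.single_apply, smul_eq_mul]
        split_ifs <;> ring
      rw [Finset.sum_congr rfl fun j _ => h2 j, Finset.sum_add_distrib, ← Finset.mul_sum,
        ← Finset.mul_sum, Finset.sum_ite_eq] at this
      simp only [Finset.mem_univ, if_true] at this
      have h3 : c i * (w 0 + ∑ j : Fin n, w j.succ) + (ε / 2) * w i.succ = 0 := by
        linarith
      rw [hsum, mul_zero, zero_add] at h3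
      exact (mul_eq_zero.mp h3).resolve_left (by positivity)
    funext j
    refine Fin.cases ?_ (fun i => hco i) j
    rw [Fin.sum_univ_succ] at hsum
    simp only [hco, Finset.sum_const_zero, add_zero] at hsum
    exact hsum

/-- Every convex body has a point `g` such that `g - (x - g)/n` lies in `K` for all `x` in `K`. -/
theorem exists_center {n : ℕ} (hn : 1 ≤ n) {K : Set (E n)} (hK : IsConvexBody K) :
    ∃ g ∈ K, ∀ x ∈ K, g - (1 / (n : ℝ)) • (x - g) ∈ K := by
  obtain ⟨hconv, hcomp, hint⟩ := hK
  obtain ⟨v₁, hv₁K, hv₁⟩ := exists_simplex hint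
  have hpc : IsCompact (Set.pi univ fun _ : Fin (n + 1) => K) := isCompact_univ_pi fun _ => hcomp
  have hmem : v₁ ∈ Set.pi univ fun _ : Fin (n + 1) => K := fun j _ => hv₁K j
  obtain ⟨v, hvK, hmax⟩ := hpc.exists_isMaxOn ⟨v₁, hmem⟩
    (continuous_det_hmat.abs).continuousOn
  have hvK' : ∀ j, v j ∈ K := fun j => hvK j (mem_univ j)
  have hdet : 0 < |(hmat v).det| := by
    have := hmax hmem
    simp only [Set.mem_ofPred_eq] at this
    exact lt_of_lt_of_le (abs_pos.mpr hv₁) this
  have hdet0 : (hmat v).det ≠ 0 := abs_pos.mp hdet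
  have hn0 : (0 : ℝ) < n := by exact_mod_cast hn
  -- the centroid
  set g : E n := ∑ j, (1 / ((n : ℝ) + 1)) • v j with hg
  have hw1 : ∑ _j : Fin (n + 1), (1 / ((n : ℝ) + 1)) = 1 := by
    rw [Finset.sum_const, Finset.card_univ, Fintype.card_fin, nsmul_eq_mul]
    push_cast
    field_simp
  have hgK : g ∈ K := hconv.sum_mem (fun j _ => by positivity) hw1 fun j _ => hvK' j
  refine ⟨g, hgK, fun x hx => ?_⟩
  -- barycentric coordinates of x
  set c : Fin (n + 1) → ℝ := fun j => ((hmat v).det)⁻¹ * (hmat v).cramer (hom x) j with hc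
  have hmul : hmat v *ᵥ c = hom x := by
    have h1 := Matrix.mulVec_cramer (hmat v) (hom x)
    have h2 : c = ((hmat v).det)⁻¹ • (hmat v).cramer (hom x) := rfl
    rw [h2, Matrix.mulVec_smul, h1, smul_smul, inv_mul_cancel₀ hdet0, one_smul]
  obtain ⟨hc1, hcx⟩ := mulVec_hmat v c x hmul
  have hcle : ∀ j, c j ≤ 1 := by
    intro j
    have h1 : (hmat v).cramer (hom x) j = (hmat (Function.update v j x)).det := by
      rw [Matrix.cramer_apply]
      congr 1
      ext i k
      rw [Matrix.updateCol_apply]
      by_cases hk : k = j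
      · subst hk; simp [hmat]
      · simp [hmat, hk]
    have h2 : Function.update v j x ∈ Set.pi univ fun _ : Fin (n + 1) => K := by
      intro k _
      by_cases hk : k = j
      · subst hk; simpa using hx
      · rw [Function.update_of_ne hk]; exact hvK' k
    have h3 := hmax h2
    simp only [Set.mem_ofPred_eq] at h3
    have h4 : |c j| ≤ 1 := by
      rw [hc]
      simp only
      rw [h1, abs_mul, abs_inv, inv_mul_le_iff₀ hdet, mul_one]
      exact h3
    exact (abs_le.mp h4).2
  -- the combination
  have hcomb : g - (1 / (n : ℝ)) • (x - g) = ∑ j, ((1 - c j) / n) • v j := by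
    have h1 : ∑ j, ((1 - c j) / n) • v j
        = (1 / (n : ℝ)) • ∑ j, v j - (1 / (n : ℝ)) • ∑ j, c j • v j := by
      rw [Finset.smul_sum, Finset.smul_sum, ← Finset.sum_sub_distrib]
      refine Finset.sum_congr rfl fun j _ => ?_
      rw [smul_smul, ← sub_smul]
      congr 1; ring
    rw [h1, hcx]
    have h2 : g = (1 / ((n : ℝ) + 1)) • ∑ j, v j := by rw [hg, Finset.smul_sum]
    rw [h2]
    rw [smul_sub, smul_smul, sub_sub_eq_add_sub, ← add_smul]
    congr 2
    field_simp
  rw [hcomb]
  refine hconv.sum_mem (fun j _ => ?_) ?_ fun j _ => hvK' j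
  · have := hcle j
    have : 0 ≤ 1 - c j := by linarith
    positivity
  · rw [← Finset.sum_div, Finset.sum_sub_distrib, hc1, Finset.sum_const, Finset.card_univ,
      Fintype.card_fin, nsmul_eq_mul]
    push_cast
    field_simp
    ring

end Vale.Agent.P230
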