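import Vale.Agent.Lib.P230.Periodic
import Vale.Agent.Lib.P230.Simplex

/-!
# P230, Lemma I: Rogers' upper bound `θ_T(K) ≤ C n log n`
-/

namespace Vale.Agent.P230

open MeasureTheory Set Filter
open scoped ENNReal Pointwise

/-- The part of `W` not covered by the translates `x + K`, `x ∈ F`. -/
def unc {n : ℕ} (W K : Set (E n)) (F : Finset (E n)) : Set (E n) :=
  {u | u ∈ W ∧ ∀ x ∈ F, u - x ∉ K}

lemma measurableSet_trans {n : ℕ} {K : Set (E n)} (hK : MeasurableSet K) (x : E n) :
    MeasurableSet {u : E n | u - x ∈ K} :=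
  (measurable_id.sub measurable_const) hK

lemma measurableSet_unc {n : ℕ} {W K : Set (E n)} (hW : MeasurableSet W) (hK : MeasurableSet K)
    (F : Finset (E n)) : MeasurableSet (unc W K F) := by
  have : unc W K F = W ∩ ⋂ x ∈ F, {u : E n | u - x ∈ K}ᶜ := by
    ext u
    simp [unc]
  rw [this]
  exact hW.inter (Finset.measurableSet_biInter F fun x _ => (measurableSet_trans hK x).compl)

lemma rogers_greedy_avg {n : ℕ} {U K W : Set (E n)} (hU : MeasurableSet U) (hK : MeasurableSet K)
    (hsub : ∀ u ∈ U, ∀ k ∈ K, u - k ∈ W) (h0 : volume W ≠ 0)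
    (hW : MeasurableSet W) (hUt : volume U ≠ ⊤) (hKt : volume K ≠ ⊤) :
    ∃ x : E n, volume U * volume K / volume W ≤ volume (U ∩ {u | u - x ∈ K}) := by
  have hind : ∀ x : E n, volume (U ∩ {u | u - x ∈ K})
      = ∫⁻ u, U.indicator 1 u * K.indicator 1 (u - x) := by
    intro x
    rw [← lintegral_indicator_one (hU.inter (measurableSet_trans hK x))]
    congr 1
    funext u
    by_cases h1 : u ∈ U <;> by_cases h2 : u - x ∈ K <;> simp [h1, h2, indicator]
  have hmeas2 : Measurable (Function.uncurry fun (x u : E n) =>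
      (U.indicator 1 u * K.indicator 1 (u - x) : ℝ≥0∞)) := by
    apply Measurable.mul
    · exact (measurable_one.indicator hU).comp measurable_snd
    · exact (measurable_one.indicator hK).comp (measurable_snd.sub measurable_fst)
  have hint : ∫⁻ x in W, volume (U ∩ {u | u - x ∈ K}) = volume U * volume K := by
    simp_rw [hind]
    rw [lintegral_lintegral_swap hmeas2.aemeasurable]
    have h1 : ∀ u : E n, ∫⁻ x in W, (U.indicator 1 u * K.indicator 1 (u - x) : ℝ≥0∞)
        = U.indicator (fun _ => volume K) u := by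
      intro u
      by_cases hu : u ∈ U
      · rw [indicator_of_mem hu, indicator_of_mem hu]
        simp only [Pi.one_apply, one_mul]
        have h2 : ∫⁻ x in W, K.indicator (1 : E n → ℝ≥0∞) (u - x)
            = ∫⁻ x, K.indicator (1 : E n → ℝ≥0∞) (u - x) := by
          rw [← lintegral_indicator hW]
          congr 1
          funext x
          by_cases hx : u - x ∈ K
          · have : x ∈ W := by
              have := hsub u hu _ hx
              simpa using this
            rw [indicator_of_mem this]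
          · by_cases hxW : x ∈ W
            · rw [indicator_of_mem hxW]
            · rw [indicator_of_notMem hxW, indicator_of_notMem hx]
        rw [h2, lintegral_sub_left_eq_self (fun x => K.indicator (1 : E n → ℝ≥0∞) x) u,
          lintegral_indicator_one hK]
      · rw [indicator_of_notMem hu, indicator_of_notMem hu]
        simp
    simp_rw [h1]
    rw [lintegral_indicator hU, setLIntegral_const, mul_comm]
  obtain ⟨x, _, hx⟩ := exists_setLAverage_le (μ := volume) (s := W)
    (f := fun x => volume (U ∩ {u | u - x ∈ K})) h0 hW.nullMeasurableSet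
    (by rw [hint]; exact ENNReal.mul_ne_top hUt hKt)
  refine ⟨x, ?_⟩
  rw [setLAverage_eq, hint] at hx
  exact hx

lemma unc_insert {n : ℕ} [DecidableEq (E n)] (W K : Set (E n)) (F : Finset (E n)) (x : E n) :
    unc W K (insert x F) = unc W K F \ (unc W K F ∩ {u | u - x ∈ K}) := by
  ext u
  simp only [unc, Finset.mem_insert, forall_eq_or_imp, Set.mem_sdiff, mem_inter_iff, Set.mem_ofPred_eq]
  tauto

/-- Greedy covering. -/
lemma rogers_greedy {n : ℕ} {W K W' : Set (E n)} (hW : MeasurableSet W) (hK : MeasurableSet K)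
    (hsub : ∀ u ∈ W, ∀ k ∈ K, u - k ∈ W') (h0 : volume W' ≠ 0) (htop : volume W' ≠ ⊤)
    (hW' : MeasurableSet W') (hWt : volume W ≠ ⊤) (hKt : volume K ≠ ⊤)
    (hle : volume.real K ≤ volume.real W') (N : ℕ) :
    ∃ F : Finset (E n), F.card ≤ N ∧
      volume.real (unc W K F) ≤ (1 - volume.real K / volume.real W') ^ N * volume.real W := by
  classical
  have hpos : 0 < volume.real W' := by
    rw [Measure.real, ENNReal.toReal_pos_iff]
    exact ⟨pos_iff_ne_zero.mpr h0, lt_top_iff_ne_top.mpr htop⟩
  induction N with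
  | zero =>
    refine ⟨∅, le_rfl, ?_⟩
    have : unc W K ∅ = W := by ext u; simp [unc]
    rw [this]; simp
  | succ N ih =>
    obtain ⟨F, hF, hvol⟩ := ih
    have hUm := measurableSet_unc hW hK F
    have hUW : unc W K F ⊆ W := fun u hu => hu.1
    have hUt : volume (unc W K F) ≠ ⊤ := measure_ne_top_of_subset hUW hWt
    obtain ⟨x, hx⟩ := rogers_greedy_avg hUm hK (fun u hu k hk => hsub u (hUW hu) k hk) h0 hW' hUt hKt
    refine ⟨insert x F, (Finset.card_insert_le x F).trans (by omega), ?_⟩
    have hx' : volume.real (unc W K F) * volume.real K / volume.real W'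
        ≤ volume.real (unc W K F ∩ {u | u - x ∈ K}) := by
      have h1 : volume (unc W K F ∩ {u | u - x ∈ K}) ≠ ⊤ :=
        measure_ne_top_of_subset inter_subset_left hUt
      have := ENNReal.toReal_mono h1 hx
      rw [ENNReal.toReal_div, ENNReal.toReal_mul] at this
      exact this
    have h2 : volume.real (unc W K (insert x F))
        = volume.real (unc W K F) - volume.real (unc W K F ∩ {u | u - x ∈ K}) := by
      rw [unc_insert]
      exact measureReal_sdiff inter_subset_left (hUm.inter (measurableSet_trans hK x)) hUt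
    rw [h2]
    have h3 : 0 ≤ 1 - volume.real K / volume.real W' := by
      have := (div_le_one hpos).mpr hle
      linarith
    calc volume.real (unc W K F) - volume.real (unc W K F ∩ {u | u - x ∈ K})
        ≤ volume.real (unc W K F) - volume.real (unc W K F) * volume.real K / volume.real W' := by
          linarith
      _ = (1 - volume.real K / volume.real W') * volume.real (unc W K F) := by ring
      _ ≤ (1 - volume.real K / volume.real W') *
          ((1 - volume.real K / volume.real W') ^ N * volume.real W) :=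
          mul_le_mul_of_nonneg_left hvol h3
      _ = (1 - volume.real K / volume.real W') ^ (N + 1) * volume.real W := by ring

/-- A packing of translates of `-K` in `U` with centres in `Q`. -/
def IsPack {n : ℕ} (Q U K : Set (E n)) (Y : Finset (E n)) : Prop :=
  (∀ y ∈ Y, y ∈ Q ∧ ∀ k ∈ K, y - k ∈ U) ∧
    ∀ y ∈ Y, ∀ y' ∈ Y, y ≠ y' → ∀ k ∈ K, ∀ k' ∈ K, y - k ≠ y' - k'

lemma volume_reflect {n : ℕ} {K : Set (E n)} (hK : MeasurableSet K) (y : E n) :
    volume {u : E n | y - u ∈ K} = volume K := by
  have : {u : E n | y - u ∈ K} = (fun u => y - u) ⁻¹' K := rfl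
  rw [this]
  exact (Measure.measurePreserving_sub_left volume y).measure_preimage hK.nullMeasurableSet

lemma pack_card {n : ℕ} {Q U K : Set (E n)} (hK : MeasurableSet K)
    (hUt : volume U ≠ ⊤) {Y : Finset (E n)} (hY : IsPack Q U K Y) :
    (Y.card : ℝ) * volume.real K ≤ volume.real U := by
  have hmeas : ∀ y : E n, MeasurableSet {u : E n | y - u ∈ K} := fun y =>
    (measurable_const.sub measurable_id) hK
  have hdisj : (Y : Set (E n)).PairwiseDisjoint fun y => {u : E n | y - u ∈ K} := by
    intro y hy y' hy' hne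
    rw [Function.onFun, Set.disjoint_left]
    intro u hu hu'
    refine hY.2 y hy y' hy' hne _ hu _ hu' ?_
    abel
  have hsub : (⋃ y ∈ Y, {u : E n | y - u ∈ K}) ⊆ U := by
    intro u hu
    simp only [mem_iUnion] at hu
    obtain ⟨y, hy, hu⟩ := hu
    have := (hY.1 y hy).2 _ hu
    simpa using this
  have h1 : volume (⋃ y ∈ Y, {u : E n | y - u ∈ K}) = (Y.card : ℝ≥0∞) * volume K := by
    rw [measure_biUnion_finset hdisj fun y _ => hmeas y]
    rw [Finset.sum_congr rfl fun y _ => volume_reflect hK y, Finset.sum_const, nsmul_eq_mul]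
  have h2 := measure_mono (μ := volume) hsub
  rw [h1] at h2
  have h3 := ENNReal.toReal_mono hUt h2
  rw [ENNReal.toReal_mul, ENNReal.toReal_natCast] at h3
  exact h3

lemma exists_max_pack {n : ℕ} {Q U K : Set (E n)} (hK : MeasurableSet K)
    (hKpos : 0 < volume.real K) (hUt : volume U ≠ ⊤) :
    ∃ Y : Finset (E n), IsPack Q U K Y ∧ ∀ z ∈ Q, z ∉ Y → (∀ k ∈ K, z - k ∈ U) →
      ∃ y ∈ Y, ∃ k ∈ K, ∃ k' ∈ K, z - k = y - k' := by
  classical
  obtain ⟨B, hB⟩ : ∃ B : ℕ, ∀ Y : Finset (E n), IsPack Q U K Y → Y.card ≤ B := by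
    refine ⟨⌊volume.real U / volume.real K⌋₊, fun Y hY => ?_⟩
    apply Nat.le_floor
    rw [le_div_iff₀ hKpos]
    exact pack_card hK hUt hY
  set S : Set ℕ := {m | ∃ Y : Finset (E n), IsPack Q U K Y ∧ Y.card = m} with hS
  have hSne : S.Nonempty := ⟨0, ∅, ⟨by simp, by simp⟩, by simp⟩
  have hSb : BddAbove S := ⟨B, by rintro m ⟨Y, hY, rfl⟩; exact hB Y hY⟩
  obtain ⟨Y, hY, hYc⟩ := Nat.sSup_mem hSne hSb
  refine ⟨Y, hY, fun z hz hzY hzU => ?_⟩
  by_contra hcon
  push Not at hcon
  have hins : IsPack Q U K (insert z Y) := by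
    refine ⟨?_, ?_⟩
    · intro y hy
      rcases Finset.mem_insert.mp hy with rfl | hy
      · exact ⟨hz, hzU⟩
      · exact hY.1 y hy
    · intro y hy y' hy' hne k hk k' hk'
      rcases Finset.mem_insert.mp hy with h1 | h1 <;>
        rcases Finset.mem_insert.mp hy' with h2 | h2
      · exact absurd (h1.trans h2.symm) hne
      · rw [h1]; exact hcon y' h2 k hk k' hk'
      · rw [h2]; exact fun h => hcon y h1 k' hk' k hk h.symm
      · exact hY.2 y h1 y' h2 hne k hk k' hk'
  have h1 : (insert z Y).card ≤ sSup S := le_csSup hSb ⟨_, hins, rfl⟩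
  rw [Finset.card_insert_of_notMem hzY, hYc] at h1
  omega

lemma cube_sub_mem {n : ℕ} {a b : ℝ} {u k : E n} (hu : u ∈ cube n a) (hk : ‖k‖ ≤ b) :
    u - k ∈ cube n (a + b) := by
  intro i
  have h1 : (u - k) i = u i - k i := by simp
  rw [h1]
  calc |u i - k i| ≤ |u i| + |k i| := abs_sub _ _
    _ ≤ a + b := add_le_add (hu i) ((abs_coord_le_norm k i).trans hk)

/-- Covering of a cube by few translates of a well-centred convex body. -/
lemma cover_cube {n : ℕ} (hn : 1 ≤ n) {K : Set (E n)} (hconv : Convex ℝ K) (hcomp : IsCompact K)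
    (hKpos : 0 < volume.real K) (h0 : (0 : E n) ∈ K)
    (hneg : ∀ x ∈ K, -((1 / (n : ℝ)) • x) ∈ K) {r : ℝ} (hr : 0 < r) (hKr : ∀ x ∈ K, ‖x‖ ≤ r)
    {L : ℝ} (hL : 0 < L) :
    ∃ F : Finset (E n), (∀ w ∈ cube n L, ∃ x ∈ F, w - x ∈ K) ∧
      (F.card : ℝ) * volume.real K ≤
        (3 * (n * Real.log (n + 1)) + 1) * (2 * (L + 2 * r)) ^ n + volume.real K := by
  classical
  have hn0 : (0 : ℝ) < n := by exact_mod_cast hn
  set ν : ℝ := volume.real K with hν
  set c : ℝ := (n : ℝ) / (n + 1) with hc
  set e : ℝ := 1 / ((n : ℝ) + 1) with he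
  have hc0 : 0 < c := by positivity
  have he0 : 0 < e := by positivity
  have hce : c + e = 1 := by rw [hc, he]; field_simp
  set K₁ : Set (E n) := c • K with hK₁
  set K₂ : Set (E n) := e • K with hK₂
  have hm : MeasurableSet K := hcomp.measurableSet
  have hm1 : MeasurableSet K₁ := hm.const_smul_of_ne_zero hc0.ne'
  have hm2 : MeasurableSet K₂ := hm.const_smul_of_ne_zero he0.ne'
  have hfr : Module.finrank ℝ (E n) = n := by simp
  have hv1 : volume.real K₁ = c ^ n * ν := by
    rw [hK₁, Measure.real, Measure.addHaar_smul, hfr, ENNReal.toReal_mul,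
      ENNReal.toReal_ofReal (abs_nonneg _), abs_of_pos (by positivity)]
    rfl
  have hv2 : volume.real K₂ = e ^ n * ν := by
    rw [hK₂, Measure.real, Measure.addHaar_smul, hfr, ENNReal.toReal_mul,
      ENNReal.toReal_ofReal (abs_nonneg _), abs_of_pos (by positivity)]
    rfl
  have hc1 : c ≤ 1 := by linarith
  have he1 : e ≤ 1 := by linarith
  have hsubK : ∀ t : ℝ, 0 ≤ t → t ≤ 1 → ∀ x ∈ t • K, ‖x‖ ≤ r := by
    rintro t ht0 ht1 _ ⟨x, hx, rfl⟩
    simp only
    rw [norm_smul, Real.norm_eq_abs, abs_of_nonneg ht0]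
    calc t * ‖x‖ ≤ 1 * r := mul_le_mul ht1 (hKr x hx) (norm_nonneg x) zero_le_one
      _ = r := one_mul r
  -- the cubes
  set W : Set (E n) := cube n (L + r) with hW
  set W' : Set (E n) := cube n (L + r + r) with hW'
  have hWm := measurableSet_cube n (L + r)
  have hW'm := measurableSet_cube n (L + r + r)
  have hvW : volume W = ENNReal.ofReal ((2 * (L + r)) ^ n) := volume_cube n (by linarith)
  have hvW' : volume W' = ENNReal.ofReal ((2 * (L + r + r)) ^ n) := volume_cube n (by linarith)
  have hWt : volume W ≠ ⊤ := by rw [hvW]; exact ENNReal.ofReal_ne_top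
  have hW't : volume W' ≠ ⊤ := by rw [hvW']; exact ENNReal.ofReal_ne_top
  set V' : ℝ := (2 * (L + 2 * r)) ^ n with hV'
  have hV'pos : 0 < V' := by positivity
  have hrW' : volume.real W' = V' := by
    rw [Measure.real, hvW', ENNReal.toReal_ofReal (by positivity), hV']
    congr 1; ring
  have hrW : volume.real W ≤ V' := by
    rw [Measure.real, hvW, ENNReal.toReal_ofReal (by positivity), hV']
    apply pow_le_pow_left₀ (by positivity)
    linarith
  have hW'0 : volume W' ≠ 0 := by
    rw [hvW', Ne, ENNReal.ofReal_eq_zero, not_le]; positivity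
  have hK₁t : volume K₁ ≠ ⊤ := (hcomp.smul c).measure_ne_top
  have h0K₁ : (0 : E n) ∈ K₁ := ⟨0, h0, by simp⟩
  have hK₁W' : K₁ ⊆ W' := by
    intro x hx i
    refine (abs_coord_le_norm x i).trans ((hsubK c hc0.le hc1 x hx).trans ?_)
    linarith
  have hle1 : volume.real K₁ ≤ volume.real W' := measureReal_mono hK₁W' hW't
  have hν1 : 0 < volume.real K₁ := by rw [hv1]; positivity
  -- the number of greedy steps
  set N : ℕ := ⌈n * Real.log (n + 1) * V' / volume.real K₁⌉₊ with hN
  obtain ⟨F, hFc, hFv⟩ := rogers_greedy (W := W) (K := K₁) (W' := W') hWm hm1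
    (fun u hu k hk => cube_sub_mem hu (hsubK c hc0.le hc1 k hk)) hW'0 hW't hW'm hWt hK₁t hle1 N
  have hlog : 0 ≤ Real.log ((n : ℝ) + 1) := Real.log_nonneg (by linarith)
  have hU : volume.real (unc W K₁ F) ≤ e ^ n * V' := by
    refine hFv.trans ?_
    rw [hrW']
    have h1 : 0 ≤ 1 - volume.real K₁ / V' := by
      have := (div_le_one hV'pos).mpr (hrW' ▸ hle1)
      linarith
    have h2 : (1 - volume.real K₁ / V') ^ N ≤ e ^ n := by
      calc (1 - volume.real K₁ / V') ^ N ≤ (Real.exp (-(volume.real K₁ / V'))) ^ N :=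
            pow_le_pow_left₀ h1 (by
              have := Real.add_one_le_exp (-(volume.real K₁ / V'))
              linarith) N
        _ = Real.exp (-((N : ℝ) * (volume.real K₁ / V'))) := by
            rw [← Real.exp_nat_mul]; congr 1; ring
        _ ≤ Real.exp (-(n * Real.log (n + 1))) := by
            apply Real.exp_le_exp.mpr
            apply neg_le_neg
            have h3 : n * Real.log (n + 1) * V' / volume.real K₁ ≤ (N : ℝ) := Nat.le_ceil _
            calc n * Real.log (n + 1)
                = (n * Real.log (n + 1) * V' / volume.real K₁) * (volume.real K₁ / V') := by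
                  field_simp
              _ ≤ (N : ℝ) * (volume.real K₁ / V') :=
                  mul_le_mul_of_nonneg_right h3 (by positivity)
        _ = e ^ n := by
            rw [he, one_div, inv_pow, Real.exp_neg, mul_comm, Real.exp_mul, Real.exp_log (by positivity),
              Real.rpow_natCast]
    exact mul_le_mul h2 hrW measureReal_nonneg (by positivity)
  -- the packing
  have hUt : volume (unc W K₁ F) ≠ ⊤ := measure_ne_top_of_subset (fun u hu => hu.1) hWt
  have hν2 : 0 < volume.real K₂ := by rw [hv2]; positivity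
  obtain ⟨Y, hY, hYmax⟩ := exists_max_pack (Q := cube n L) (U := unc W K₁ F) (K := K₂)
    hm2 hν2 hUt
  have hYc : (Y.card : ℝ) * ν ≤ V' := by
    have h1 := (pack_card hm2 hUt hY).trans hU
    rw [hv2] at h1
    have h2 : e ^ n * ((Y.card : ℝ) * ν) ≤ e ^ n * V' := by
      calc e ^ n * ((Y.card : ℝ) * ν) = (Y.card : ℝ) * (e ^ n * ν) := by ring
        _ ≤ e ^ n * V' := h1
    exact le_of_mul_le_mul_left h2 (by positivity)
  refine ⟨F ∪ Y, ?_, ?_⟩
  · intro z hz
    by_cases hzY : z ∈ Y
    · exact ⟨z, Finset.mem_union_right _ hzY, by rw [sub_self]; exact h0⟩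
    · by_cases hzU : ∀ k ∈ K₂, z - k ∈ unc W K₁ F
      · obtain ⟨y, hy, k, hk, k', hk', hkk⟩ := hYmax z hz hzY hzU
        refine ⟨y, Finset.mem_union_right _ hy, ?_⟩
        obtain ⟨a, ha, rfl⟩ := hk
        obtain ⟨b, hb, rfl⟩ := hk'
        simp only at hkk
        have h1 : z - y = e • a + c • (-((1 / (n : ℝ)) • b)) := by
          have h2 : z - y = e • a - e • b := by
            have h3 : z = (y - e • b) + e • a := by rw [← hkk]; abel
            rw [h3]; abel
          have h4 : c * (1 / (n : ℝ)) = e := by rw [hc, he]; field_simp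
          rw [h2, smul_neg, smul_smul, h4, sub_eq_add_neg]
        rw [h1]
        exact hconv ha (hneg b hb) he0.le hc0.le (by linarith)
      · push Not at hzU
        obtain ⟨k, hk, hzk⟩ := hzU
        have hzW : z - k ∈ W := cube_sub_mem hz (hsubK e he0.le he1 k hk)
        have h1 : ∃ x ∈ F, z - k - x ∈ K₁ := by
          by_contra hcon
          push Not at hcon
          exact hzk ⟨hzW, hcon⟩
        obtain ⟨x, hx, hxk⟩ := h1
        refine ⟨x, Finset.mem_union_left _ hx, ?_⟩
        obtain ⟨a, ha, hae⟩ := hk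
        obtain ⟨b, hb, hbe⟩ := hxk
        simp only at hae hbe
        have h2 : z - x = c • b + e • a := by rw [hbe, hae]; abel
        rw [h2]
        exact hconv hb ha hc0.le he0.le hce
  · have h1 : ((F ∪ Y).card : ℝ) ≤ (F.card : ℝ) + (Y.card : ℝ) := by
      exact_mod_cast Finset.card_union_le F Y
    have h2 : (F.card : ℝ) ≤ n * Real.log (n + 1) * V' / volume.real K₁ + 1 := by
      have h3 : (F.card : ℝ) ≤ (N : ℝ) := by exact_mod_cast hFc
      refine h3.trans (Nat.ceil_lt_add_one ?_).le
      positivity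
    have h3 : (n * Real.log (n + 1) * V' / volume.real K₁) * ν ≤ 3 * (n * Real.log (n + 1)) * V' := by
      rw [hv1]
      have h4 : (n * Real.log (n + 1) * V' / (c ^ n * ν)) * ν
          = (c ^ n)⁻¹ * (n * Real.log (n + 1) * V') := by field_simp
      rw [h4]
      have h5 : (c ^ n)⁻¹ ≤ 3 := by
        have h6 : (c ^ n)⁻¹ = (1 + 1 / (n : ℝ)) ^ n := by
          rw [← inv_pow, hc]; congr 1; field_simp
        rw [h6]
        have h7 : 1 + 1 / (n : ℝ) ≤ Real.exp (1 / (n : ℝ)) := by
          have := Real.add_one_le_exp (1 / (n : ℝ))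
          linarith
        calc (1 + 1 / (n : ℝ)) ^ n ≤ (Real.exp (1 / (n : ℝ))) ^ n :=
              pow_le_pow_left₀ (by positivity) h7 n
          _ = Real.exp 1 := by
              rw [← Real.exp_nat_mul]; congr 1; field_simp
          _ ≤ 3 := by
              have := Real.exp_one_lt_d9
              linarith
      calc (c ^ n)⁻¹ * (n * Real.log (n + 1) * V') ≤ 3 * (n * Real.log (n + 1) * V') :=
            mul_le_mul_of_nonneg_right h5 (by positivity)
        _ = 3 * (n * Real.log (n + 1)) * V' := by ring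
    calc ((F ∪ Y).card : ℝ) * ν ≤ ((F.card : ℝ) + (Y.card : ℝ)) * ν :=
          mul_le_mul_of_nonneg_right h1 hKpos.le
      _ = (F.card : ℝ) * ν + (Y.card : ℝ) * ν := by ring
      _ ≤ (n * Real.log (n + 1) * V' / volume.real K₁ + 1) * ν + V' :=
          add_le_add (mul_le_mul_of_nonneg_right h2 hKpos.le) hYc
      _ = (n * Real.log (n + 1) * V' / volume.real K₁) * ν + ν + V' := by ring
      _ ≤ 3 * (n * Real.log (n + 1)) * V' + ν + V' := by linarith
      _ = (3 * (n * Real.log (n + 1)) + 1) * V' + ν := by ring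

/-- Rogers' theorem: `θ_T(K) ≤ C n log n` for every convex body in `ℝⁿ`, `n ≥ 2`. -/
theorem rogers : ∃ C : ℝ, 0 < C ∧ ∀ n : ℕ, 2 ≤ n → ∀ K : Set (E n), IsConvexBody K →
    thetaT K ≤ ENNReal.ofReal (C * n * Real.log n) := by
  classical
  refine ⟨15, by norm_num, fun n hn K hK => ?_⟩
  have hn1 : 1 ≤ n := by omega
  have hn2 : (2 : ℝ) ≤ n := by exact_mod_cast hn
  obtain ⟨g, hgK, hg⟩ := exists_center hn1 hK
  obtain ⟨hconv, hcomp, hint⟩ := hK
  -- the centred body
  set K' : Set (E n) := (fun x => x + g) ⁻¹' K with hK'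
  have hconv' : Convex ℝ K' := hconv.translate_preimage_left g
  have hcomp' : IsCompact K' := by
    have : K' = (fun x => x + (-g)) '' K := by
      ext x
      constructor
      · intro hx
        exact ⟨x + g, hx, by simp⟩
      · rintro ⟨y, hy, rfl⟩
        simpa [hK'] using hy
    rw [this]
    exact hcomp.image (continuous_id.add continuous_const)
  have hvol' : volume K' = volume K := measure_preimage_add_right volume g K
  have hKt : volume K ≠ ⊤ := hcomp.measure_ne_top
  have hKpos : 0 < volume.real K := by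
    rw [Measure.real, ENNReal.toReal_pos_iff]
    exact ⟨Measure.measure_pos_of_nonempty_interior volume hint, lt_top_iff_ne_top.mpr hKt⟩
  have hν : volume.real K' = volume.real K := by rw [Measure.real, hvol']; rfl
  have h0' : (0 : E n) ∈ K' := by simpa [hK'] using hgK
  have hneg' : ∀ x ∈ K', -((1 / (n : ℝ)) • x) ∈ K' := by
    intro x hx
    have := hg (x + g) hx
    rw [hK', mem_preimage]
    have h2 : -((1 / (n : ℝ)) • x) + g = g - (1 / (n : ℝ)) • (x + g - g) := by
      rw [add_sub_cancel_right]; abel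
    rw [h2]; exact this
  obtain ⟨r₀, hr₀⟩ := isBounded_iff_forall_norm_le.mp hcomp'.isBounded
  set r : ℝ := |r₀| + 1 with hr
  have hrpos : 0 < r := by positivity
  have hKr : ∀ x ∈ K', ‖x‖ ≤ r := fun x hx => (hr₀ x hx).trans (by
    have := le_abs_self r₀; linarith)
  -- choose a large cube
  have hlim1 : Tendsto (fun L : ℝ => ((2 * (L + 2 * r)) / (2 * L)) ^ n) atTop (nhds 1) := by
    have h1 : Tendsto (fun L : ℝ => 1 + (2 * r) * L⁻¹) atTop (nhds (1 + (2 * r) * 0)) :=
      tendsto_const_nhds.add (tendsto_const_nhds.mul tendsto_inv_atTop_zero)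
    rw [mul_zero, add_zero] at h1
    have h2 := h1.pow n
    rw [one_pow] at h2
    refine h2.congr' ?_
    filter_upwards [eventually_gt_atTop 0] with L hL
    congr 1
    field_simp
  have hev1 : ∀ᶠ L : ℝ in atTop, ((2 * (L + 2 * r)) / (2 * L)) ^ n < 2 :=
    hlim1.eventually_lt_const (by norm_num)
  obtain ⟨L, hL1, hL2, hL3, hL4⟩ := (hev1.and ((eventually_gt_atTop 0).and
    ((eventually_ge_atTop 1).and (eventually_ge_atTop (volume.real K))))).exists
  obtain ⟨F, hF, hFc⟩ := cover_cube hn1 hconv' hcomp' (hν ▸ hKpos) h0' hneg' hrpos hKr hL2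
  rw [hν] at hFc
  -- translate back
  set F' : Finset (E n) := F.image (fun x => x - g) with hF'
  have hcov : ∀ w ∈ cube n L, ∃ x ∈ F', w - x ∈ K := by
    intro w hw
    obtain ⟨x, hx, hxK⟩ := hF w hw
    refine ⟨x - g, Finset.mem_image_of_mem _ hx, ?_⟩
    have : w - (x - g) = w - x + g := by abel
    rw [this]
    exact hxK
  refine (thetaT_le_of_cover_cube K hL2 F' hcov).trans ?_
  have hpos : (0 : ℝ) < (2 * L) ^ n := by positivity
  have h1 : volume K * ((F'.card : ℝ≥0∞) / ENNReal.ofReal ((2 * L) ^ n))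
      = ENNReal.ofReal (volume.real K * ((F'.card : ℝ) / (2 * L) ^ n)) := by
    rw [ENNReal.ofReal_mul measureReal_nonneg, ENNReal.ofReal_div_of_pos hpos,
      ENNReal.ofReal_natCast, ofReal_measureReal hKt]
  rw [h1]
  apply ENNReal.ofReal_le_ofReal
  have h2 : (F'.card : ℝ) ≤ F.card := by exact_mod_cast Finset.card_image_le
  have hlog : 0 ≤ Real.log ((n : ℝ) + 1) := Real.log_nonneg (by linarith)
  have h3 : volume.real K * ((F'.card : ℝ) / (2 * L) ^ n) ≤
      (3 * (n * Real.log (n + 1)) + 1) * 2 + 1 := by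
    calc volume.real K * ((F'.card : ℝ) / (2 * L) ^ n)
        = ((F'.card : ℝ) * volume.real K) / (2 * L) ^ n := by ring
      _ ≤ ((F.card : ℝ) * volume.real K) / (2 * L) ^ n := by gcongr
      _ ≤ ((3 * (n * Real.log (n + 1)) + 1) * (2 * (L + 2 * r)) ^ n + volume.real K)
          / (2 * L) ^ n := by gcongr
      _ = (3 * (n * Real.log (n + 1)) + 1) * ((2 * (L + 2 * r)) / (2 * L)) ^ n
          + volume.real K / (2 * L) ^ n := by
          rw [add_div, mul_div_assoc, ← div_pow]
      _ ≤ (3 * (n * Real.log (n + 1)) + 1) * 2 + 1 := by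
          apply add_le_add
          · exact mul_le_mul_of_nonneg_left hL1.le (by positivity)
          · rw [div_le_one hpos]
            calc volume.real K ≤ L := hL4
              _ ≤ 2 * L := by linarith
              _ ≤ (2 * L) ^ n := le_self_pow₀ (by linarith) (by omega)
  refine h3.trans ?_
  -- numerics
  have hlog2 : Real.log ((n : ℝ) + 1) ≤ 2 * Real.log n := by
    rw [← Real.log_rpow (by linarith)]
    apply Real.log_le_log (by linarith)
    have : ((n : ℝ) ^ (2 : ℝ)) = n ^ 2 := by
      rw [← Real.rpow_natCast]; norm_num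
    rw [this]
    nlinarith
  have hlogn : 1 / 2 ≤ Real.log n := by
    have h5 : Real.log 2 ≤ Real.log n := Real.log_le_log (by norm_num) hn2
    have h6 := Real.log_two_gt_d9
    linarith
  have h7 : 1 ≤ n * Real.log n := by nlinarith
  have h8 : n * Real.log ((n : ℝ) + 1) ≤ 2 * (n * Real.log n) := by
    calc n * Real.log ((n : ℝ) + 1) ≤ n * (2 * Real.log n) :=
          mul_le_mul_of_nonneg_left hlog2 (by linarith)
      _ = 2 * (n * Real.log n) := by ring
  calc (3 * (n * Real.log (n + 1)) + 1) * 2 + 1 = 6 * (n * Real.log (n + 1)) + 3 := by ring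
    _ ≤ 6 * (2 * (n * Real.log n)) + 3 * (n * Real.log n) := by linarith
    _ = 15 * n * Real.log n := by ring

end Vale.Agent.P230
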