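import Vale.Agent.Lib.P230.ProbApp2

/-! Auxiliary lemmas for the final assembly of P230. -/

namespace Vale.Agent.P230

open MeasureTheory Set Filter
open scoped ENNReal Pointwise

/-- the number of subsets of size at most `M`. -/
lemma card_small_subsets {α : Type*} [DecidableEq α] (G : Finset α) (M : ℕ) :
    (G.powerset.filter (fun X => X.card ≤ M)).card ≤ (G.card + 1) ^ M := by
  classical
  have h1 : (Fintype.card (Fin M → Option ↥G)) = (G.card + 1) ^ M := by simp
  rw [← h1, ← Finset.card_univ]
  let Φ : (Fin M → Option ↥G) → Finset α := fun f =>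
    Finset.univ.biUnion (fun i => (f i).elim ∅ (fun g => {g.1}))
  refine Finset.card_le_card_of_surjOn Φ ?_
  intro X hX
  rw [Finset.mem_coe, Finset.mem_filter, Finset.mem_powerset] at hX
  obtain ⟨hXG, hXM⟩ := hX
  refine ⟨fun i => if hi : i.1 < X.card then
    some ⟨(X.equivFin.symm ⟨i.1, hi⟩).1, hXG (X.equivFin.symm ⟨i.1, hi⟩).2⟩ else none,
    by simp, ?_⟩
  ext z
  simp only [Φ, Finset.mem_biUnion, Finset.mem_univ, true_and]
  constructor
  · rintro ⟨i, hi⟩
    split_ifs at hi with hc
    · simp only [Option.elim_some, Finset.mem_singleton] at hi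
      rw [hi]
      exact (X.equivFin.symm ⟨i.1, hc⟩).2
    · simp at hi
  · intro hz
    set j := X.equivFin ⟨z, hz⟩ with hj
    refine ⟨⟨j.1, lt_of_lt_of_le j.2 hXM⟩, ?_⟩
    have : X.equivFin.symm j = ⟨z, hz⟩ := by rw [hj, Equiv.symm_apply_apply]
    simp [this]

lemma one_sub_pow_ge {p : ℝ} (hp0 : 0 < p) (hp1 : p ≤ 1 / 2) (m : ℕ) :
    Real.exp (-(2 * (p * m))) ≤ (1 - p) ^ m := by
  have h1 : Real.exp (-(2 * p)) ≤ 1 - p := by
    rw [Real.exp_neg]
    have h2 : 1 + 2 * p ≤ Real.exp (2 * p) := by
      have := Real.add_one_le_exp (2 * p); linarith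
    calc (Real.exp (2 * p))⁻¹ ≤ (1 + 2 * p)⁻¹ := inv_anti₀ (by linarith) h2
      _ ≤ 1 - p := by
        rw [inv_le_iff_one_le_mul₀ (by linarith)]
        nlinarith
  calc Real.exp (-(2 * (p * m))) = (Real.exp (-(2 * p))) ^ m := by
        rw [← Real.exp_nat_mul]; ring_nf
    _ ≤ (1 - p) ^ m := pow_le_pow_left₀ (Real.exp_pos _).le h1 m

lemma Pr_biUnion_le {V : Type*} [Fintype V] {p : ℝ} (hp0 : 0 < p) (hp1 : p < 1) {ι : Type*}
    (s : Finset ι) (A : ι → Set (Finset V)) (c : ℝ) (h : ∀ i ∈ s, Pr p (A i) ≤ c) :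
    Pr p (⋃ i ∈ s, A i) ≤ s.card * c := by
  classical
  calc Pr p (⋃ i ∈ s, A i) ≤ ∑ i ∈ s, Pr p (A i) := by
        unfold Pr
        rw [Finset.sum_comm]
        refine Finset.sum_le_sum fun ω _ => ?_
        by_cases hω : ω ∈ ⋃ i ∈ s, A i
        · rw [Set.indicator_of_mem hω]
          simp only [Set.mem_iUnion, exists_prop] at hω
          obtain ⟨i, hi, hωi⟩ := hω
          calc wt p ω = (A i).indicator (wt p) ω := by rw [Set.indicator_of_mem hωi]
            _ ≤ _ := Finset.single_le_sum (f := fun i => (A i).indicator (wt p) ω)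
              (fun j _ => Set.indicator_nonneg (fun ω _ => wt_nonneg hp0 hp1 ω) ω) hi
        · rw [Set.indicator_of_notMem hω]
          exact Finset.sum_nonneg fun j _ =>
            Set.indicator_nonneg (fun ω _ => wt_nonneg hp0 hp1 ω) ω
    _ ≤ ∑ i ∈ s, c := Finset.sum_le_sum h
    _ = _ := by rw [Finset.sum_const, nsmul_eq_mul]

/-- probability of missing a set. -/
lemma Pr_disjoint {V : Type*} [Fintype V] [DecidableEq V] {p : ℝ} (F : Finset V) :
    Pr p {ω | Disjoint ω F} = (1 - p) ^ F.card := by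
  rw [← Ex_disjoint, Pr_eq_Ex]
  congr 1
  funext ω
  by_cases h : Disjoint ω F <;> simp [h]

/-- Averaging: if every point of the measurable set `Bd` belongs to the random set with probability
at least `c`, then outside of an event of probability at most `c / 4` there is an outcome with
large volume. -/
lemma exists_large {n : ℕ} {V : Type*} [Fintype V] {p : ℝ} (hp0 : 0 < p) (hp1 : p < 1)
    (Bd : Set (E n)) (hBd : MeasurableSet Bd) (hB0 : volume Bd ≠ 0) (hB1 : volume Bd ≠ ∞)
    (K : Finset V → Set (E n)) (hK : ∀ ω, MeasurableSet (K ω)) (hKB : ∀ ω, K ω ⊆ Bd)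
    (c : ℝ) (hc : 0 < c) (hin : ∀ z ∈ Bd, c ≤ Pr p {ω | z ∈ K ω})
    (Bad : Set (Finset V)) (hBad : Pr p Bad ≤ c / 4) :
    ∃ ω, ω ∉ Bad ∧ ENNReal.ofReal (c / 2) * volume Bd ≤ volume (K ω) := by
  classical
  by_contra hcon
  push Not at hcon
  have hwt := fun ω : Finset V => wt_nonneg hp0 hp1 ω
  have hsum1 : ∑ ω : Finset V, ENNReal.ofReal (wt p ω) = 1 := by
    rw [← ENNReal.ofReal_sum_of_nonneg (fun ω _ => hwt ω)]
    have := Ex_one (V := V) (p := p)
    unfold Ex at this
    simp only [mul_one] at this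
    rw [this]; simp
  -- lower bound
  have hlow : ENNReal.ofReal c * volume Bd ≤
      ∑ ω : Finset V, ENNReal.ofReal (wt p ω) * volume (K ω) := by
    calc ENNReal.ofReal c * volume Bd = ∫⁻ _ in Bd, ENNReal.ofReal c := by
          rw [setLIntegral_const]
      _ ≤ ∫⁻ z in Bd, ∑ ω : Finset V, ENNReal.ofReal (wt p ω) *
            (K ω).indicator (fun _ => (1 : ℝ≥0∞)) z := by
          refine setLIntegral_mono' hBd fun z hz => ?_
          refine (ENNReal.ofReal_le_ofReal (hin z hz)).trans ?_
          unfold Pr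
          rw [ENNReal.ofReal_sum_of_nonneg
            (fun ω _ => Set.indicator_nonneg (fun ω _ => hwt ω) ω)]
          refine Finset.sum_le_sum fun ω _ => ?_
          by_cases hz : z ∈ K ω
          · rw [Set.indicator_of_mem (show ω ∈ {ω | z ∈ K ω} from hz), Set.indicator_of_mem hz]
            simp
          · rw [Set.indicator_of_notMem (show ω ∉ {ω | z ∈ K ω} from hz)]
            simp
      _ = ∑ ω : Finset V, ∫⁻ z in Bd, ENNReal.ofReal (wt p ω) *
            (K ω).indicator (fun _ => (1 : ℝ≥0∞)) z := by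
          rw [lintegral_finset_sum]
          intro ω _
          exact (measurable_const.indicator (hK ω)).const_mul _
      _ = _ := by
          refine Finset.sum_congr rfl fun ω _ => ?_
          rw [lintegral_const_mul _ (measurable_const.indicator (hK ω)),
            lintegral_indicator_const (hK ω), one_mul, Measure.restrict_apply (hK ω),
            Set.inter_eq_left.mpr (hKB ω)]
  have hup : ∑ ω : Finset V, ENNReal.ofReal (wt p ω) * volume (K ω) ≤
      ENNReal.ofReal (c / 2) * volume Bd + ENNReal.ofReal (c / 4) * volume Bd := by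
    calc ∑ ω : Finset V, ENNReal.ofReal (wt p ω) * volume (K ω)
        ≤ ∑ ω : Finset V, (ENNReal.ofReal (wt p ω) * (ENNReal.ofReal (c / 2) * volume Bd) +
            ENNReal.ofReal (Bad.indicator (wt p) ω) * volume Bd) := by
          refine Finset.sum_le_sum fun ω _ => ?_
          by_cases hω : ω ∈ Bad
          · rw [Set.indicator_of_mem hω]
            calc ENNReal.ofReal (wt p ω) * volume (K ω) ≤ ENNReal.ofReal (wt p ω) * volume Bd := by
                  gcongr; exact hKB ω
              _ ≤ _ := le_add_self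
          · calc ENNReal.ofReal (wt p ω) * volume (K ω) ≤
                ENNReal.ofReal (wt p ω) * (ENNReal.ofReal (c / 2) * volume Bd) := by
                  gcongr; exact (hcon ω hω).le
              _ ≤ _ := le_self_add
      _ = (∑ ω : Finset V, ENNReal.ofReal (wt p ω)) * (ENNReal.ofReal (c / 2) * volume Bd) +
          (∑ ω : Finset V, ENNReal.ofReal (Bad.indicator (wt p) ω)) * volume Bd := by
          rw [Finset.sum_add_distrib, Finset.sum_mul, Finset.sum_mul]
      _ ≤ _ := by
          rw [hsum1, one_mul]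
          gcongr
          rw [← ENNReal.ofReal_sum_of_nonneg
            (fun ω _ => Set.indicator_nonneg (fun ω _ => hwt ω) ω)]
          exact ENNReal.ofReal_le_ofReal hBad
  have h1 := hlow.trans hup
  rw [← add_mul, ← ENNReal.ofReal_add (by linarith) (by linarith)] at h1
  have h2 : ENNReal.ofReal (c / 2 + c / 4) * volume Bd < ENNReal.ofReal c * volume Bd := by
    rw [ENNReal.mul_lt_mul_iff_left hB0 hB1]
    exact (ENNReal.ofReal_lt_ofReal_iff hc).mpr (by linarith)
  exact absurd h1 (not_le.mpr h2)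

end Vale.Agent.P230
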